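import Vale.Agent.P144.H436.Norm3

/-!
The normalisation: convergence of the rescaled correlations.
-/

namespace Vale.Agent.P144.H436

open Finset Vale.Agent.P144 Vale.Agent.P144.AL Filter Topology

/-- convergence from approximations -/
theorem exists_lim_of_approx {l : Filter ℝ} [NeBot l] {F : ℝ → ℝ}
    (h : ∀ ε > 0, ∃ c : ℝ, ∀ᶠ a in l, |F a - c| ≤ ε) : ∃ c, Tendsto F l (𝓝 c) := by
  have hc : Cauchy (map F l) := by
    rw [Metric.cauchy_iff]
    refine ⟨inferInstance, fun ε hε => ?_⟩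
    obtain ⟨c, hc⟩ := h (ε / 4) (by positivity)
    refine ⟨F '' {a | |F a - c| ≤ ε / 4}, image_mem_map hc, ?_⟩
    rintro _ ⟨a, ha, rfl⟩ _ ⟨b, hb, rfl⟩
    have ha : |F a - c| ≤ ε / 4 := ha
    have hb : |F b - c| ≤ ε / 4 := hb
    rw [Real.dist_eq]
    have e : F a - F b = (F a - c) - (F b - c) := by ring
    rw [e]
    refine lt_of_le_of_lt (abs_sub _ _) ?_
    linarith
  obtain ⟨c, hc⟩ := cauchy_iff_exists_le_nhds.1 hc
  exact ⟨c, hc⟩

/-- convergence of a bounded function from approximations by factors -/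
theorem lim_of_factor {l : Filter ℝ} [NeBot l] {G : ℝ → ℝ} {C : ℝ} (hC : ∀ᶠ a in l, G a ≤ C)
    (h : ∀ ε > 0, ∃ (H : ℝ → ℝ) (w : ℝ), 0 < w ∧ Tendsto H l (𝓝 w) ∧
      ∀ᶠ a in l, H a ≤ G a ∧ G a ≤ (1 + ε) * H a) : ∃ g > 0, Tendsto G l (𝓝 g) := by
  have hconv : ∃ g, Tendsto G l (𝓝 g) := by
    refine exists_lim_of_approx fun ε hε => ?_
    set C' := max C 1 with hC'
    have hC'1 : 1 ≤ C' := le_max_right _ _
    obtain ⟨H, w, hw, hH, hb⟩ := h (ε / (2 * C')) (by positivity)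
    refine ⟨w, ?_⟩
    have h1 : ∀ᶠ a in l, |H a - w| < ε / 2 := by
      have := (Metric.tendsto_nhds.1 hH) (ε / 2) (by positivity)
      simpa [Real.dist_eq] using this
    have h2 : ∀ᶠ a in l, 0 < H a := hH.eventually_const_lt hw
    filter_upwards [h1, hb, hC, h2] with a h1 hb hC h2
    have h3 : |G a - H a| ≤ ε / 2 := by
      rw [abs_of_nonneg (by linarith [hb.1])]
      have h4 : G a - H a ≤ ε / (2 * C') * H a := by linarith [hb.2]
      have h5 : H a ≤ C' := (hb.1.trans hC).trans (le_max_left _ _)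
      have h6 : ε / (2 * C') * H a ≤ ε / (2 * C') * C' :=
        mul_le_mul_of_nonneg_left h5 (by positivity)
      have h7 : ε / (2 * C') * C' = ε / 2 := by field_simp
      linarith
    have e : G a - w = (G a - H a) + (H a - w) := by ring
    rw [e]
    refine (abs_add_le _ _).trans ?_
    linarith
  obtain ⟨g, hg⟩ := hconv
  obtain ⟨H, w, hw, hH, hb⟩ := h 1 one_pos
  refine ⟨g, lt_of_lt_of_le hw ?_, hg⟩
  exact le_of_tendsto_of_tendsto hH hg (hb.mono fun a h => h.1)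

theorem lim_floor {t : ℝ} (ht : 0 < t) :
    Tendsto (fun a : ℝ => a * (⌊t / a⌋₊ : ℝ)) (𝓝[>] 0) (𝓝 t) := by
  have h1 : Tendsto (fun a : ℝ => t - a) (𝓝[>] 0) (𝓝 t) := by
    have : Tendsto (fun a : ℝ => t - a) (𝓝 0) (𝓝 (t - 0)) := by
      exact (continuous_const.sub continuous_id).tendsto 0
    rw [sub_zero] at this
    exact this.mono_left nhdsWithin_le_nhds
  refine tendsto_of_tendsto_of_tendsto_of_le_of_le' h1 tendsto_const_nhds ?_ ?_
  · filter_upwards [self_mem_nhdsWithin] with a ha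
    have ha : 0 < a := ha
    have := Nat.lt_floor_add_one (t / a)
    rw [div_lt_iff₀ ha] at this
    linarith
  · filter_upwards [self_mem_nhdsWithin] with a ha
    have ha : 0 < a := ha
    have := Nat.floor_le (show 0 ≤ t / a by positivity)
    rw [le_div_iff₀ ha] at this
    linarith

theorem floor_atTop {t : ℝ} (ht : 0 < t) :
    Tendsto (fun a : ℝ => ⌊t / a⌋₊) (𝓝[>] 0) atTop := by
  refine tendsto_nat_floor_atTop.comp ?_
  have := tendsto_inv_nhdsGT_zero (𝕜 := ℝ)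
  have h2 := this.const_mul_atTop ht
  refine h2.congr fun a => ?_
  rw [div_eq_mul_inv]

/-- the rescaled diagonal function -/
theorem lim_Dg : ∃ A > 0, ∀ t : ℝ, 0 < t →
    Tendsto (fun a : ℝ => a ^ (-(2:ℝ) / 8) * Dg ⌊t / a⌋₊) (𝓝[>] 0)
      (𝓝 (A * t ^ (-(2:ℝ) / 8))) := by
  obtain ⟨A, hA, h⟩ := Dg_asymp
  refine ⟨A, hA, fun t ht => ?_⟩
  have h1 := h.comp (floor_atTop ht)
  have h2 : Tendsto (fun a : ℝ => (a * (⌊t / a⌋₊ : ℝ)) ^ (-(2:ℝ) / 8)) (𝓝[>] 0)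
      (𝓝 (t ^ (-(2:ℝ) / 8))) :=
    (lim_floor ht).rpow_const (Or.inl ht.ne')
  have h3 := h1.mul h2
  refine h3.congr' ?_
  have h4 : ∀ᶠ a in 𝓝[>] (0:ℝ), 1 ≤ ⌊t / a⌋₊ := (floor_atTop ht).eventually_ge_atTop 1
  filter_upwards [self_mem_nhdsWithin, h4] with a ha h4
  have ha : 0 < a := ha
  have hn : (0:ℝ) < ⌊t / a⌋₊ := by exact_mod_cast h4
  simp only [Function.comp]
  rw [Real.mul_rpow ha.le hn.le]
  have e : (⌊t / a⌋₊ : ℝ) ^ (1 / 4 : ℝ) * (⌊t / a⌋₊ : ℝ) ^ (-(2:ℝ) / 8) = 1 := by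
    rw [← Real.rpow_add hn]
    norm_num
  calc _ = ((⌊t / a⌋₊ : ℝ) ^ (1 / 4 : ℝ) * (⌊t / a⌋₊ : ℝ) ^ (-(2:ℝ) / 8))
        * (a ^ (-(2:ℝ) / 8) * Dg ⌊t / a⌋₊) := by ring
    _ = _ := by rw [e, one_mul]

/-- Ratios of disorder correlations converge. -/
def RatioM : Prop := ∀ X X' : Finset ℂ, (∀ z ∈ X, z ∈ Dia) → (∀ z ∈ X', z ∈ Dia) →
  X.card = X'.card → Even X.card →
    ∃ ρ > 0, Tendsto (fun a => Mn a X / Mn a X') (𝓝[>] 0) (𝓝 ρ)

/-- The quotients of spin and disorder correlations converge. -/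
def QuotSM (J : ℝ) : Prop := ∀ X : Finset ℂ, (∀ z ∈ X, z ∈ Dia) → Even X.card →
    ∃ π', Tendsto (fun a => Sn J a X / Mn a X) (𝓝[>] 0) (𝓝 π')

theorem Mn_pos (a : ℝ) (X : Finset ℂ) : 0 < Mn a X := MM_pos _ _

/-- the rescaled disorder correlation -/
noncomputable def Gn (X : Finset ℂ) (a : ℝ) : ℝ := a ^ (-(X.card : ℝ) / 8) * Mn a X

/-- the rescaled spin correlation -/
noncomputable def Fn (J : ℝ) (X : Finset ℂ) (a : ℝ) : ℝ := a ^ (-(X.card : ℝ) / 8) * Sn J a X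

theorem Gn_pos {X : Finset ℂ} {a : ℝ} (ha : 0 < a) : 0 < Gn X a :=
  mul_pos (Real.rpow_pos_of_pos ha _) (Mn_pos a X)

theorem diag_mem {t : ℝ} (ht : 0 < t) (h : 2 * t < 1) : (0 + ⟨t, t⟩ : ℂ) ∈ Dia := by
  show |(0 + (⟨t, t⟩ : ℂ)).re| + |(0 + (⟨t, t⟩ : ℂ)).im| < 1
  simp only [zero_add]
  rw [abs_of_pos ht]
  linarith

theorem pair_card {z w : ℂ} (h : z ≠ w) : ({z, w} : Finset ℂ).card = 2 := Finset.card_pair h

/-- lower bounds at the origin -/
theorem origin_lower {J : ℝ} (hJ : 0 < J) {t : ℝ} (ht : 0 < t) (ht1 : 2 * t < 1) :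
    ∀ᶠ a in 𝓝[>] (0:ℝ), Dg ⌊t / a⌋₊ ≤ Mn a {0, 0 + ⟨t, t⟩} ∧
      Sn J a {0, 0 + ⟨t, t⟩} ≤ Dg ⌊t / a⌋₊ := by
  classical
  have hX : ∀ z ∈ ({0, 0 + ⟨t, t⟩} : Finset ℂ), z ∈ Dia := by
    intro z hz
    rw [Finset.mem_insert, Finset.mem_singleton] at hz
    rcases hz with rfl | rfl
    · exact Dia_zero
    · exact diag_mem ht ht1
  obtain ⟨κ, hκ, hκ0⟩ := ((ev_mac hX).and self_mem_nhdsWithin).exists
  have h4 : ∀ᶠ a in 𝓝[>] (0:ℝ), 1 ≤ ⌊t / a⌋₊ := (floor_atTop ht).eventually_ge_atTop 1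
  filter_upwards [ev_sep hκ hκ0, self_mem_nhdsWithin, h4] with a hs ha h4
  have ha : 0 < a := ha
  constructor
  · rw [Mn_pair (ne_diag ht 0), fl_zero, fl_diag ha ht]
    have h := MM_ge (disc Dia a) (0, 0) h4
    have e : ((0:ℤ), (0:ℤ)) + ((⌊t / a⌋₊ : ℤ), (⌊t / a⌋₊ : ℤ)) = ((⌊t / a⌋₊ : ℤ), (⌊t / a⌋₊ : ℤ)) := by
      simp
    rw [e] at h
    exact h
  · rw [Sn_pair, fl_zero, fl_diag ha ht]
    refine fcor_diag_le hJ h4 ?_ ?_
    · have := hs.mem (z := 0) (by simp)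
      rwa [fl_zero] at this
    · have := hs.mem (z := 0 + ⟨t, t⟩) (by simp)
      rwa [fl_diag ha ht] at this

/-- Two points. -/
theorem G_two {J : ℝ} (hJ : 0 < J) (hm : Merge J) (hr : RatioM) (X : Finset ℂ)
    (hX : ∀ z ∈ X, z ∈ Dia) (hc : X.card = 2) : ∃ g > 0, Tendsto (Gn X) (𝓝[>] 0) (𝓝 g) := by
  obtain ⟨C, hC, hup⟩ := Mn_upper hJ hm X hX
  obtain ⟨A, hA, hDg⟩ := lim_Dg
  refine lim_of_factor (C := C) hup fun ε hε => ?_
  -- choose `ε'` with `1 / (1 - ε') ≤ 1 + ε`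
  set ε' := ε / (1 + ε) with hε'
  have h0 : 0 < ε' := by positivity
  have h1 : (1 + ε) * (1 - ε') = 1 := by rw [hε']; field_simp; ring
  obtain ⟨t₀, ht₀, hmt⟩ := hm 0 Dia_zero ε' h0
  set t := min t₀ (1 / 2) / 2 with ht
  have ht0 : 0 < t := by positivity
  have htt : t < t₀ := by
    have := min_le_left t₀ (1 / 2); rw [ht]; linarith
  have ht1 : 2 * t < 1 := by
    have := min_le_right t₀ (1 / 2); rw [ht]; linarith
  have hev := hmt t ht0 htt
  set X' : Finset ℂ := {0, 0 + ⟨t, t⟩} with hX'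
  have hc' : X'.card = 2 := pair_card (ne_diag ht0 0)
  have hX'm : ∀ z ∈ X', z ∈ Dia := by
    intro z hz
    rw [hX', Finset.mem_insert, Finset.mem_singleton] at hz
    rcases hz with rfl | rfl
    · exact Dia_zero
    · exact diag_mem ht0 ht1
  obtain ⟨ρ, hρ, hρt⟩ := hr X X' hX hX'm (by rw [hc, hc']) (by rw [hc]; exact even_two)
  refine ⟨fun a => Mn a X / Mn a X' * (a ^ (-(2:ℝ) / 8) * Dg ⌊t / a⌋₊), ρ * (A * t ^ (-(2:ℝ) / 8)),
    by positivity, hρt.mul (hDg t ht0), ?_⟩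
  filter_upwards [origin_lower hJ ht0 ht1, hev, self_mem_nhdsWithin] with a h2 h3 ha
  have ha : 0 < a := ha
  have p1 := Mn_pos a X
  have p2 := Mn_pos a X'
  have e : Gn X a = Mn a X / Mn a X' * (a ^ (-(2:ℝ) / 8) * Mn a X') := by
    unfold Gn
    rw [hc]
    push_cast
    field_simp
  rw [e]
  have hq : 0 ≤ Mn a X / Mn a X' := by positivity
  have ha' : 0 < a ^ (-(2:ℝ) / 8) := Real.rpow_pos_of_pos ha _
  constructor
  · exact mul_le_mul_of_nonneg_left (mul_le_mul_of_nonneg_left h2.1 ha'.le) hq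
  · have h4 : Mn a X' ≤ (1 + ε) * Dg ⌊t / a⌋₊ := by
      have h5 : (1 - ε') * Mn a X' ≤ Dg ⌊t / a⌋₊ := h3.trans h2.2
      calc Mn a X' = (1 + ε) * ((1 - ε') * Mn a X') := by rw [← mul_assoc, h1, one_mul]
        _ ≤ _ := mul_le_mul_of_nonneg_left h5 (by positivity)
    calc Mn a X / Mn a X' * (a ^ (-(2:ℝ) / 8) * Mn a X')
        ≤ Mn a X / Mn a X' * (a ^ (-(2:ℝ) / 8) * ((1 + ε) * Dg ⌊t / a⌋₊)) :=
          mul_le_mul_of_nonneg_left (mul_le_mul_of_nonneg_left h4 ha'.le) hq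
      _ = _ := by ring

/-! ### more points -/

theorem cor_gks_union {J : ℝ} (hJ : 0 < J) {Λ A B : Finset Site} (hd : Disjoint A B) :
    fcor J Λ A * fcor J Λ B ≤ fcor J Λ (A ∪ B) := by
  rw [fcor_eq, fcor_eq, fcor_eq]
  have hβ : 0 ≤ Kc / J := (div_pos kc_pos hJ).le
  refine (gks2 (KK_nonneg hβ hJ.le le_rfl Λ) (fun _ => le_rfl) (gin_prod A) (gin_prod B)).trans
    (le_of_eq ?_)
  unfold cor
  congr 1
  funext s
  rw [prod_union hd]

theorem Sep.sub_far {Y : Finset ℂ} {κ a : ℝ} (h : Sep Y κ a) {D : Finset Site}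
    (hD : D ⊆ Y.image (fl a)) : D ⊆ disc Dia a ∧
      ∀ u ∈ D, ∀ v ∈ D, u ≠ v → ((⌊κ / a⌋₊ : ℕ) : ℤ) ≤ |u.1 - v.1| + |u.2 - v.2| := by
  constructor
  · intro w hw
    obtain ⟨z, hz, rfl⟩ := Finset.mem_image.1 (hD hw)
    exact h.mem hz
  · intro u hu v hv huv
    obtain ⟨z, hz, rfl⟩ := Finset.mem_image.1 (hD hu)
    obtain ⟨z', hz', rfl⟩ := Finset.mem_image.1 (hD hv)
    have h3 := h.apart z hz z' hz' (fun h => huv (by rw [h]))
    unfold d1 at h3
    omega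

theorem mac_shift {R : Finset ℂ} {κ : ℝ} (hκ : 0 < κ) (hR : Mac (insert 0 R) (2 * κ))
    (h0 : (0:ℂ) ∉ R) {t : ℝ} (ht : 0 < t) (htκ : t ≤ κ) :
    Mac (insert 0 R) κ ∧ Mac (insert (0 + ⟨t, t⟩) R) κ ∧ (0 + ⟨t, t⟩ : ℂ) ∉ R ∧
      (0 + ⟨t, t⟩ : ℂ) ∈ Dia := by
  have hdist : ∀ z ∈ R, 8 * κ ≤ |z.re| + |z.im| := by
    intro z hz
    have := hR.2 z (mem_insert_of_mem hz) 0 (mem_insert_self _ _) (fun h => h0 (h ▸ hz))
    simp only [Complex.zero_re, Complex.zero_im, sub_zero] at this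
    linarith
  have h00 := hR.1 0 (mem_insert_self _ _)
  simp only [Complex.zero_re, Complex.zero_im, abs_zero] at h00
  have hre : (0 + ⟨t, t⟩ : ℂ).re = t := by simp
  have him : (0 + ⟨t, t⟩ : ℂ).im = t := by simp
  have hdt : ∀ z ∈ R, 4 * κ ≤ |t - z.re| + |t - z.im| := by
    intro z hz
    have h1 := hdist z hz
    have a1 := abs_sub_abs_le_abs_sub z.re t
    have a2 := abs_sub_abs_le_abs_sub z.im t
    rw [abs_of_pos ht, abs_sub_comm] at a1 a2
    linarith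
  refine ⟨⟨fun z hz => by linarith [hR.1 z hz], fun z hz z' hz' h => by
    linarith [hR.2 z hz z' hz' h]⟩, ⟨?_, ?_⟩, ?_, ?_⟩
  · intro z hz
    rcases Finset.mem_insert.1 hz with rfl | hz
    · rw [hre, him, abs_of_pos ht]; linarith
    · linarith [hR.1 z (mem_insert_of_mem hz)]
  · intro z hz z' hz' hne
    rcases Finset.mem_insert.1 hz with rfl | hz <;> rcases Finset.mem_insert.1 hz' with rfl | hz'
    · exact absurd rfl hne
    · rw [hre, him]; exact hdt z' hz'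
    · rw [hre, him, abs_sub_comm z.re, abs_sub_comm z.im]; exact hdt z hz
    · linarith [hR.2 z (mem_insert_of_mem hz) z' (mem_insert_of_mem hz') hne]
  · intro h
    have := hdt _ h
    rw [hre, him] at this
    simp at this
    linarith
  · show |(0 + ⟨t, t⟩ : ℂ).re| + |(0 + ⟨t, t⟩ : ℂ).im| < 1
    rw [hre, him, abs_of_pos ht]; linarith

theorem merge_bounds {J : ℝ} (hJ : 0 < J) {R : Finset ℂ} {κ : ℝ} (hκ : 0 < κ)
    (hR : Mac (insert 0 R) (2 * κ)) (h0 : (0:ℂ) ∉ R) : ∃ K : ℝ, 0 < K ∧ ∀ t : ℝ, 0 < t → t ≤ κ →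
      ∀ᶠ a in 𝓝[>] (0:ℝ),
        Fn J R a * Fn J {0, 0 + ⟨t, t⟩} a ≤ Fn J (insert 0 (insert (0 + ⟨t, t⟩) R)) a ∧
        Fn J (insert 0 (insert (0 + ⟨t, t⟩) R)) a ≤ Fn J R a * Fn J {0, 0 + ⟨t, t⟩} a + K := by
  classical
  have hβ : 0 ≤ Kc / J := (div_pos kc_pos hJ).le
  choose C hC0 hC using fcor_upper hJ (fun k hk => fcor_box_diag hJ hk) Dg_asymp
  set n : ℕ := R.card + 2 with hn
  set M : ℝ := ∑ k ∈ range n, C k with hM
  have hCM : ∀ k < n, C k ≤ M := fun k hk =>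
    Finset.single_le_sum (f := C) (fun i _ => hC0 i) (Finset.mem_range.2 hk)
  have hM0 : 0 ≤ M := Finset.sum_nonneg fun i _ => hC0 i
  refine ⟨2 ^ R.card * M ^ 2 * (κ / 2) ^ (-(n : ℝ) / 8) + 1, by positivity, ?_⟩
  intro t ht htκ
  obtain ⟨m0, m1, hptR, hptD⟩ := mac_shift hκ hR h0 ht htκ
  have h4 : ∀ᶠ a in 𝓝[>] (0:ℝ), 1 ≤ ⌊t / a⌋₊ := (floor_atTop ht).eventually_ge_atTop 1
  filter_upwards [ev_sep m0 hκ, ev_sep m1 hκ, self_mem_nhdsWithin, h4] with a s0 s1 ha h4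
  have ha : 0 < a := ha
  set L := ⌊κ / a⌋₊ with hL
  have hLpos : (0:ℝ) < L := by
    have := s0.two
    have : 0 < L := by omega
    exact_mod_cast this
  set p : ℂ := 0 + ⟨t, t⟩ with hp
  set B : Finset Site := R.image (fl a) with hB
  set i : Site := fl a 0 with hi
  set j : Site := fl a p with hj
  have hij : i ≠ j := by
    rw [hi, hj, fl_zero, hp, fl_diag ha ht]
    intro h
    have := congrArg Prod.fst h
    simp at this
    omega
  have hiB : i ∉ B := by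
    rw [hB, Finset.mem_image]
    rintro ⟨z, hz, hzi⟩
    have := s0.inj (Finset.mem_coe.2 (mem_insert_of_mem hz))
      (Finset.mem_coe.2 (mem_insert_self 0 R)) hzi
    exact h0 (this ▸ hz)
  have hjB : j ∉ B := by
    rw [hB, Finset.mem_image]
    rintro ⟨z, hz, hzi⟩
    have := s1.inj (Finset.mem_coe.2 (mem_insert_of_mem hz))
      (Finset.mem_coe.2 (mem_insert_self p R)) hzi
    exact hptR (this ▸ hz)
  have hBc : B.card = R.card := Finset.card_image_of_injOn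
    (s0.inj.mono (by intro z hz; exact mem_insert_of_mem hz))
  have hiB' : insert i B = (insert 0 R).image (fl a) := by rw [Finset.image_insert]
  have hjB' : insert j B = (insert p R).image (fl a) := by rw [Finset.image_insert]
  have hBΛ : B ⊆ disc Dia a := (s0.sub_far (D := B) (by rw [← hiB']; exact subset_insert _ _)).1
  have hiΛ : i ∈ disc Dia a := s0.mem (mem_insert_self _ _)
  have hjΛ : j ∈ disc Dia a := s1.mem (mem_insert_self _ _)
  have himg : (insert 0 (insert p R)).image (fl a) = insert i (insert j B) := by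
    rw [Finset.image_insert, Finset.image_insert]
  have h0p : (0:ℂ) ≠ p := ne_diag ht 0
  have hcard : (insert 0 (insert p R)).card = n := by
    rw [Finset.card_insert_of_notMem, Finset.card_insert_of_notMem hptR, hn]
    rw [Finset.mem_insert]
    rintro (h | h)
    · exact h0p h
    · exact h0 h
  have hpc : ({0, p} : Finset ℂ).card = 2 := pair_card h0p
  have ea : a ^ (-((R.card : ℝ)) / 8) * a ^ (-((2 : ℕ) : ℝ) / 8) = a ^ (-((n : ℕ) : ℝ) / 8) := by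
    rw [← Real.rpow_add ha]
    congr 1
    rw [hn]; push_cast; ring
  have hprod : Fn J R a * Fn J {0, p} a = a ^ (-((n : ℕ) : ℝ) / 8)
      * (fcor J (disc Dia a) B * fcor J (disc Dia a) {i, j}) := by
    unfold Fn
    rw [hpc, Sn_pair, ← ea]
    unfold Sn
    ring
  have hFn : Fn J (insert 0 (insert p R)) a
      = a ^ (-((n : ℕ) : ℝ) / 8) * fcor J (disc Dia a) (insert i (insert j B)) := by
    unfold Fn Sn
    rw [hcard, himg]
  have han : 0 < a ^ (-((n : ℕ) : ℝ) / 8) := Real.rpow_pos_of_pos ha _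
  constructor
  · rw [hprod, hFn]
    refine mul_le_mul_of_nonneg_left ?_ han.le
    have hd : Disjoint B {i, j} := by
      rw [Finset.disjoint_right]
      intro x hx
      rw [Finset.mem_insert, Finset.mem_singleton] at hx
      rcases hx with rfl | rfl
      · exact hiB
      · exact hjB
    refine (cor_gks_union hJ hd).trans (le_of_eq ?_)
    congr 1
    ext x
    simp only [mem_union, mem_insert, mem_singleton]
    tauto
  · rw [hprod, hFn]
    have hleb := cor_leb (β := Kc / J) (J := J) (lam := 0) hβ hJ.le le_rfl hBΛ hiΛ hjΛ hij hiB hjB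
    rw [← fcor_eq, ← fcor_eq, ← fcor_eq] at hleb
    have hsum : ∑ D ∈ B.powerset, cor (Kc / J) J 0 (disc Dia a) (insert i D)
        * cor (Kc / J) J 0 (disc Dia a) (insert j (B \ D))
        ≤ 2 ^ R.card * M ^ 2 * (L : ℝ) ^ (-(n : ℝ) / 8) := by
      have hterm : ∀ D ∈ B.powerset, cor (Kc / J) J 0 (disc Dia a) (insert i D)
          * cor (Kc / J) J 0 (disc Dia a) (insert j (B \ D)) ≤ M ^ 2 * (L : ℝ) ^ (-(n : ℝ) / 8) := by
        intro D hD
        rw [Finset.mem_powerset] at hD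
        have hc1 : (insert i D).card = D.card + 1 :=
          Finset.card_insert_of_notMem fun h => hiB (hD h)
        have hc2 : (insert j (B \ D)).card = R.card - D.card + 1 := by
          rw [Finset.card_insert_of_notMem fun h => hjB (Finset.sdiff_subset h),
            Finset.card_sdiff_of_subset hD, hBc]
        have hDc : D.card ≤ R.card := hBc ▸ Finset.card_le_card hD
        have f1 := s0.sub_far (D := insert i D) (by rw [← hiB']; exact insert_subset_insert _ hD)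
        have f2 := s1.sub_far (D := insert j (B \ D))
          (by rw [← hjB']; exact insert_subset_insert _ sdiff_subset)
        have a1 := hC (D.card + 1) _ _ L f1.1 hc1 s0.two f1.2
        have a2 := hC (R.card - D.card + 1) _ _ L f2.1 hc2 s0.two f2.2
        rw [fcor_eq] at a1 a2
        have b1 : C (D.card + 1) ≤ M := hCM _ (by omega)
        have b2 : C (R.card - D.card + 1) ≤ M := hCM _ (by omega)
        have c1 := a1.trans (mul_le_mul_of_nonneg_right b1 (by positivity))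
        have c2 := a2.trans (mul_le_mul_of_nonneg_right b2 (by positivity))
        refine (mul_le_mul c1 c2 (cor_nonneg hβ hJ.le le_rfl _ _) (by positivity)).trans
          (le_of_eq ?_)
        have e : (L : ℝ) ^ (-(n : ℝ) / 8) = (L : ℝ) ^ (-((D.card + 1 : ℕ) : ℝ) / 8)
            * (L : ℝ) ^ (-((R.card - D.card + 1 : ℕ) : ℝ) / 8) := by
          rw [← Real.rpow_add hLpos]
          congr 1
          rw [hn]
          push_cast [Nat.cast_sub hDc]
          ring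
        rw [e]; ring
      refine (Finset.sum_le_card_nsmul _ _ _ hterm).trans (le_of_eq ?_)
      rw [Finset.card_powerset, hBc, nsmul_eq_mul]
      push_cast
      ring
    have h5 : a ^ (-((n : ℕ) : ℝ) / 8) * (2 ^ R.card * M ^ 2 * (L : ℝ) ^ (-(n : ℝ) / 8))
        ≤ 2 ^ R.card * M ^ 2 * (κ / 2) ^ (-(n : ℝ) / 8) := by
      have h0' : (-(n : ℝ) / 8) ≤ 0 := by
        have : (0:ℝ) ≤ n := by positivity
        linarith
      have h6 : (L : ℝ) ^ (-(n : ℝ) / 8) ≤ (κ / (2 * a)) ^ (-(n : ℝ) / 8) :=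
        Real.rpow_le_rpow_of_nonpos (by positivity) s0.lower h0'
      have h7 : (κ / (2 * a)) ^ (-(n : ℝ) / 8) = (κ / 2) ^ (-(n : ℝ) / 8) * a ^ ((n : ℝ) / 8) := by
        have e : κ / (2 * a) = κ / 2 * a⁻¹ := by field_simp
        rw [e, Real.mul_rpow (by positivity) (by positivity), Real.inv_rpow ha.le,
          ← Real.rpow_neg ha.le]
        congr 2
        ring
      calc a ^ (-((n : ℕ) : ℝ) / 8) * (2 ^ R.card * M ^ 2 * (L : ℝ) ^ (-(n : ℝ) / 8))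
          ≤ a ^ (-((n : ℕ) : ℝ) / 8) * (2 ^ R.card * M ^ 2 * ((κ / 2) ^ (-(n : ℝ) / 8)
            * a ^ ((n : ℝ) / 8))) := by
            refine mul_le_mul_of_nonneg_left ?_ han.le
            exact mul_le_mul_of_nonneg_left (h6.trans h7.le) (by positivity)
        _ = 2 ^ R.card * M ^ 2 * (κ / 2) ^ (-(n : ℝ) / 8)
            * (a ^ (-((n : ℕ) : ℝ) / 8) * a ^ ((n : ℝ) / 8)) := by ring
        _ = _ := by
          rw [← Real.rpow_add ha]
          have : -((n : ℕ) : ℝ) / 8 + (n : ℝ) / 8 = 0 := by ring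
          rw [this, Real.rpow_zero, mul_one]
    calc a ^ (-((n : ℕ) : ℝ) / 8) * fcor J (disc Dia a) (insert i (insert j B))
        ≤ a ^ (-((n : ℕ) : ℝ) / 8) * (fcor J (disc Dia a) B * fcor J (disc Dia a) {i, j}
          + 2 ^ R.card * M ^ 2 * (L : ℝ) ^ (-(n : ℝ) / 8)) :=
          mul_le_mul_of_nonneg_left (hleb.trans (by linarith)) han.le
      _ ≤ _ := by
        rw [mul_add]
        linarith

theorem Fn_gks {J : ℝ} (hJ : 0 < J) {X Y : Finset ℂ} (hX : ∀ z ∈ X, z ∈ Dia)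
    (hY : ∀ z ∈ Y, z ∈ Dia) (hd : Disjoint X Y) :
    ∀ᶠ a in 𝓝[>] (0:ℝ), Fn J X a * Fn J Y a ≤ Fn J (X ∪ Y) a := by
  classical
  have hXY : ∀ z ∈ X ∪ Y, z ∈ Dia := by
    intro z hz
    rcases Finset.mem_union.1 hz with h | h
    · exact hX z h
    · exact hY z h
  obtain ⟨κ, hκ, hκ0⟩ := ((ev_mac hXY).and self_mem_nhdsWithin).exists
  filter_upwards [ev_sep hκ hκ0, self_mem_nhdsWithin] with a hs ha
  have ha : 0 < a := ha
  have hdi : Disjoint (X.image (fl a)) (Y.image (fl a)) := by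
    rw [Finset.disjoint_left]
    intro w h1 h2
    obtain ⟨z, hz, rfl⟩ := Finset.mem_image.1 h1
    obtain ⟨z', hz', h⟩ := Finset.mem_image.1 h2
    have := hs.inj (Finset.mem_coe.2 (mem_union_right X hz'))
      (Finset.mem_coe.2 (mem_union_left Y hz)) h
    subst this
    exact Finset.disjoint_left.1 hd hz hz'
  have h := cor_gks_union hJ (Λ := disc Dia a) hdi
  rw [← Finset.image_union] at h
  unfold Fn
  have e : a ^ (-((X ∪ Y).card : ℝ) / 8) = a ^ (-(X.card : ℝ) / 8) * a ^ (-(Y.card : ℝ) / 8) := by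
    rw [← Real.rpow_add ha, Finset.card_union_of_disjoint hd]
    congr 1
    push_cast; ring
  rw [e]
  have h0 : 0 ≤ a ^ (-(X.card : ℝ) / 8) * a ^ (-(Y.card : ℝ) / 8) := by positivity
  have := mul_le_mul_of_nonneg_left h h0
  unfold Sn
  linarith

theorem Fn_lim {J : ℝ} (hp : QuotSM J) {X : Finset ℂ} (hX : ∀ z ∈ X, z ∈ Dia) (he : Even X.card)
    {g : ℝ} (hg : Tendsto (Gn X) (𝓝[>] 0) (𝓝 g)) : ∃ c, Tendsto (Fn J X) (𝓝[>] 0) (𝓝 c) := by
  obtain ⟨π', hπ⟩ := hp X hX he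
  refine ⟨π' * g, (hπ.mul hg).congr fun a => ?_⟩
  unfold Gn Fn
  have := (Mn_pos a X).ne'
  field_simp

theorem MM_zero (Λ : Finset Site) : MM Λ 0 = 1 := div_self (QQ_pos Λ 0).ne'

theorem exists_pt (B : Finset ℂ) (z : ℂ) {u : ℂ} (hu : u ≠ 0) {δ : ℝ} (hδ : 0 < δ) :
    ∃ t : ℝ, 0 < t ∧ t < δ ∧ z + t * u ∉ B := by
  have hinf : (Set.Ioo (0:ℝ) δ).Infinite := Set.Ioo_infinite hδ
  have hinj : Set.InjOn (fun t : ℝ => z + t * u) (Set.Ioo 0 δ) := by
    intro s _ t _ h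
    have h1 : (s:ℂ) * u = t * u := add_left_cancel h
    exact_mod_cast mul_right_cancel₀ hu h1
  obtain ⟨w, hw, hwB⟩ := (hinf.image hinj).exists_notMem_finset B
  obtain ⟨t, ht, rfl⟩ := hw
  exact ⟨t, ht.1, ht.2, hwB⟩

theorem dia_lt {z : ℂ} (hz : z ∈ Dia) : ∃ δ > 0, ∀ t : ℝ, 0 < t → t < δ → z + ⟨t, t⟩ ∈ Dia := by
  have hz' : |z.re| + |z.im| < 1 := hz
  refine ⟨(1 - |z.re| - |z.im|) / 2, by linarith, fun t ht htd => ?_⟩
  show |(z + ⟨t, t⟩).re| + |(z + ⟨t, t⟩).im| < 1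
  simp only [Complex.add_re, Complex.add_im]
  have h1 := abs_add_le z.re t
  have h2 := abs_add_le z.im t
  rw [abs_of_pos ht] at h1 h2
  linarith

/-- the lower bound for the spins at a pair of close points -/
theorem pair_lower {J : ℝ} (hJ : 0 < J) (hm : Merge J) (hr : RatioM) (hp : QuotSM J) {z : ℂ}
    (hz : z ∈ Dia) : ∃ t₀ > 0, ∀ t : ℝ, 0 < t → t < t₀ → z + ⟨t, t⟩ ∈ Dia ∧
      ∃ c > 0, Tendsto (Fn J {z, z + ⟨t, t⟩}) (𝓝[>] 0) (𝓝 c) := by
  obtain ⟨t₀, ht₀, h1⟩ := hm z hz (1 / 2) (by norm_num)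
  obtain ⟨δ, hδ, h2⟩ := dia_lt hz
  refine ⟨min t₀ δ, lt_min ht₀ hδ, fun t ht htt => ?_⟩
  have hD := h2 t ht (htt.trans_le (min_le_right _ _))
  have hX : ∀ w ∈ ({z, z + ⟨t, t⟩} : Finset ℂ), w ∈ Dia := by
    intro w hw
    rw [Finset.mem_insert, Finset.mem_singleton] at hw
    rcases hw with rfl | rfl
    · exact hz
    · exact hD
  have hc : ({z, z + ⟨t, t⟩} : Finset ℂ).card = 2 := pair_card (ne_diag ht z)
  obtain ⟨g, hg, hgt⟩ := G_two hJ hm hr _ hX hc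
  obtain ⟨c, hct⟩ := Fn_lim hp hX (by rw [hc]; exact even_two) hgt
  refine ⟨hD, c, ?_, hct⟩
  have h3 := h1 t ht (htt.trans_le (min_le_left _ _))
  have h4 : ∀ᶠ a in 𝓝[>] (0:ℝ), 1 / 2 * Gn {z, z + ⟨t, t⟩} a ≤ Fn J {z, z + ⟨t, t⟩} a := by
    filter_upwards [h3, self_mem_nhdsWithin] with a h3 ha
    have ha : 0 < a := ha
    unfold Gn Fn
    have h5 : 0 < a ^ (-((({z, z + ⟨t, t⟩} : Finset ℂ).card : ℕ) : ℝ) / 8) :=
      Real.rpow_pos_of_pos ha _
    have := mul_le_mul_of_nonneg_left h3 h5.le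
    linarith
  have h5 := le_of_tendsto_of_tendsto (hgt.const_mul (1 / 2)) hct h4
  linarith

theorem choose_t {K ε c A κ t₁ t₂ : ℝ} (hK : 0 < K) (hε : 0 < ε) (hc : 0 < c) (hA : 0 < A)
    (hκ0 : 0 < κ) (ht₁ : 0 < t₁) (ht₂ : 0 < t₂) : ∃ t : ℝ, 0 < t ∧ t < t₁ ∧ t < t₂ ∧ t ≤ κ ∧
      2 * t < 1 ∧ K / ε < c * (1 / 2 * (A * t ^ (-(2:ℝ) / 8))) := by
  set T : ℝ := 2 * K / (ε * c * A) + 1 with hT
  have hT0 : 0 < T := by positivity
  set t : ℝ := min (min (min t₁ t₂) κ) (min (T ^ (-(4:ℝ))) (1 / 2)) / 2 with ht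
  have ht0 : 0 < t := by positivity
  have hmin : 2 * t = min (min (min t₁ t₂) κ) (min (T ^ (-(4:ℝ))) (1 / 2)) := by rw [ht]; ring
  have ht1 : t < t₁ := by
    have : 2 * t ≤ t₁ := by
      rw [hmin]; exact (min_le_left _ _).trans ((min_le_left _ _).trans (min_le_left _ _))
    linarith
  have ht2 : t < t₂ := by
    have : 2 * t ≤ t₂ := by
      rw [hmin]; exact (min_le_left _ _).trans ((min_le_left _ _).trans (min_le_right _ _))
    linarith
  have htκ : t ≤ κ := by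
    have : 2 * t ≤ κ := by
      rw [hmin]; exact (min_le_left _ _).trans (min_le_right _ _)
    linarith
  have htT : t ≤ T ^ (-(4:ℝ)) := by
    have : 2 * t ≤ T ^ (-(4:ℝ)) := by
      rw [hmin]; exact (min_le_right _ _).trans (min_le_left _ _)
    linarith
  have hth : 2 * t < 1 := by
    have : 2 * t ≤ 1 / 2 := by
      rw [hmin]; exact (min_le_right _ _).trans (min_le_right _ _)
    linarith
  have hTt : T ≤ t ^ (-(2:ℝ) / 8) := by
    have h1 : (T ^ (-(4:ℝ))) ^ (-(2:ℝ) / 8) ≤ t ^ (-(2:ℝ) / 8) :=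
      Real.rpow_le_rpow_of_nonpos ht0 htT (by norm_num)
    have h2 : (T ^ (-(4:ℝ))) ^ (-(2:ℝ) / 8) = T := by
      rw [← Real.rpow_mul hT0.le]
      norm_num
    linarith
  refine ⟨t, ht0, ht1, ht2, htκ, hth, ?_⟩
  have h1 : c * (1 / 2 * (A * T)) ≤ c * (1 / 2 * (A * t ^ (-(2:ℝ) / 8))) := by
    refine mul_le_mul_of_nonneg_left ?_ hc.le
    have := mul_le_mul_of_nonneg_left hTt hA.le
    linarith
  refine lt_of_lt_of_le ?_ h1
  rw [hT]
  have e : c * (1 / 2 * (A * (2 * K / (ε * c * A) + 1))) = K / ε + c * A / 2 := by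
    field_simp
  rw [e]
  have : 0 < c * A / 2 := by positivity
  linarith

/-- lower bound for the limit of two spins at the origin -/
theorem s2_lower {J : ℝ} (hJ : 0 < J) {A : ℝ} {t s2 : ℝ} (ht0 : 0 < t) (hth : 2 * t < 1)
    (hDg : Tendsto (fun a : ℝ => a ^ (-(2:ℝ) / 8) * Dg ⌊t / a⌋₊) (𝓝[>] 0)
      (𝓝 (A * t ^ (-(2:ℝ) / 8))))
    (hm2 : ∀ᶠ a in 𝓝[>] (0:ℝ), (1 - 1 / 2) * Mn a {0, 0 + ⟨t, t⟩} ≤ Sn J a {0, 0 + ⟨t, t⟩})
    (hs2t : Tendsto (Fn J {0, 0 + ⟨t, t⟩}) (𝓝[>] 0) (𝓝 s2)) :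
    1 / 2 * (A * t ^ (-(2:ℝ) / 8)) ≤ s2 := by
  refine le_of_tendsto_of_tendsto (hDg.const_mul (1 / 2)) hs2t ?_
  filter_upwards [origin_lower hJ ht0 hth, hm2, self_mem_nhdsWithin] with a h1 h2 ha
  have ha : 0 < a := ha
  unfold Fn
  rw [pair_card (ne_diag ht0 0)]
  have h5 : 0 < a ^ (-(2:ℝ) / 8) := Real.rpow_pos_of_pos ha _
  have h6 : 1 / 2 * Dg ⌊t / a⌋₊ ≤ Sn J a {0, 0 + ⟨t, t⟩} := by linarith [h1.1]
  have := mul_le_mul_of_nonneg_left h6 h5.le
  push_cast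
  linarith

/-- one approximation of the rescaled disorder correlation -/
theorem step_factor {J : ℝ} {X X' : Finset ℂ} (hXX : X.card = X'.card)
    {P : ℝ → ℝ} {p K ε ρ π' C' : ℝ} (hp : 0 < p) (hε : 0 < ε) (hρ : 0 < ρ) (hC' : 0 < C')
    (hPK : K / ε < p) (hP : Tendsto P (𝓝[>] 0) (𝓝 p))
    (hρt : Tendsto (fun a => Mn a X / Mn a X') (𝓝[>] 0) (𝓝 ρ))
    (hπt : Tendsto (fun a => Sn J a X' / Mn a X') (𝓝[>] 0) (𝓝 π'))
    (hup' : ∀ᶠ a in 𝓝[>] (0:ℝ), Gn X' a ≤ C')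
    (hmb' : ∀ᶠ a in 𝓝[>] (0:ℝ), P a ≤ Fn J X' a ∧ Fn J X' a ≤ P a + K) :
    ∃ (H : ℝ → ℝ) (w : ℝ), 0 < w ∧ Tendsto H (𝓝[>] 0) (𝓝 w) ∧
      ∀ᶠ a in 𝓝[>] (0:ℝ), H a ≤ Gn X a ∧ Gn X a ≤ (1 + ε) * H a := by
  have hπ : 0 < π' := by
    have h1 : p / C' ≤ π' := by
      refine le_of_tendsto_of_tendsto (hP.div_const C') hπt ?_
      filter_upwards [hmb', hup', self_mem_nhdsWithin, hP.eventually_const_lt hp]
        with a h1 h2 ha h3
      have ha : 0 < a := ha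
      have hG : 0 < Gn X' a := Gn_pos ha
      have e : Sn J a X' / Mn a X' = Fn J X' a / Gn X' a := by
        unfold Fn Gn
        have := Real.rpow_pos_of_pos ha (-(X'.card : ℝ) / 8)
        rw [mul_div_mul_left _ _ this.ne']
      rw [e]
      calc P a / C' ≤ P a / Gn X' a := div_le_div_of_nonneg_left h3.le hG h2
        _ ≤ _ := div_le_div_of_nonneg_right h1.1 hG.le
    exact lt_of_lt_of_le (by positivity) h1
  refine ⟨fun a => Mn a X / Mn a X' * (Sn J a X' / Mn a X')⁻¹ * P a, ρ * π'⁻¹ * p,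
    by positivity, (hρt.mul (hπt.inv₀ hπ.ne')).mul hP, ?_⟩
  filter_upwards [hmb', self_mem_nhdsWithin, hP.eventually_const_lt hPK,
    hπt.eventually_const_lt hπ] with a h1 ha h3 h4
  have ha : 0 < a := ha
  have p1 := Mn_pos a X
  have p2 := Mn_pos a X'
  have hS : 0 < Sn J a X' := by
    rcases lt_or_ge 0 (Sn J a X') with h | h
    · exact h
    · exact absurd h4 (not_lt.2 (div_nonpos_of_nonpos_of_nonneg h p2.le))
  have hq : 0 < Mn a X / Mn a X' * (Sn J a X' / Mn a X')⁻¹ := by positivity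
  have e : Gn X a = Mn a X / Mn a X' * (Sn J a X' / Mn a X')⁻¹ * Fn J X' a := by
    unfold Gn Fn
    rw [hXX]
    field_simp
  rw [e]
  constructor
  · exact mul_le_mul_of_nonneg_left h1.1 hq.le
  · have h5 : K ≤ ε * P a := by
      rw [div_lt_iff₀ hε] at h3
      linarith
    have h6 : Fn J X' a ≤ (1 + ε) * P a := by
      linarith [h1.2]
    calc _ ≤ Mn a X / Mn a X' * (Sn J a X' / Mn a X')⁻¹ * ((1 + ε) * P a) :=
          mul_le_mul_of_nonneg_left h6 hq.le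
      _ = _ := by ring

theorem norm_stepA {J : ℝ} (hJ : 0 < J) (hm : Merge J) (hr : RatioM) (hp : QuotSM J)
    {R : Finset ℂ} (hR : ∀ z ∈ R, z ∈ Dia) (h0R : (0:ℂ) ∉ R) {c : ℝ} (hc : 0 < c)
    (hct : Tendsto (Fn J R) (𝓝[>] 0) (𝓝 c)) {X : Finset ℂ} (hX : ∀ z ∈ X, z ∈ Dia)
    (hXc : X.card = R.card + 2) (hev : Even X.card) :
    ∃ g > 0, Tendsto (Gn X) (𝓝[>] 0) (𝓝 g) := by
  classical
  obtain ⟨C, hC, hup⟩ := Mn_upper hJ hm X hX
  refine lim_of_factor (C := C) hup fun ε hε => ?_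
  have hR0 : ∀ z ∈ insert 0 R, z ∈ Dia := by
    intro z hz
    rcases Finset.mem_insert.1 hz with rfl | hz
    · exact Dia_zero
    · exact hR z hz
  obtain ⟨κ', hκ', hκ0'⟩ := ((ev_mac hR0).and self_mem_nhdsWithin).exists
  have hκ0' : 0 < κ' := hκ0'
  set κ := κ' / 2 with hκ
  have hκ0 : 0 < κ := by positivity
  have hmac : Mac (insert 0 R) (2 * κ) := by
    have : 2 * κ = κ' := by rw [hκ]; ring
    rw [this]; exact hκ'
  obtain ⟨K, hK, hmb⟩ := merge_bounds hJ hκ0 hmac h0R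
  obtain ⟨A, hA, hDg⟩ := lim_Dg
  obtain ⟨t₁, ht₁, hpl⟩ := pair_lower hJ hm hr hp Dia_zero
  obtain ⟨t₂, ht₂, hm2⟩ := hm 0 Dia_zero (1 / 2) (by norm_num)
  obtain ⟨t, ht0, ht1, ht2, htκ, hth, htK⟩ := choose_t hK hε hc hA hκ0 ht₁ ht₂
  obtain ⟨_, _, hpR, hpD⟩ := mac_shift hκ0 hmac h0R ht0 htκ
  obtain ⟨_, s2, hs2, hs2t⟩ := hpl t ht0 ht1
  have hs2l := s2_lower hJ ht0 hth (hDg t ht0) (hm2 t ht0 ht2) hs2t
  have hPK : K / ε < c * s2 := htK.trans_le (mul_le_mul_of_nonneg_left hs2l hc.le)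
  have hX'c : (insert 0 (insert (0 + ⟨t, t⟩) R) : Finset ℂ).card = R.card + 2 := by
    rw [Finset.card_insert_of_notMem, Finset.card_insert_of_notMem hpR]
    rw [Finset.mem_insert]
    rintro (h | h)
    · exact ne_diag ht0 0 h
    · exact h0R h
  have hX'm : ∀ z ∈ (insert 0 (insert (0 + ⟨t, t⟩) R) : Finset ℂ), z ∈ Dia := by
    intro z hz
    rcases Finset.mem_insert.1 hz with rfl | hz
    · exact Dia_zero
    · rcases Finset.mem_insert.1 hz with rfl | hz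
      · exact hpD
      · exact hR z hz
  obtain ⟨ρ, hρ, hρt⟩ := hr X _ hX hX'm (by rw [hXc, hX'c]) hev
  obtain ⟨π', hπt⟩ := hp _ hX'm (by rw [hX'c, ← hXc]; exact hev)
  obtain ⟨C', hC', hup'⟩ := Mn_upper hJ hm _ hX'm
  exact step_factor (by rw [hXc, hX'c]) (mul_pos hc hs2) hε hρ hC' hPK (hct.mul hs2t) hρt hπt
    hup' (hmb t ht0 htκ)

theorem norm_stepB {J : ℝ} (hJ : 0 < J) (hm : Merge J) (hr : RatioM) (hp : QuotSM J)
    {R B : Finset ℂ} (hR : ∀ z ∈ R, z ∈ Dia) (hRd : Disjoint R B) {c : ℝ} (hc : 0 < c)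
    (hct : Tendsto (Fn J R) (𝓝[>] 0) (𝓝 c)) (hev : Even (R.card + 2))
    (hA : ∀ X : Finset ℂ, (∀ z ∈ X, z ∈ Dia) → X.card = R.card + 2 →
      ∃ g > 0, Tendsto (Gn X) (𝓝[>] 0) (𝓝 g)) :
    ∃ R' : Finset ℂ, (∀ z ∈ R', z ∈ Dia) ∧ R'.card = R.card + 2 ∧ Disjoint R' B ∧
      ∃ c > 0, Tendsto (Fn J R') (𝓝[>] 0) (𝓝 c) := by
  classical
  obtain ⟨s, hs0, hs1, hsB⟩ := exists_pt (R ∪ B) 0 (one_ne_zero) (show (0:ℝ) < 1 by norm_num)
  set z : ℂ := 0 + (s:ℂ) * 1 with hz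
  have hzD : z ∈ Dia := by
    show |z.re| + |z.im| < 1
    rw [hz]
    simp
    rw [abs_of_pos hs0]; exact hs1
  obtain ⟨t₀, ht₀, hpl⟩ := pair_lower hJ hm hr hp hzD
  have hu : (⟨1, 1⟩ : ℂ) ≠ 0 := by
    intro h
    have := congrArg Complex.re h
    simp at this
  obtain ⟨t, ht0, htt, htB⟩ := exists_pt (R ∪ B) z hu ht₀
  have ew : z + (t:ℂ) * ⟨1, 1⟩ = z + ⟨t, t⟩ := by
    congr 1
    apply Complex.ext <;> simp
  rw [ew] at htB
  obtain ⟨hwD, c', hc', hct'⟩ := hpl t ht0 htt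
  set w : ℂ := z + ⟨t, t⟩ with hw
  have hzw : z ≠ w := ne_diag ht0 z
  have hd : Disjoint R {z, w} := by
    rw [Finset.disjoint_right]
    intro x hx
    rw [Finset.mem_insert, Finset.mem_singleton] at hx
    rcases hx with rfl | rfl
    · exact fun h => hsB (Finset.mem_union_left _ h)
    · exact fun h => htB (Finset.mem_union_left _ h)
  have hdB : Disjoint (R ∪ {z, w}) B := by
    rw [Finset.disjoint_union_left]
    refine ⟨hRd, ?_⟩
    rw [Finset.disjoint_left]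
    intro x hx
    rw [Finset.mem_insert, Finset.mem_singleton] at hx
    rcases hx with rfl | rfl
    · exact fun h => hsB (Finset.mem_union_right _ h)
    · exact fun h => htB (Finset.mem_union_right _ h)
  have hpm : ∀ x ∈ ({z, w} : Finset ℂ), x ∈ Dia := by
    intro x hx
    rw [Finset.mem_insert, Finset.mem_singleton] at hx
    rcases hx with rfl | rfl
    · exact hzD
    · exact hwD
  have hRm : ∀ x ∈ R ∪ {z, w}, x ∈ Dia := by
    intro x hx
    rcases Finset.mem_union.1 hx with h | h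
    · exact hR x h
    · exact hpm x h
  have hRc' : (R ∪ {z, w}).card = R.card + 2 := by
    rw [Finset.card_union_of_disjoint hd, Finset.card_pair hzw]
  obtain ⟨g, hg, hgt⟩ := hA _ hRm hRc'
  obtain ⟨c'', hct''⟩ := Fn_lim hp hRm (by rw [hRc']; exact hev) hgt
  refine ⟨R ∪ {z, w}, hRm, hRc', hdB, c'', ?_, hct''⟩
  have h1 := le_of_tendsto_of_tendsto (hct.mul hct') hct'' (Fn_gks hJ hR hpm hd)
  exact lt_of_lt_of_le (mul_pos hc hc') h1

theorem norm_step {J : ℝ} (hJ : 0 < J) (hm : Merge J) (hr : RatioM) (hp : QuotSM J) (k : ℕ) :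
    (∀ X : Finset ℂ, (∀ z ∈ X, z ∈ Dia) → X.card = 2 * k →
      ∃ g > 0, Tendsto (Gn X) (𝓝[>] 0) (𝓝 g)) ∧
    ∀ B : Finset ℂ, ∃ R : Finset ℂ, (∀ z ∈ R, z ∈ Dia) ∧ R.card = 2 * k ∧ Disjoint R B ∧
      ∃ c > 0, Tendsto (Fn J R) (𝓝[>] 0) (𝓝 c) := by
  classical
  induction k with
  | zero =>
    constructor
    · intro X _ hX
      rw [mul_zero, Finset.card_eq_zero] at hX
      subst hX
      refine ⟨1, one_pos, tendsto_const_nhds.congr fun a => ?_⟩
      unfold Gn Mn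
      simp [MM_zero]
    · intro B
      refine ⟨∅, by simp, by simp, disjoint_empty_left B, 1, one_pos,
        tendsto_const_nhds.congr fun a => ?_⟩
      unfold Fn Sn
      rw [Finset.image_empty, fcor_eq]
      unfold cor
      simp [ev_const]
  | succ k ih =>
    obtain ⟨ihA, ihB⟩ := ih
    have hA : ∀ X : Finset ℂ, (∀ z ∈ X, z ∈ Dia) → X.card = 2 * (k + 1) →
        ∃ g > 0, Tendsto (Gn X) (𝓝[>] 0) (𝓝 g) := by
      intro X hX hXc
      obtain ⟨R, hR, hRc, hRd, c, hc, hct⟩ := ihB {0}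
      have h0R : (0:ℂ) ∉ R := fun h => Finset.disjoint_left.1 hRd h (by simp)
      exact norm_stepA hJ hm hr hp hR h0R hc hct hX (by rw [hXc, hRc]; ring)
        (by rw [hXc]; exact even_two_mul _)
    refine ⟨hA, fun B => ?_⟩
    obtain ⟨R, hR, hRc, hRd, c, hc, hct⟩ := ihB B
    have e : R.card + 2 = 2 * (k + 1) := by rw [hRc]; ring
    have := norm_stepB hJ hm hr hp hR hRd hc hct (by rw [e]; exact even_two_mul _)
      (fun X hX hXc => hA X hX (by rw [hXc, e]))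
    rw [e] at this
    exact this

/-- NORM: convergence of the rescaled disorder correlations of an even number of points. -/
theorem norm_even {J : ℝ} (hJ : 0 < J) (hm : Merge J) (hr : RatioM) (hp : QuotSM J)
    {X : Finset ℂ} (hX : ∀ z ∈ X, z ∈ Dia) (he : Even X.card) :
    ∃ g > 0, Tendsto (Gn X) (𝓝[>] 0) (𝓝 g) := by
  obtain ⟨k, hk⟩ := he
  exact (norm_step hJ hm hr hp k).1 X hX (by omega)

/-- NORM: boundedness of the rescaled disorder correlations. -/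
theorem norm_bdd {J : ℝ} (hJ : 0 < J) (hm : Merge J) {X : Finset ℂ} (hX : ∀ z ∈ X, z ∈ Dia) :
    ∃ C : ℝ, 0 < C ∧ ∀ᶠ a in 𝓝[>] (0:ℝ), Gn X a ≤ C := Mn_upper hJ hm X hX

end Vale.Agent.P144.H436
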