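import Vale.Agent.P144.H436.TipC2
import Vale.Agent.P144.U.AL.Tl

/-!
The kernels with a tip: the fields of the limits of the kernels.
-/

namespace Vale.Agent.P144.H436

open Filter Topology Vale.Agent.P144 Vale.Agent.P144.AL Vale.Agent.P144.H170

section

variable (p : Pts)

theorem Rp_rM (a : ℝ) : Rp p a = rM fun i => fl a (p.x i) := by
  unfold Rp srcs fcs rM
  rw [List.map_map]
  show ((List.map (fun i => fl a (p.x i)) (List.finRange p.n) : List Site) : Multiset Site) = _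
  rw [← Multiset.map_coe]
  rfl

theorem Rp_cons (a : ℝ) (i : Fin p.n) :
    Rp p a = fl a (p.x i) ::ₘ rM fun i' : {i' // i' ≠ i} => fl a (p.x i') := by
  classical
  rw [Rp_rM]
  unfold rM
  have h : (Finset.univ : Finset (Fin p.n)).val =
      i ::ₘ (Finset.univ : Finset {i' // i' ≠ i}).val.map Subtype.val := by
    refine (Multiset.Nodup.ext Finset.univ.nodup ?_).2 ?_
    · rw [Multiset.nodup_cons]
      refine ⟨?_, Multiset.Nodup.map Subtype.val_injective Finset.univ.nodup⟩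
      intro hc
      obtain ⟨j, _, hj⟩ := Multiset.mem_map.1 hc
      exact j.2 hj
    · intro x
      simp only [Finset.mem_val, Finset.mem_univ, Multiset.mem_cons, Multiset.mem_map, true_and,
        true_iff]
      by_cases hx : x = i
      · exact Or.inl hx
      · exact Or.inr ⟨⟨x, hx⟩, rfl⟩
  rw [h, Multiset.map_cons, Multiset.map_map]
  rfl

variable {p} (hp : Good0 p)

include hp

theorem Good0.x_inj : Function.Injective p.x := fun i i' h =>
  Sum.inl_injective (hp.2.2 (by simpa using h))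

theorem Good0.xy_ne (i : Fin p.n) (k : Fin p.m) : p.y k ≠ p.x i := fun h => by
  have := @hp.2.2 (Sum.inr k) (Sum.inl i) (by simpa using h)
  cases this

omit hp in
/-- A neighbour of the site of `z`. -/
theorem hi_lim (z : ℂ) (j : Fin 2) :
    Tendsto (fun a : ℝ => pt a (fl a z + dir j)) (𝓝[>] 0) (𝓝 z) := by
  have h1 : Tendsto (fun a : ℝ => pt a (dir j)) (𝓝[>] 0) (𝓝 0) := by
    have h2 : Tendsto (fun a : ℝ => a * 2) (𝓝[>] 0) (𝓝 (0 * 2)) :=
      (idt.mono_right nhdsWithin_le_nhds).mul_const 2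
    rw [zero_mul] at h2
    refine squeeze_zero_norm' ?_ h2
    filter_upwards [self_mem_nhdsWithin] with a ha
    have ha : 0 < a := ha
    refine (Complex.norm_le_abs_re_add_abs_im _).trans ?_
    simp only [pt, abs_mul, abs_of_pos ha, ← mul_add]
    refine mul_le_mul_of_nonneg_left ?_ ha.le
    unfold dir
    by_cases hj : j = 0 <;> simp [hj]
  have h3 := (flt z).add h1
  rw [add_zero] at h3
  refine h3.congr fun a => ?_
  apply Complex.ext <;> simp [pt] <;> ring

/-- The kernel between a tip and a corner near `p.y k`. -/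
theorem k5_bulk (c : Fin 4) {x : Lb p.n p.m} {k : Fin p.m}
    (h1 : ∀ a, (cnp p a x).1 ∈ AL.cnr (cnp p a x).2)
    (h2 : Tendsto (fun a : ℝ => pt a (cnp p a x).1) (𝓝[>] 0) (𝓝 (p.y k)))
    (h3 : ∀ᶠ a in 𝓝[>] (0:ℝ), cnp p a x ≠ tcn (nn a) c) :
    Tendsto (fun a : ℝ => Kn p a (.tp c) x / √a) (𝓝[>] 0) (𝓝 0) := by
  have h := C2_bulk (a := fun a : ℝ => a) (N := nn) idt AL.nn_lim
    (r := fun i (a : ℝ) => fl a (p.x i)) (ζ := p.x) (fun i => flt _) hp.1 (Good0.x_inj hp) c
    (c := fun a => cnp p a x) (Eventually.of_forall h1) h2 (hp.2.1 k)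
    (fun i => Good0.xy_ne hp i k)
  have h' := h.neg
  rw [neg_zero] at h'
  refine h'.congr' ?_
  filter_upwards [h3] with a ha
  have e : Kn p a (.tp c) x = -Wf (dia (nn a)) (rM fun i => fl a (p.x i))
      [cnp p a x, (tip (nn a) c, tf (nn a) c)] := by
    unfold Kn
    rw [Rp_rM]
    exact Wf_swap _ _ (tcn_cnr _ _) (h1 a) ha.symm
  rw [e, div_eq_inv_mul]
  ring

/-- The fields with a tip. -/
theorem k5 (c : Fin 4) :
    (∀ i, Tendsto (fun a : ℝ => Kn p a (.tp c) (.src i)) (𝓝[>] 0) (𝓝 0)) ∧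
    (∀ k, Tendsto (fun a : ℝ => Kn p a (.tp c) (.lo k) / √a) (𝓝[>] 0) (𝓝 0)) ∧
    (∀ k, Tendsto (fun a : ℝ => Kn p a (.tp c) (.hi k) / √a) (𝓝[>] 0) (𝓝 0)) ∧
    ∀ d, d ≠ c → Tendsto (fun a : ℝ => Kn p a (.tp c) (.tp d)) (𝓝[>] 0) (𝓝 0) := by
  refine ⟨fun i => ?_, fun k => ?_, fun k => ?_, fun d hd => ?_⟩
  · have h := C2_src (a := fun a : ℝ => a) (N := nn) idt AL.nn_lim
      (r := fun (i' : {i' // i' ≠ i}) (a : ℝ) => fl a (p.x i')) (ζ := fun i' => p.x i')
      (fun i' => flt _) (fun i' => hp.1 _) (fun i' i'' h => Subtype.ext (Good0.x_inj hp h)) c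
      (v := fun a => fl a (p.x i)) (flt _) (hp.1 i)
      (fun i' h => i'.2 (Good0.x_inj hp h))
    refine h.congr fun a => ?_
    unfold Kn
    rw [Rp_cons p a i]
    rfl
  · refine k5_bulk hp c (fun a => eLo_cnr _) (flt _) ?_
    filter_upwards [sep_ev p hp] with a ha hc
    exact absurd (@Sep.cn_inj _ _ _ _ _ p.j ha.1 ha.2 (.lo k) (.tp c) hc) (by simp)
  · refine k5_bulk hp c (fun a => eHi_cnr _ _) (hi_lim _ _) ?_
    filter_upwards [sep_ev p hp] with a ha hc
    exact absurd (@Sep.cn_inj _ _ _ _ _ p.j ha.1 ha.2 (.hi k) (.tp c) hc) (by simp)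
  · have h := C2_tips (a := fun a : ℝ => a) (N := nn) idt AL.nn_lim
      (r := fun i (a : ℝ) => fl a (p.x i)) (ζ := p.x) (fun i => flt _) hp.1 (Good0.x_inj hp)
      hd.symm
    refine h.congr fun a => ?_
    unfold Kn
    rw [Rp_rM]
    rfl

end

end Vale.Agent.P144.H436
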