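import Vale.Agent.P144.H436.Pot
import Vale.Agent.P144.H170.Reg
import Mathlib.Analysis.SpecialFunctions.Integrals.Basic
import Mathlib.Analysis.SpecialFunctions.Trigonometric.Bounds

/-!
The potential kernel of the plane: `lap ker = δ₀`, with the gradient bound `C / (1 + |x|)`.
-/

namespace Vale.Agent.P144.H436

open Finset Vale.Agent.P144 Filter Topology MeasureTheory

noncomputable def cc (t : ℝ) : ℝ := 2 - Real.cos t
noncomputable def ss (t : ℝ) : ℝ := √(cc t ^ 2 - 1)
noncomputable def lm (t : ℝ) : ℝ := cc t - ss t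

theorem cc_ge (t : ℝ) : 1 ≤ cc t := by unfold cc; linarith [Real.cos_le_one t]

theorem ss_nonneg (t : ℝ) : 0 ≤ ss t := Real.sqrt_nonneg _

theorem ss_sq (t : ℝ) : ss t ^ 2 = cc t ^ 2 - 1 := by
  unfold ss
  rw [Real.sq_sqrt]
  nlinarith [cc_ge t]

theorem lm_mul (t : ℝ) : lm t * (cc t + ss t) = 1 := by
  unfold lm; linear_combination -(ss_sq t)

theorem lm_pos (t : ℝ) : 0 < lm t := by
  have h := lm_mul t
  have h1 : 0 < cc t + ss t := by linarith [cc_ge t, ss_nonneg t]
  by_contra hc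
  push Not at hc
  nlinarith

theorem lm_quad (t : ℝ) : lm t ^ 2 = 2 * cc t * lm t - 1 := by
  unfold lm; linear_combination (ss_sq t)

theorem lm_le (t : ℝ) : lm t * (1 + ss t) ≤ 1 := by
  have h : lm t * (1 + ss t) ≤ lm t * (cc t + ss t) :=
    mul_le_mul_of_nonneg_left (by linarith [cc_ge t]) (lm_pos t).le
  rwa [lm_mul t] at h

theorem lm_le_one (t : ℝ) : lm t ≤ 1 := by
  have := lm_le t
  nlinarith [lm_pos t, ss_nonneg t, mul_nonneg (lm_pos t).le (ss_nonneg t)]

theorem one_sub_lm (t : ℝ) : 1 - lm t ≤ ss t := by unfold lm; linarith [cc_ge t]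

theorem ss_ge {t : ℝ} (h0 : 0 ≤ t) (h1 : t ≤ Real.pi) : 2 / Real.pi * t ≤ ss t := by
  have hπ := Real.pi_pos
  refine Real.le_sqrt_of_sq_le ?_
  have h2 : Real.cos t ≤ 1 - 2 / Real.pi ^ 2 * t ^ 2 :=
    Real.cos_le_one_sub_mul_cos_sq (by rw [abs_of_nonneg h0]; exact h1)
  have e : (2 / Real.pi * t) ^ 2 = 2 * (2 / Real.pi ^ 2 * t ^ 2) := by field_simp
  rw [e]
  have h3 : cc t ^ 2 - 1 = (cc t - 1) * (cc t + 1) := by ring
  rw [h3]
  have h4 : 2 / Real.pi ^ 2 * t ^ 2 ≤ cc t - 1 := by unfold cc; linarith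
  have h5 := cc_ge t
  nlinarith

theorem ss_pos {t : ℝ} (h0 : 0 < t) (h1 : t ≤ Real.pi) : 0 < ss t :=
  lt_of_lt_of_le (by have := Real.pi_pos; positivity) (ss_ge h0.le h1)

theorem t_le_ss {t : ℝ} (h0 : 0 ≤ t) (h1 : t ≤ Real.pi) : t ≤ Real.pi / 2 * ss t := by
  have hπ := Real.pi_pos
  have := ss_ge h0 h1
  calc t = Real.pi / 2 * (2 / Real.pi * t) := by field_simp
    _ ≤ _ := mul_le_mul_of_nonneg_left this (by positivity)

theorem lm_le_exp {t : ℝ} (h0 : 0 ≤ t) (h1 : t ≤ Real.pi) :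
    lm t ≤ Real.exp (-(t / (2 * Real.pi))) := by
  have hπ := Real.pi_pos
  set u := 2 / Real.pi * t with hu
  have hu0 : 0 ≤ u := by positivity
  have hu2 : u ≤ 2 := by
    rw [hu]
    calc 2 / Real.pi * t ≤ 2 / Real.pi * Real.pi := mul_le_mul_of_nonneg_left h1 (by positivity)
      _ = 2 := by field_simp
  have e : t / (2 * Real.pi) = u / 4 := by rw [hu]; field_simp; ring
  rw [e]
  have h2 : 1 - u / 4 ≤ Real.exp (-(u / 4)) := by
    have := Real.add_one_le_exp (-(u / 4)); linarith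
  refine le_trans ?_ h2
  have h3 := lm_le t
  have h4 := ss_ge h0 h1
  rw [← hu] at h4
  have h5 : lm t * (1 + u) ≤ 1 :=
    (mul_le_mul_of_nonneg_left (by linarith) (lm_pos t).le).trans h3
  have h6 : 1 ≤ (1 - u / 4) * (1 + u) := by nlinarith
  have h7 : 0 < 1 + u := by linarith
  exact le_of_mul_le_mul_right (h5.trans h6) h7

theorem continuous_lm : Continuous lm := by
  unfold lm ss cc
  fun_prop

/-- the integrals of the powers -/
theorem int_lm (n : ℕ) : ∫ t in (0:ℝ)..Real.pi, lm t ^ n ≤ 4 * Real.pi / (n + 1) := by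
  have hπ := Real.pi_pos
  rcases Nat.eq_zero_or_pos n with rfl | hn
  · simp only [pow_zero, intervalIntegral.integral_const, smul_eq_mul, Nat.cast_zero]
    linarith
  · have hn' : (1:ℝ) ≤ n := by exact_mod_cast hn
    set c : ℝ := n / (2 * Real.pi) with hc
    have hc0 : 0 < c := by positivity
    have h1 : ∫ t in (0:ℝ)..Real.pi, lm t ^ n ≤ ∫ t in (0:ℝ)..Real.pi, Real.exp (-(c * t)) := by
      refine intervalIntegral.integral_mono_on hπ.le ?_ ?_ ?_
      · exact (continuous_lm.pow n).intervalIntegrable _ _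
      · exact (by fun_prop : Continuous fun t : ℝ => Real.exp (-(c * t))).intervalIntegrable _ _
      · intro t ht
        have h2 := lm_le_exp ht.1 ht.2
        calc lm t ^ n ≤ Real.exp (-(t / (2 * Real.pi))) ^ n :=
              pow_le_pow_left₀ (lm_pos t).le h2 n
          _ = Real.exp (-(c * t)) := by
              rw [← Real.exp_nat_mul]
              congr 1
              rw [hc]; field_simp
    have h2 : ∫ t in (0:ℝ)..Real.pi, Real.exp (-(c * t)) = (1 - Real.exp (-(c * Real.pi))) / c := by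
      have hd : ∀ t ∈ Set.uIcc (0:ℝ) Real.pi,
          HasDerivAt (fun t => -(Real.exp (-(c * t)) / c)) (Real.exp (-(c * t))) t := by
        intro t _
        have h3 : HasDerivAt (fun t : ℝ => -(c * t)) (-c) t := by
          have h := ((hasDerivAt_id t).const_mul (-c))
          simp only [id, mul_one] at h
          refine h.congr_of_eventuallyEq (Eventually.of_forall fun s => ?_)
          show -(c * s) = -c * s
          ring
        have h4 := (h3.exp.div_const c).neg
        have e : Real.exp (-(c * t)) = -(Real.exp (-(c * t)) * -c / c) := by field_simp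
        rw [e]
        exact h4
      rw [intervalIntegral.integral_eq_sub_of_hasDerivAt hd
        ((by fun_prop : Continuous fun t : ℝ => Real.exp (-(c * t))).intervalIntegrable _ _)]
      simp
      ring
    rw [h2] at h1
    refine h1.trans ?_
    have h3 : (1 - Real.exp (-(c * Real.pi))) / c ≤ 1 / c := by
      refine div_le_div_of_nonneg_right ?_ hc0.le
      linarith [Real.exp_pos (-(c * Real.pi))]
    refine h3.trans ?_
    rw [hc, one_div_div, div_le_div_iff₀ (by positivity) (by positivity)]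
    nlinarith

/-- the integrand of the kernel -/
noncomputable def kint (x y : ℤ) (t : ℝ) : ℝ :=
  (1 - lm t ^ y.natAbs * Real.cos (x * t)) / (2 * ss t)

theorem kint_negx (x y : ℤ) (t : ℝ) : kint (-x) y t = kint x y t := by
  unfold kint
  rw [Int.cast_neg, neg_mul, Real.cos_neg]

theorem kint_negy (x y : ℤ) (t : ℝ) : kint x (-y) t = kint x y t := by
  unfold kint
  rw [Int.natAbs_neg]

theorem one_sub_pow_le {L : ℝ} (h0 : 0 ≤ L) (h1 : L ≤ 1) (n : ℕ) : 1 - L ^ n ≤ n * (1 - L) := by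
  induction n with
  | zero => simp
  | succ n ih =>
    have h2 : L ^ n ≤ 1 := pow_le_one₀ h0 h1
    have e : 1 - L ^ (n + 1) = (1 - L ^ n) + L ^ n * (1 - L) := by ring
    rw [e]
    push_cast
    nlinarith

theorem kint_bound (x y : ℤ) {t : ℝ} (h0 : 0 < t) (h1 : t ≤ Real.pi) :
    |kint x y t| ≤ |(y:ℝ)| + 2 * |(x:ℝ)| := by
  have hs := ss_pos h0 h1
  have hπ := Real.pi_pos
  have hL0 := (lm_pos t).le
  have hL1 := lm_le_one t
  unfold kint
  rw [abs_div, abs_of_pos (by positivity : 0 < 2 * ss t), div_le_iff₀ (by positivity)]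
  have e : 1 - lm t ^ y.natAbs * Real.cos (x * t)
      = (1 - lm t ^ y.natAbs) + lm t ^ y.natAbs * (1 - Real.cos (x * t)) := by ring
  rw [e]
  have hn : ((y.natAbs : ℕ) : ℝ) = |(y:ℝ)| := by
    rw [Nat.cast_natAbs, Int.cast_abs]
  have h2 := one_sub_pow_le hL0 hL1 y.natAbs
  rw [hn] at h2
  have h3 : lm t ^ y.natAbs ≤ 1 := pow_le_one₀ hL0 hL1
  have h3' : 0 ≤ lm t ^ y.natAbs := pow_nonneg hL0 _
  have h4 := one_sub_lm t
  have h5 : 0 ≤ 1 - Real.cos (x * t) := by linarith [Real.cos_le_one (x * t)]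
  have h6 : 1 - Real.cos (x * t) ≤ |(x:ℝ)| * t := by
    have h := Real.abs_cos_sub_cos_le 0 (x * t)
    rw [Real.cos_zero, zero_sub, abs_neg, abs_mul, abs_of_pos h0] at h
    exact (le_abs_self _).trans h
  have h7 := t_le_ss h0.le h1
  have h8 : 0 ≤ |(x:ℝ)| := abs_nonneg _
  have h9 : 0 ≤ |(y:ℝ)| := abs_nonneg _
  have h10 : |(1 - lm t ^ y.natAbs) + lm t ^ y.natAbs * (1 - Real.cos (x * t))|
      = (1 - lm t ^ y.natAbs) + lm t ^ y.natAbs * (1 - Real.cos (x * t)) := by
    refine abs_of_nonneg (add_nonneg (by linarith) (by positivity))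
  rw [h10]
  have h11 : lm t ^ y.natAbs * (1 - Real.cos (x * t)) ≤ |(x:ℝ)| * (Real.pi / 2 * ss t) :=
    calc lm t ^ y.natAbs * (1 - Real.cos (x * t)) ≤ 1 * (1 - Real.cos (x * t)) :=
          mul_le_mul_of_nonneg_right h3 h5
      _ = 1 - Real.cos (x * t) := one_mul _
      _ ≤ _ := h6.trans (mul_le_mul_of_nonneg_left h7 h8)
  have h12 : Real.pi ≤ 4 := Real.pi_le_four
  have h13 : |(y:ℝ)| * (1 - lm t) ≤ |(y:ℝ)| * ss t := mul_le_mul_of_nonneg_left h4 h9
  have h14 : |(x:ℝ)| * (Real.pi / 2 * ss t) ≤ |(x:ℝ)| * (2 * ss t) :=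
    mul_le_mul_of_nonneg_left (mul_le_mul_of_nonneg_right (by linarith) hs.le) h8
  have h15 : 0 ≤ |(y:ℝ)| * ss t := by positivity
  have h16 : 0 ≤ |(x:ℝ)| * ss t := by positivity
  nlinarith

theorem measurable_kint (x y : ℤ) : Measurable (kint x y) := by
  have h1 := continuous_lm.measurable
  have h2 : Measurable ss := by
    unfold ss cc
    exact (by fun_prop : Continuous fun t : ℝ => √((2 - Real.cos t) ^ 2 - 1)).measurable
  unfold kint
  fun_prop

theorem kint_int (x y : ℤ) : IntervalIntegrable (kint x y) volume 0 Real.pi := by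
  rw [intervalIntegrable_iff_integrableOn_Ioc_of_le Real.pi_pos.le]
  refine Measure.integrableOn_of_bounded (M := |(y:ℝ)| + 2 * |(x:ℝ)|) (by simp)
    (measurable_kint x y).aestronglyMeasurable ?_
  rw [ae_restrict_iff' measurableSet_Ioc]
  exact Eventually.of_forall fun t ht => kint_bound x y ht.1 ht.2

/-- The potential kernel. -/
noncomputable def ker (x : Site) : ℝ := (∫ t in (0:ℝ)..Real.pi, kint x.1 x.2 t) / Real.pi

theorem ker_negx (x y : ℤ) : ker (-x, y) = ker (x, y) := by
  unfold ker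
  simp only [kint_negx]

theorem ker_negy (x y : ℤ) : ker (x, -y) = ker (x, y) := by
  unfold ker
  simp only [kint_negy]

theorem ker_zero : ker (0, 0) = 0 := by
  unfold ker kint
  simp

theorem kint_lap (x y : ℤ) {t : ℝ} (hs : ss t ≠ 0) :
    kint (x + 1) y t + kint (x + -1) y t + kint x (y + 1) t + kint x (y + -1) t - 4 * kint x y t
      = if y = 0 then Real.cos (x * t) else 0 := by
  have hL := lm_quad t
  have hcc : Real.cos t = 2 - cc t := by unfold cc; ring
  have hc : Real.cos ((x + 1 : ℤ) * t) + Real.cos ((x + -1 : ℤ) * t)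
      = 2 * (2 - cc t) * Real.cos (x * t) := by
    have e1 : ((x + 1 : ℤ) : ℝ) * t = x * t + t := by push_cast; ring
    have e2 : ((x + -1 : ℤ) : ℝ) * t = x * t - t := by push_cast; ring
    rw [e1, e2, Real.cos_add, Real.cos_sub, hcc]; ring
  have key : ∀ P Q : ℝ, ∀ c1 c2 c : ℝ, c1 + c2 = 2 * (2 - cc t) * c →
      (1 - lm t ^ y.natAbs * c1) / (2 * ss t) + (1 - lm t ^ y.natAbs * c2) / (2 * ss t)
      + (1 - P * c) / (2 * ss t) + (1 - Q * c) / (2 * ss t)
      - 4 * ((1 - lm t ^ y.natAbs * c) / (2 * ss t))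
      = (2 * cc t * lm t ^ y.natAbs - P - Q) * c / (2 * ss t) := by
    intro P Q c1 c2 c h
    field_simp
    linear_combination (-(lm t ^ y.natAbs)) * h
  unfold kint
  rw [key _ _ _ _ _ hc]
  rcases lt_trichotomy y 0 with hy | hy | hy
  · obtain ⟨n, hn⟩ : ∃ n : ℕ, y = -(n + 1 : ℕ) := ⟨(-y - 1).toNat, by omega⟩
    have e1 : (y + 1).natAbs = n := by omega
    have e2 : (y + -1).natAbs = n + 2 := by omega
    have e3 : y.natAbs = n + 1 := by omega
    rw [e1, e2, e3, if_neg hy.ne]
    have : 2 * cc t * lm t ^ (n + 1) - lm t ^ n - lm t ^ (n + 2) = 0 := by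
      linear_combination (-(lm t ^ n)) * hL
    rw [this]; ring
  · subst hy
    simp only [Int.natAbs_zero, pow_zero, mul_one, zero_add, Int.natAbs_one, pow_one,
      Int.natAbs_neg, if_true]
    have : 2 * cc t - lm t - lm t = 2 * ss t := by unfold lm; ring
    rw [this]
    field_simp
  · obtain ⟨n, hn⟩ : ∃ n : ℕ, y = (n + 1 : ℕ) := ⟨(y - 1).toNat, by omega⟩
    have e1 : (y + 1).natAbs = n + 2 := by omega
    have e2 : (y + -1).natAbs = n := by omega
    have e3 : y.natAbs = n + 1 := by omega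
    rw [e1, e2, e3, if_neg hy.ne']
    have : 2 * cc t * lm t ^ (n + 1) - lm t ^ (n + 2) - lm t ^ n = 0 := by
      linear_combination (-(lm t ^ n)) * hL
    rw [this]; ring

theorem int_cos (x : ℤ) : ∫ t in (0:ℝ)..Real.pi, Real.cos (x * t) = if x = 0 then Real.pi else 0 := by
  split_ifs with h
  · subst h; simp
  · have hx : (x:ℝ) ≠ 0 := by exact_mod_cast h
    rw [intervalIntegral.integral_comp_mul_left (fun t => Real.cos t) hx, integral_cos]
    simp [Real.sin_int_mul_pi]

/-- The Laplacian of the kernel. -/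
theorem lap_ker (x : Site) : lap ker x = if x = 0 then 1 else 0 := by
  obtain ⟨x, y⟩ := x
  have hπ := Real.pi_pos
  unfold lap ker
  simp only [Prod.mk_add_mk, add_zero]
  have h1 : (∫ t in (0:ℝ)..Real.pi, kint (x + 1) y t) + (∫ t in (0:ℝ)..Real.pi, kint (x + -1) y t)
      + (∫ t in (0:ℝ)..Real.pi, kint x (y + 1) t) + (∫ t in (0:ℝ)..Real.pi, kint x (y + -1) t)
      - 4 * (∫ t in (0:ℝ)..Real.pi, kint x y t)
      = ∫ t in (0:ℝ)..Real.pi, (if y = 0 then Real.cos (x * t) else 0) := by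
    rw [← intervalIntegral.integral_const_mul, ← intervalIntegral.integral_add (kint_int _ _)
      (kint_int _ _), ← intervalIntegral.integral_add ((kint_int _ _).add (kint_int _ _))
      (kint_int _ _), ← intervalIntegral.integral_add
      (((kint_int _ _).add (kint_int _ _)).add (kint_int _ _)) (kint_int _ _),
      ← intervalIntegral.integral_sub ((((kint_int _ _).add (kint_int _ _)).add
      (kint_int _ _)).add (kint_int _ _)) ((kint_int _ _).const_mul 4)]
    refine intervalIntegral.integral_congr_ae ?_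
    refine Eventually.of_forall fun t ht => ?_
    rw [Set.uIoc_of_le hπ.le] at ht
    exact kint_lap x y (ss_pos ht.1 ht.2).ne'
  have h2 : (∫ t in (0:ℝ)..Real.pi, (if y = 0 then Real.cos (x * t) else 0))
      = if (x, y) = (0 : Site) then Real.pi else 0 := by
    by_cases hy : y = 0
    · subst hy
      simp only [if_true, int_cos]
      by_cases hx : x = 0
      · subst hx; simp
      · rw [if_neg hx, if_neg]
        intro h
        exact hx (congrArg Prod.fst h)
    · simp only [if_neg hy]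
      rw [if_neg, intervalIntegral.integral_zero]
      intro h
      exact hy (congrArg Prod.snd h)
  rw [h2] at h1
  have h3 : ∀ a b c d e : ℝ, a / Real.pi + b / Real.pi + c / Real.pi + d / Real.pi
      - 4 * (e / Real.pi) = (a + b + c + d - 4 * e) / Real.pi := by intros; ring
  rw [h3, h1]
  split_ifs
  · field_simp
  · simp

/-! ### gradient bounds -/

theorem natAbs_cast (y : ℤ) : ((y.natAbs : ℕ) : ℝ) = |(y:ℝ)| := by
  rw [Nat.cast_natAbs, Int.cast_abs]

/-- a bound for the integral of a function dominated by a power of `lm` -/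
theorem int_le_lm {f : ℝ → ℝ} {C : ℝ} (hC : 0 ≤ C) (n : ℕ)
    (hb : ∀ t, 0 < t → t ≤ Real.pi → |f t| ≤ C * lm t ^ n) :
    |∫ t in (0:ℝ)..Real.pi, f t| ≤ C * (4 * Real.pi / (n + 1)) := by
  have hπ := Real.pi_pos
  have h1 : ‖∫ t in (0:ℝ)..Real.pi, f t‖ ≤ ∫ t in (0:ℝ)..Real.pi, C * lm t ^ n := by
    refine intervalIntegral.norm_integral_le_of_norm_le hπ.le ?_
      (((continuous_lm.pow n).const_mul C).intervalIntegrable _ _)
    exact Eventually.of_forall fun t ht => hb t ht.1 ht.2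
  rw [intervalIntegral.integral_const_mul] at h1
  exact h1.trans (mul_le_mul_of_nonneg_left (int_lm n) hC)

theorem ker_dy_nat (x : ℤ) (n : ℕ) : |ker (x, (n + 1 : ℕ)) - ker (x, (n : ℕ))| ≤ 2 / (n + 1) := by
  have hπ := Real.pi_pos
  unfold ker
  rw [← sub_div, abs_div, abs_of_pos hπ, div_le_iff₀ hπ,
    ← intervalIntegral.integral_sub (kint_int _ _) (kint_int _ _)]
  refine (int_le_lm (C := 1 / 2) (by norm_num) n fun t h0 h1 => ?_).trans (le_of_eq ?_)
  · have hs := ss_pos h0 h1
    have hL := (lm_pos t).le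
    have e : kint x (n + 1 : ℕ) t - kint x (n : ℕ) t
        = lm t ^ n * ((1 - lm t) * Real.cos (x * t)) / (2 * ss t) := by
      unfold kint
      rw [Int.natAbs_natCast, Int.natAbs_natCast, pow_succ]
      field_simp
      ring
    rw [e, abs_div, abs_mul, abs_mul, abs_of_nonneg (pow_nonneg hL n),
      abs_of_pos (by positivity : 0 < 2 * ss t), div_le_iff₀ (by positivity)]
    have h2 : |1 - lm t| ≤ ss t := by
      rw [abs_of_nonneg (by linarith [lm_le_one t])]
      exact one_sub_lm t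
    have h3 : |1 - lm t| * |Real.cos (x * t)| ≤ ss t * 1 :=
      mul_le_mul h2 (Real.abs_cos_le_one _) (abs_nonneg _) hs.le
    have h4 : 0 ≤ lm t ^ n := pow_nonneg hL n
    nlinarith
  · field_simp
    ring

theorem ker_dx (x y : ℤ) : |ker (x + 1, y) - ker (x, y)| ≤ 4 / (1 + |(y:ℝ)|) := by
  have hπ := Real.pi_pos
  unfold ker
  rw [← sub_div, abs_div, abs_of_pos hπ, div_le_iff₀ hπ,
    ← intervalIntegral.integral_sub (kint_int _ _) (kint_int _ _)]
  refine (int_le_lm (C := Real.pi / 4) (by positivity) y.natAbs fun t h0 h1 => ?_).trans ?_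
  · have hs := ss_pos h0 h1
    have hL := (lm_pos t).le
    have e : kint (x + 1) y t - kint x y t
        = lm t ^ y.natAbs * (Real.cos (x * t) - Real.cos ((x + 1 : ℤ) * t)) / (2 * ss t) := by
      unfold kint
      field_simp
      ring
    rw [e, abs_div, abs_mul, abs_of_nonneg (pow_nonneg hL _),
      abs_of_pos (by positivity : 0 < 2 * ss t), div_le_iff₀ (by positivity)]
    have h2 : |Real.cos (x * t) - Real.cos ((x + 1 : ℤ) * t)| ≤ t := by
      refine (Real.abs_cos_sub_cos_le _ _).trans (le_of_eq ?_)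
      push_cast
      rw [show (x:ℝ) * t - (x + 1) * t = -t by ring, abs_neg, abs_of_pos h0]
    have h3 := t_le_ss h0.le h1
    have h4 : 0 ≤ lm t ^ y.natAbs := pow_nonneg hL _
    calc lm t ^ y.natAbs * |Real.cos (x * t) - Real.cos ((x + 1 : ℤ) * t)|
        ≤ lm t ^ y.natAbs * (Real.pi / 2 * ss t) := mul_le_mul_of_nonneg_left (h2.trans h3) h4
      _ = _ := by ring
  · rw [natAbs_cast, add_comm |(y:ℝ)| 1]
    have h5 : 0 < 1 + |(y:ℝ)| := by positivity
    have h6 : Real.pi ≤ 4 := Real.pi_le_four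
    rw [show Real.pi / 4 * (4 * Real.pi / (1 + |(y:ℝ)|)) = Real.pi * Real.pi / (1 + |(y:ℝ)|) by
      field_simp, show 4 / (1 + |(y:ℝ)|) * Real.pi = 4 * Real.pi / (1 + |(y:ℝ)|) by ring]
    exact div_le_div_of_nonneg_right (mul_le_mul_of_nonneg_right h6 hπ.le) h5.le

theorem ker_dy (x y : ℤ) : |ker (x, y + 1) - ker (x, y)| ≤ 4 / (1 + |(y:ℝ)|) := by
  rcases le_or_gt 0 y with hy | hy
  · obtain ⟨n, rfl⟩ := Int.eq_ofNat_of_zero_le hy
    have h := ker_dy_nat x n
    push_cast at h ⊢
    refine h.trans ?_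
    rw [abs_of_nonneg (by positivity), add_comm (1:ℝ)]
    exact div_le_div_of_nonneg_right (by norm_num) (by positivity)
  · obtain ⟨n, hn⟩ : ∃ n : ℕ, y = -((n + 1 : ℕ) : ℤ) := ⟨(-y - 1).toNat, by omega⟩
    subst hn
    have h := ker_dy_nat x n
    have e1 : -(((n + 1 : ℕ)) : ℤ) + 1 = -((n : ℕ) : ℤ) := by push_cast; ring
    rw [e1, ker_negy, ker_negy, abs_sub_comm]
    refine h.trans ?_
    rw [Int.cast_neg, abs_neg, Int.cast_natCast, abs_of_nonneg (by positivity)]
    push_cast
    rw [div_le_div_iff₀ (by positivity) (by positivity)]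
    nlinarith

theorem lap_eq170 (h : Site → ℝ) (x : Site) : H170.lap h x = lap h x := by
  unfold H170.lap lap
  have e1 : x - (1, 0) = x + (-1, 0) := by ext <;> simp [sub_eq_add_neg]
  have e2 : x - (0, 1) = x + (0, -1) := by ext <;> simp [sub_eq_add_neg]
  rw [e1, e2]

/-- linear growth -/
theorem ker_abs_le (x y : ℤ) : |ker (x, y)| ≤ 4 * (|(x:ℝ)| + |(y:ℝ)|) := by
  have hx : ∀ n : ℕ, ∀ y : ℤ, |ker ((n : ℤ), y) - ker (0, y)| ≤ 4 * n := by
    intro n y
    induction n with
    | zero => simp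
    | succ n ih =>
      have h := ker_dx n y
      have h2 : 4 / (1 + |(y:ℝ)|) ≤ 4 := by
        rw [div_le_iff₀ (by positivity)]; nlinarith [abs_nonneg (y:ℝ)]
      have e : ker (((n + 1 : ℕ) : ℤ), y) - ker (0, y)
          = (ker ((n : ℤ) + 1, y) - ker ((n : ℤ), y)) + (ker ((n : ℤ), y) - ker (0, y)) := by
        push_cast; ring
      rw [e]
      refine (abs_add_le _ _).trans ?_
      push_cast
      linarith
  have hy : ∀ n : ℕ, |ker (0, (n : ℤ))| ≤ 4 * n := by
    intro n
    induction n with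
    | zero => simp [ker_zero]
    | succ n ih =>
      have h := ker_dy 0 n
      have h2 : 4 / (1 + |((n:ℤ):ℝ)|) ≤ 4 := by
        rw [div_le_iff₀ (by positivity)]; nlinarith [abs_nonneg ((n:ℤ):ℝ)]
      have e : ker (0, ((n + 1 : ℕ) : ℤ))
          = (ker (0, (n : ℤ) + 1) - ker (0, (n : ℤ))) + ker (0, (n : ℤ)) := by
        push_cast; ring
      rw [e]
      refine (abs_add_le _ _).trans ?_
      push_cast
      linarith
  have e1 : ker (x, y) = ker ((x.natAbs : ℤ), (y.natAbs : ℤ)) := by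
    rcases Int.natAbs_eq x with hx' | hx' <;> rcases Int.natAbs_eq y with hy' | hy'
    · rw [← hx', ← hy']
    · conv_lhs => rw [hy', ker_negy]
      rw [← hx']
    · conv_lhs => rw [hx', ker_negx]
      rw [← hy']
    · conv_lhs => rw [hx', hy', ker_negx, ker_negy]
  have e2 : ker (0, (y.natAbs : ℤ)) = ker ((0:ℤ), (y.natAbs : ℤ)) := rfl
  rw [e1]
  have a1 := hx x.natAbs y.natAbs
  have a2 := hy y.natAbs
  rw [natAbs_cast] at a1 a2
  calc |ker ((x.natAbs : ℤ), (y.natAbs : ℤ))|
      = |(ker ((x.natAbs : ℤ), (y.natAbs : ℤ)) - ker (0, (y.natAbs : ℤ)))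
          + ker (0, (y.natAbs : ℤ))| := by ring_nf
    _ ≤ _ := (abs_add_le _ _).trans (by linarith)

/-! ### symmetry -/

/-- The second differences of a harmonic function of linear growth vanish. -/
theorem dd_zero {v : Site → ℝ} (hv : ∀ x, lap v x = 0) {K : ℝ} (hK : 0 ≤ K)
    (hb : ∀ x : Site, |v x| ≤ K * (|(x.1:ℝ)| + |(x.2:ℝ)|)) {w : List H170.Pt} (hw : H170.Dirs w)
    (hw2 : w.length = 2) (c : Site) : H170.DD w v c = 0 := by
  obtain ⟨C, hC, hsup⟩ := H170.DD_sup 2
  have key : ∀ R : ℕ, 1 ≤ R → |H170.DD w v c| ≤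
      (C * K * (|(c.1:ℝ)| + |(c.2:ℝ)| + 6)) / R := by
    intro R hR
    have hR' : (1:ℝ) ≤ R := by exact_mod_cast hR
    have h1 := hsup w hw hw2 v c R (K * (|(c.1:ℝ)| + |(c.2:ℝ)| + 2 * (R + 2))) (by omega)
      (fun x _ => by rw [lap_eq170]; exact hv x) ?_
    · refine h1.trans ?_
      rw [div_le_div_iff₀ (by positivity) (by positivity)]
      have h2 : |(c.1:ℝ)| + |(c.2:ℝ)| + 2 * (R + 2) ≤ (|(c.1:ℝ)| + |(c.2:ℝ)| + 6) * R := by
        nlinarith [abs_nonneg (c.1:ℝ), abs_nonneg (c.2:ℝ)]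
      have h3 : 0 ≤ C * K * R := by positivity
      nlinarith
    · intro x hx
      refine (hb x).trans (mul_le_mul_of_nonneg_left ?_ hK)
      rw [H170.mem_bx] at hx
      obtain ⟨⟨a1, a2⟩, a3, a4⟩ := hx
      have b1 : (c.1:ℝ) - (R + 2) ≤ x.1 := by
        have : (c.1:ℝ) - ((R + 2 : ℕ) : ℝ) ≤ x.1 := by exact_mod_cast a1
        push_cast at this; linarith
      have b2 : (x.1:ℝ) ≤ c.1 + (R + 2) := by
        have : (x.1:ℝ) ≤ c.1 + ((R + 2 : ℕ) : ℝ) := by exact_mod_cast a2
        push_cast at this; linarith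
      have b3 : (c.2:ℝ) - (R + 2) ≤ x.2 := by
        have : (c.2:ℝ) - ((R + 2 : ℕ) : ℝ) ≤ x.2 := by exact_mod_cast a3
        push_cast at this; linarith
      have b4 : (x.2:ℝ) ≤ c.2 + (R + 2) := by
        have : (x.2:ℝ) ≤ c.2 + ((R + 2 : ℕ) : ℝ) := by exact_mod_cast a4
        push_cast at this; linarith
      have d1 : |(x.1:ℝ)| ≤ |(c.1:ℝ)| + (R + 2) := by
        rw [abs_le]
        constructor <;> linarith [neg_abs_le (c.1:ℝ), le_abs_self (c.1:ℝ)]
      have d2 : |(x.2:ℝ)| ≤ |(c.2:ℝ)| + (R + 2) := by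
        rw [abs_le]
        constructor <;> linarith [neg_abs_le (c.2:ℝ), le_abs_self (c.2:ℝ)]
      linarith
  by_contra hne
  have hpos : 0 < |H170.DD w v c| := abs_pos.2 hne
  set M := C * K * (|(c.1:ℝ)| + |(c.2:ℝ)| + 6) with hM
  obtain ⟨R, hR⟩ := exists_nat_gt (M / |H170.DD w v c|)
  have hM0 : 0 ≤ M := by positivity
  have hR1 : 1 ≤ R := by
    rcases Nat.eq_zero_or_pos R with h | h
    · subst h
      have : 0 ≤ M / |H170.DD w v c| := by positivity
      simp at hR
      linarith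
    · exact h
  have hR0 : (0:ℝ) < R := by exact_mod_cast hR1
  have h1 := key R hR1
  rw [div_lt_iff₀ hpos] at hR
  rw [le_div_iff₀ hR0] at h1
  linarith

theorem lap_swap (v : Site → ℝ) (x : Site) : lap (fun p => v (p.2, p.1)) x = lap v (x.2, x.1) := by
  unfold lap
  simp only [Prod.mk_add_mk, Prod.fst_add, Prod.snd_add, add_zero]
  ring

/-- The kernel is symmetric. -/
theorem ker_swap (x y : ℤ) : ker (x, y) = ker (y, x) := by
  set v : Site → ℝ := fun p => ker p - ker (p.2, p.1) with hv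
  have hlap : ∀ x, lap v x = 0 := by
    intro x
    rw [hv, lap_sub, lap_swap, lap_ker, lap_ker]
    have : ((x.2, x.1) : Site) = 0 ↔ x = 0 := by
      constructor
      · intro h
        have h1 := congrArg Prod.fst h
        have h2 := congrArg Prod.snd h
        exact Prod.ext h2 h1
      · rintro rfl; rfl
    simp only [this]
    ring
  have hb : ∀ x : Site, |v x| ≤ 8 * (|(x.1:ℝ)| + |(x.2:ℝ)|) := by
    intro x
    have h1 := ker_abs_le x.1 x.2
    have h2 := ker_abs_le x.2 x.1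
    refine (abs_sub _ _).trans ?_
    show |ker (x.1, x.2)| + |ker (x.2, x.1)| ≤ _
    linarith
  have hdd : ∀ e f : Site, (e = (1, 0) ∨ e = (0, 1)) → (f = (1, 0) ∨ f = (0, 1)) → ∀ c,
      (v (c + e + f) - v (c + e)) - (v (c + f) - v c) = 0 := by
    intro e f he hf c
    have h := dd_zero hlap (by norm_num : (0:ℝ) ≤ 8) hb (w := [e, f]) (by
      intro g hg
      simp only [List.mem_cons, List.not_mem_nil, or_false] at hg
      rcases hg with rfl | rfl
      · exact he
      · exact hf) rfl c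
    simpa [H170.DD, H170.D] using h
  -- the differences are constant
  have hc : ∀ f : Site, (f = (1, 0) ∨ f = (0, 1)) → ∀ c, v (c + f) - v c = v f - v 0 := by
    intro f hf
    have step : ∀ e : Site, (e = (1, 0) ∨ e = (0, 1)) → ∀ c,
        v (c + e + f) - v (c + e) = v (c + f) - v c := fun e he c => by
      linarith [hdd e f he hf c]
    have h1 : ∀ a b : ℤ, v ((a, b) + f) - v (a, b) = v ((0, b) + f) - v (0, b) := by
      intro a b
      induction a using Int.induction_on with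
      | zero => rfl
      | succ n ih =>
        rw [← ih]
        have := step (1, 0) (Or.inl rfl) ((n : ℤ), b)
        simpa using this
      | pred n ih =>
        rw [← ih]
        have := step (1, 0) (Or.inl rfl) (-(n : ℤ) - 1, b)
        simp only [Prod.mk_add_mk, sub_add_cancel, add_zero] at this
        exact this.symm
    have h2 : ∀ b : ℤ, v ((0, b) + f) - v (0, b) = v f - v 0 := by
      intro b
      induction b using Int.induction_on with
      | zero => 
        rw [show ((0, 0) : Site) = 0 from rfl, zero_add]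
      | succ n ih =>
        rw [← ih]
        have := step (0, 1) (Or.inr rfl) (0, (n : ℤ))
        simpa using this
      | pred n ih =>
        rw [← ih]
        have := step (0, 1) (Or.inr rfl) (0, -(n : ℤ) - 1)
        simp only [Prod.mk_add_mk, sub_add_cancel, add_zero] at this
        exact this.symm
    rintro ⟨a, b⟩
    rw [h1, h2]
  have hz : v 0 = 0 := by
    show ker (0, 0) - ker (0, 0) = 0
    ring
  have e1 : v (1, 0) = 0 := by
    have h1 := hc (1, 0) (Or.inl rfl) (-1, 0)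
    have h2 : v (-1, 0) = v (1, 0) := by
      simp only [hv]
      rw [ker_negx, show ((0:ℤ), (-1:ℤ)) = ((0:ℤ), -(1:ℤ)) from rfl, ker_negy]
    rw [show ((-1, 0) : Site) + (1, 0) = 0 from rfl, h2, hz] at h1
    linarith
  have e2 : v (0, 1) = 0 := by
    have h1 := hc (0, 1) (Or.inr rfl) (0, -1)
    have h2 : v (0, -1) = v (0, 1) := by
      simp only [hv]
      rw [show ((0:ℤ), (-1:ℤ)) = ((0:ℤ), -(1:ℤ)) from rfl, ker_negy, ker_negx]
    rw [show ((0, -1) : Site) + (0, 1) = 0 from rfl, h2, hz] at h1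
    linarith
  have hx : ∀ a b : ℤ, v (a, b) = v (0, b) := by
    intro a b
    induction a using Int.induction_on with
    | zero => rfl
    | succ n ih =>
      have := hc (1, 0) (Or.inl rfl) ((n : ℤ), b)
      rw [e1, hz] at this
      simp only [Prod.mk_add_mk, add_zero] at this
      linarith
    | pred n ih =>
      have := hc (1, 0) (Or.inl rfl) (-(n : ℤ) - 1, b)
      rw [e1, hz] at this
      simp only [Prod.mk_add_mk, sub_add_cancel, add_zero] at this
      linarith
  have hy : ∀ b : ℤ, v (0, b) = 0 := by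
    intro b
    induction b using Int.induction_on with
    | zero => exact hz
    | succ n ih =>
      have := hc (0, 1) (Or.inr rfl) (0, (n : ℤ))
      rw [e2, hz] at this
      simp only [Prod.mk_add_mk, add_zero] at this
      linarith
    | pred n ih =>
      have := hc (0, 1) (Or.inr rfl) (0, -(n : ℤ) - 1)
      rw [e2, hz] at this
      simp only [Prod.mk_add_mk, sub_add_cancel, add_zero] at this
      linarith
  have := (hx x y).trans (hy y)
  simp only [hv] at this
  linarith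

theorem inv_max_le {x y d : ℝ} (hd1 : d ≤ 4 / (1 + |y|)) (hd2 : d ≤ 4 / (1 + |x|)) :
    d ≤ 8 / (1 + |x| + |y|) := by
  have hx := abs_nonneg x
  have hy := abs_nonneg y
  rw [le_div_iff₀ (by positivity)] at *
  rcases le_total 0 d with h | h
  · nlinarith
  · nlinarith

/-- Gradient bounds. -/
theorem ker_grad_x (x y : ℤ) : |ker (x + 1, y) - ker (x, y)| ≤ 8 / (1 + |(x:ℝ)| + |(y:ℝ)|) := by
  refine inv_max_le (ker_dx x y) ?_
  rw [ker_swap (x + 1) y, ker_swap x y]
  exact ker_dy y x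

theorem ker_grad_y (x y : ℤ) : |ker (x, y + 1) - ker (x, y)| ≤ 8 / (1 + |(x:ℝ)| + |(y:ℝ)|) := by
  refine inv_max_le (ker_dy x y) ?_
  rw [ker_swap x (y + 1), ker_swap x y]
  exact ker_dx y x

/-! ### representation -/

theorem sum_parts {u k : Site → ℝ} {Λ S : Finset Site} (hu : ∀ x ∉ Λ, u x = 0)
    (hS : ∀ x ∉ S, lap u x = 0) : ∑ w ∈ S, k w * lap u w = ∑ w ∈ Λ, u w * lap k w := by
  classical
  set S0 : Finset Site := Λ ∪ Λ.image (fun x => x + (1, 0)) ∪ Λ.image (fun x => x + (-1, 0))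
    ∪ Λ.image (fun x => x + (0, 1)) ∪ Λ.image (fun x => x + (0, -1)) with hS0
  have hmem : ∀ x, x ∈ S0 ↔ x ∈ Λ ∨ x + (-1, 0) ∈ Λ ∨ x + (1, 0) ∈ Λ ∨ x + (0, -1) ∈ Λ
      ∨ x + (0, 1) ∈ Λ := by
    intro x
    have him : ∀ e f : Site, e + f = 0 → (x ∈ Λ.image (fun y => y + e) ↔ x + f ∈ Λ) := by
      intro e f hef
      rw [Finset.mem_image]
      constructor
      · rintro ⟨y, hy, rfl⟩
        rwa [add_assoc, hef, add_zero]
      · intro h
        exact ⟨x + f, h, by rw [add_assoc, add_comm f e, hef, add_zero]⟩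
    rw [hS0, Finset.mem_union, Finset.mem_union, Finset.mem_union, Finset.mem_union,
      him (1, 0) (-1, 0) rfl, him (-1, 0) (1, 0) rfl, him (0, 1) (0, -1) rfl,
      him (0, -1) (0, 1) rfl]
    tauto
  have h0 : ∀ x ∉ S0, lap u x = 0 := by
    intro x hx
    rw [hmem] at hx
    push Not at hx
    unfold lap
    rw [hu _ hx.1, hu _ hx.2.1, hu _ hx.2.2.1, hu _ hx.2.2.2.1, hu _ hx.2.2.2.2]
    ring
  have e1 : ∑ w ∈ S, k w * lap u w = ∑ w ∈ S0, k w * lap u w := by
    have a1 : ∑ w ∈ S, k w * lap u w = ∑ w ∈ S ∪ S0, k w * lap u w :=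
      Finset.sum_subset Finset.subset_union_left fun x _ hx => by rw [hS x hx, mul_zero]
    have a2 : ∑ w ∈ S0, k w * lap u w = ∑ w ∈ S ∪ S0, k w * lap u w :=
      Finset.sum_subset Finset.subset_union_right fun x _ hx => by rw [h0 x hx, mul_zero]
    rw [a1, a2]
  have hsub : Λ ⊆ S0 := fun x hx => (hmem x).2 (Or.inl hx)
  have e2 : ∑ w ∈ Λ, u w * lap k w = ∑ w ∈ S0, u w * lap k w :=
    Finset.sum_subset hsub fun x _ hx => by rw [hu x hx, zero_mul]
  have hsh : ∀ e f : Site, e + f = 0 → (∀ x, x + e ∈ Λ → x ∈ S0) →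
      ∑ x ∈ S0, k x * u (x + e) = ∑ x ∈ S0, k (x + f) * u x := by
    intro e f hef hsup
    have := H170.sum_shift S0 (fun x => k (x + f) * u x) e
      (fun x hx => by
        show k (x + f) * u x = 0
        rw [hu x (fun h => hx (hsub h)), mul_zero])
      (fun x hx => by
        show k (x + e + f) * u (x + e) = 0
        rw [hu (x + e) (fun h => hx (hsup x h)), mul_zero])
    rw [← this]
    refine Finset.sum_congr rfl fun x _ => ?_
    rw [add_assoc, hef, add_zero]
  have b1 := hsh (1, 0) (-1, 0) rfl fun x h => (hmem x).2 (by tauto)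
  have b2 := hsh (-1, 0) (1, 0) rfl fun x h => (hmem x).2 (by tauto)
  have b3 := hsh (0, 1) (0, -1) rfl fun x h => (hmem x).2 (by tauto)
  have b4 := hsh (0, -1) (0, 1) rfl fun x h => (hmem x).2 (by tauto)
  rw [e1, e2]
  have c1 : ∑ w ∈ S0, k w * lap u w = ∑ x ∈ S0, k x * u (x + (1, 0))
      + ∑ x ∈ S0, k x * u (x + (-1, 0)) + ∑ x ∈ S0, k x * u (x + (0, 1))
      + ∑ x ∈ S0, k x * u (x + (0, -1)) - 4 * ∑ x ∈ S0, k x * u x := by
    rw [Finset.mul_sum, ← Finset.sum_add_distrib, ← Finset.sum_add_distrib,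
      ← Finset.sum_add_distrib, ← Finset.sum_sub_distrib]
    exact Finset.sum_congr rfl fun x _ => by unfold lap; ring
  have c2 : ∑ w ∈ S0, u w * lap k w = ∑ x ∈ S0, k (x + (1, 0)) * u x
      + ∑ x ∈ S0, k (x + (-1, 0)) * u x + ∑ x ∈ S0, k (x + (0, 1)) * u x
      + ∑ x ∈ S0, k (x + (0, -1)) * u x - 4 * ∑ x ∈ S0, k x * u x := by
    rw [Finset.mul_sum, ← Finset.sum_add_distrib, ← Finset.sum_add_distrib,
      ← Finset.sum_add_distrib, ← Finset.sum_sub_distrib]
    exact Finset.sum_congr rfl fun x _ => by unfold lap; ring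
  rw [c1, c2, b1, b2, b3, b4]
  ring

theorem ker_neg (x : Site) : ker (-x) = ker x := by
  obtain ⟨x, y⟩ := x
  show ker (-x, -y) = _
  rw [ker_negx, ker_negy]

theorem lap_ker_sub (z w : Site) : lap (fun w => ker (z - w)) w = if w = z then 1 else 0 := by
  have h : lap (fun w => ker (z - w)) w = lap ker (w - z) := by
    unfold lap
    have e : ∀ d : Site, ker (z - (w + d)) = ker (w - z + d) := fun d => by
      rw [← ker_neg]; congr 1; abel
    simp only [e]
    rw [← ker_neg (z - w), neg_sub]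
  rw [h, lap_ker]
  simp only [sub_eq_zero]

/-- Representation of finitely supported functions. -/
theorem ker_rep {u : Site → ℝ} {Λ S : Finset Site} (hu : ∀ x ∉ Λ, u x = 0)
    (hS : ∀ x ∉ S, lap u x = 0) (z : Site) : u z = ∑ w ∈ S, ker (z - w) * lap u w := by
  rw [sum_parts (k := fun w => ker (z - w)) hu hS]
  simp only [lap_ker_sub, mul_ite, mul_one, mul_zero]
  rw [Finset.sum_ite_eq']
  split_ifs with h
  · rfl
  · exact hu z h

theorem sum_lap_zero {u : Site → ℝ} {Λ S : Finset Site} (hu : ∀ x ∉ Λ, u x = 0)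
    (hS : ∀ x ∉ S, lap u x = 0) : ∑ w ∈ S, lap u w = 0 := by
  have := sum_parts (k := fun _ => 1) hu hS
  simp only [one_mul, lap_const, mul_zero, Finset.sum_const_zero] at this
  exact this

/-! ### the gradient in `L¹` -/

noncomputable def pk (k : ℤ) : ℝ := (√(1 / 2 + |(k:ℝ)|))⁻¹

theorem pk_pos (k : ℤ) : 0 < pk k := by
  unfold pk
  have : 0 < 1 / 2 + |(k:ℝ)| := by positivity
  positivity

theorem inv_le_pk (a b : ℤ) : 1 / (1 + |(a:ℝ)| + |(b:ℝ)|) ≤ 1 / 2 * (pk a * pk b) := by
  unfold pk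
  have ha : 0 < 1 / 2 + |(a:ℝ)| := by positivity
  have hb : 0 < 1 / 2 + |(b:ℝ)| := by positivity
  set p := √(1 / 2 + |(a:ℝ)|) with hp
  set q := √(1 / 2 + |(b:ℝ)|) with hq
  have hp0 : 0 < p := Real.sqrt_pos.2 ha
  have hq0 : 0 < q := Real.sqrt_pos.2 hb
  have hp2 : p ^ 2 = 1 / 2 + |(a:ℝ)| := Real.sq_sqrt ha.le
  have hq2 : q ^ 2 = 1 / 2 + |(b:ℝ)| := Real.sq_sqrt hb.le
  have e : 1 + |(a:ℝ)| + |(b:ℝ)| = p ^ 2 + q ^ 2 := by rw [hp2, hq2]; ring
  rw [e, ← mul_inv, one_div, one_div, ← mul_inv]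
  refine inv_anti₀ (by positivity) ?_
  nlinarith [sq_nonneg (p - q)]

theorem Icc_succ (r : ℕ) : Finset.Icc (-((r + 1 : ℕ) : ℤ)) ((r + 1 : ℕ) : ℤ)
    = insert (-((r + 1 : ℕ) : ℤ)) (insert ((r + 1 : ℕ) : ℤ) (Finset.Icc (-(r : ℤ)) r)) := by
  ext x
  simp only [Finset.mem_Icc, Finset.mem_insert]
  omega

theorem sum_pk (r : ℕ) : ∑ k ∈ Finset.Icc (-(r : ℤ)) r, pk k ≤ 4 * √(r + 1) := by
  induction r with
  | zero =>
    simp only [Nat.cast_zero, neg_zero, Finset.Icc_self, Finset.sum_singleton, zero_add,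
      Real.sqrt_one, mul_one]
    unfold pk
    simp only [Int.cast_zero, abs_zero, add_zero]
    rw [← Real.sqrt_inv]
    refine Real.sqrt_le_iff.2 ⟨by norm_num, by norm_num⟩
  | succ r ih =>
    rw [Icc_succ, Finset.sum_insert, Finset.sum_insert]
    · have e1 : pk (-((r + 1 : ℕ) : ℤ)) = pk ((r + 1 : ℕ) : ℤ) := by
        unfold pk; rw [Int.cast_neg, abs_neg]
      rw [e1]
      have h2 : pk ((r + 1 : ℕ) : ℤ) ≤ 2 * (√(((r + 1 : ℕ) : ℝ) + 1) - √(r + 1)) := by
        unfold pk
        rw [Int.cast_natCast, abs_of_nonneg (by positivity)]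
        push_cast
        set x : ℝ := (r:ℝ) + 1 with hx
        have hx0 : 0 < x := by positivity
        set s := √(1 / 2 + x) with hs
        set p := √(x + 1) with hp
        set q := √x with hq
        have hs2 : s ^ 2 = 1 / 2 + x := Real.sq_sqrt (by positivity)
        have hp2 : p ^ 2 = x + 1 := Real.sq_sqrt (by positivity)
        have hq2 : q ^ 2 = x := Real.sq_sqrt hx0.le
        have hs0 : 0 < s := Real.sqrt_pos.2 (by positivity)
        have hp0 : 0 < p := Real.sqrt_pos.2 (by positivity)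
        have hq0 : 0 < q := Real.sqrt_pos.2 hx0
        have h3 : p + q ≤ 2 * s := by
          refine abs_le_of_sq_le_sq' ?_ (by positivity) |>.2
          nlinarith [sq_nonneg (p - q)]
        have h4 : (p - q) * (p + q) = 1 := by nlinarith
        have h5 : 0 ≤ p - q := by
          by_contra hc
          push Not at hc
          nlinarith
        rw [inv_le_iff_one_le_mul₀ hs0]
        nlinarith
      linarith
    · simp
    · simp only [Finset.mem_insert, Finset.mem_Icc]
      omega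

theorem sum_pk' (w : ℤ) (r : ℕ) : ∑ k ∈ Finset.Icc (w - r) (w + r), pk (k - w) ≤ 4 * √(r + 1) := by
  refine le_trans (le_of_eq ?_) (sum_pk r)
  refine Finset.sum_nbij (fun k => k - w) ?_ ?_ ?_ ?_
  · intro k hk
    rw [Finset.mem_Icc] at hk ⊢
    omega
  · intro a _ b _ h
    simpa using h
  · intro k hk
    rw [Finset.mem_coe, Finset.mem_Icc] at hk
    exact ⟨k + w, by rw [Finset.mem_coe, Finset.mem_Icc]; omega, by simp⟩
  · intro k _; rfl

theorem sum_inv_self (w : Site) (r : ℕ) :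
    ∑ z ∈ H170.bx w r, 1 / (1 + |((z.1 - w.1 : ℤ):ℝ)| + |((z.2 - w.2 : ℤ):ℝ)|) ≤ 8 * (r + 1) := by
  calc ∑ z ∈ H170.bx w r, 1 / (1 + |((z.1 - w.1 : ℤ):ℝ)| + |((z.2 - w.2 : ℤ):ℝ)|)
      ≤ ∑ z ∈ H170.bx w r, 1 / 2 * (pk (z.1 - w.1) * pk (z.2 - w.2)) :=
        Finset.sum_le_sum fun z _ => inv_le_pk _ _
    _ = 1 / 2 * ((∑ k ∈ Finset.Icc (w.1 - r) (w.1 + r), pk (k - w.1))
          * ∑ k ∈ Finset.Icc (w.2 - r) (w.2 + r), pk (k - w.2)) := by
        rw [← Finset.mul_sum]
        unfold H170.bx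
        rw [Finset.sum_product, Finset.sum_mul_sum]
    _ ≤ 1 / 2 * ((4 * √(r + 1)) * (4 * √(r + 1))) := by
        refine mul_le_mul_of_nonneg_left ?_ (by norm_num)
        exact mul_le_mul (sum_pk' _ _) (sum_pk' _ _)
          (Finset.sum_nonneg fun k _ => (pk_pos _).le) (by positivity)
    _ = _ := by
        have : √((r:ℝ) + 1) * √((r:ℝ) + 1) = r + 1 := Real.mul_self_sqrt (by positivity)
        linear_combination 8 * this

theorem sum_inv (c w : Site) (r : ℕ) :
    ∑ z ∈ H170.bx c r, 1 / (1 + |((z.1 - w.1 : ℤ):ℝ)| + |((z.2 - w.2 : ℤ):ℝ)|) ≤ 12 * (r + 1) := by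
  classical
  set f : Site → ℝ := fun z => 1 / (1 + |((z.1 - w.1 : ℤ):ℝ)| + |((z.2 - w.2 : ℤ):ℝ)|) with hf
  have hf0 : ∀ z, 0 ≤ f z := fun z => by simp only [hf]; positivity
  have h1 : ∑ z ∈ H170.bx c r, f z ≤ ∑ z ∈ H170.bx w r, f z
      + ∑ z ∈ H170.bx c r \ H170.bx w r, f z := by
    calc ∑ z ∈ H170.bx c r, f z ≤ ∑ z ∈ H170.bx w r ∪ (H170.bx c r \ H170.bx w r), f z :=
          Finset.sum_le_sum_of_subset_of_nonneg (by
            intro z hz
            rw [Finset.mem_union, Finset.mem_sdiff]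
            tauto) fun z _ _ => hf0 z
      _ = _ := Finset.sum_union Finset.disjoint_sdiff
  have h2 : ∑ z ∈ H170.bx c r \ H170.bx w r, f z ≤ 4 * (r + 1) := by
    have h3 : ∀ z ∈ H170.bx c r \ H170.bx w r, f z ≤ 1 / (r + 1) := by
      intro z hz
      rw [Finset.mem_sdiff, H170.mem_bx, H170.mem_bx] at hz
      have h4 : (r : ℤ) + 1 ≤ 1 + |z.1 - w.1| + |z.2 - w.2| := by
        by_contra hc
        push Not at hc
        have a1 := abs_nonneg (z.1 - w.1)
        have a2 := abs_nonneg (z.2 - w.2)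
        have a3 : |z.1 - w.1| ≤ r := by omega
        have a4 : |z.2 - w.2| ≤ r := by omega
        rw [abs_le] at a3 a4
        exact hz.2 ⟨⟨by omega, by omega⟩, by omega, by omega⟩
      have h5 : (r : ℝ) + 1 ≤ 1 + |((z.1 - w.1 : ℤ):ℝ)| + |((z.2 - w.2 : ℤ):ℝ)| := by
        rw [← Int.cast_abs, ← Int.cast_abs]
        exact_mod_cast h4
      exact one_div_le_one_div_of_le (by positivity) h5
    refine (Finset.sum_le_card_nsmul _ _ _ h3).trans ?_
    have h6 : ((H170.bx c r \ H170.bx w r).card : ℝ) ≤ (2 * r + 1) ^ 2 := by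
      have : (H170.bx c r \ H170.bx w r).card ≤ (H170.bx c r).card :=
        Finset.card_le_card Finset.sdiff_subset
      rw [H170.card_bx] at this
      exact_mod_cast this
    rw [nsmul_eq_mul, mul_one_div, div_le_iff₀ (by positivity)]
    nlinarith
  have h7 := sum_inv_self w r
  linarith

theorem ker_grad (x e : Site) (he : e = (1, 0) ∨ e = (0, 1)) :
    |ker (x + e) - ker x| ≤ 8 * (1 / (1 + |(x.1:ℝ)| + |(x.2:ℝ)|)) := by
  obtain ⟨x, y⟩ := x
  rw [mul_one_div]
  rcases he with rfl | rfl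
  · have := ker_grad_x x y
    simpa using this
  · have := ker_grad_y x y
    simpa using this

/-- The gradient of the potential of a mass distribution, in `L¹`. -/
theorem grad_sum {u : Site → ℝ} {Λ S : Finset Site} (hu : ∀ x ∉ Λ, u x = 0)
    (hS : ∀ x ∉ S, lap u x = 0) (c : Site) (r : ℕ) {e : Site} (he : e = (1, 0) ∨ e = (0, 1)) :
    ∑ z ∈ H170.bx c r, |u (z + e) - u z| ≤ 96 * (r + 1) * ∑ w ∈ S, |lap u w| := by
  have h1 : ∀ z, |u (z + e) - u z| ≤ ∑ w ∈ S, 8 * (1 / (1 + |((z.1 - w.1 : ℤ):ℝ)|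
      + |((z.2 - w.2 : ℤ):ℝ)|)) * |lap u w| := by
    intro z
    rw [ker_rep hu hS (z + e), ker_rep hu hS z, ← Finset.sum_sub_distrib]
    refine (Finset.abs_sum_le_sum_abs _ _).trans (Finset.sum_le_sum fun w _ => ?_)
    rw [← sub_mul, abs_mul]
    refine mul_le_mul_of_nonneg_right ?_ (abs_nonneg _)
    have := ker_grad (z - w) e he
    rw [show z - w + e = z + e - w by abel] at this
    exact this
  refine (Finset.sum_le_sum fun z _ => h1 z).trans ?_
  rw [Finset.sum_comm, Finset.mul_sum]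
  refine Finset.sum_le_sum fun w _ => ?_
  rw [← Finset.sum_mul, ← Finset.mul_sum]
  refine mul_le_mul_of_nonneg_right ?_ (abs_nonneg _)
  have := sum_inv c w r
  linarith

/-! ### logarithmic growth -/

/-- the supremum norm -/
def nm (p : Site) : ℕ := max p.1.natAbs p.2.natAbs

theorem ker_mono (n : ℕ) : ker (0, (n : ℤ)) ≤ ker (0, ((n + 1 : ℕ) : ℤ)) := by
  unfold ker
  refine div_le_div_of_nonneg_right ?_ Real.pi_pos.le
  refine intervalIntegral.integral_mono_on Real.pi_pos.le (kint_int _ _) (kint_int _ _) ?_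
  intro t _
  unfold kint
  simp only [Int.cast_zero, zero_mul, Real.cos_zero, mul_one, Int.natAbs_natCast]
  refine div_le_div_of_nonneg_right ?_ (mul_nonneg (by norm_num) (ss_nonneg t))
  have : lm t ^ (n + 1) ≤ lm t ^ n :=
    pow_le_pow_of_le_one (lm_pos t).le (lm_le_one t) (Nat.le_succ n)
  linarith

theorem ker_axis_le {m n : ℕ} (h : n ≤ m) :
    ker (0, (m : ℤ)) - ker (0, (n : ℤ)) ≤ 4 * Real.log ((m + 1) / (n + 1)) := by
  induction m, h using Nat.le_induction with
  | base => rw [div_self (by positivity)]; simp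
  | succ m hm ih =>
    have h1 := (abs_le.1 (ker_dy_nat 0 m)).2
    have h2 : (2:ℝ) / (m + 1) ≤ 4 * Real.log ((m + 1 + 1) / (m + 1)) := by
      have h3 : 1 - ((m + 1 + 1 : ℝ) / (m + 1))⁻¹ ≤ Real.log ((m + 1 + 1) / (m + 1)) :=
        Real.one_sub_inv_le_log_of_pos (by positivity)
      have h4 : 1 - ((m + 1 + 1 : ℝ) / (m + 1))⁻¹ = 1 / (m + 2) := by
        field_simp
        ring
      rw [h4] at h3
      have h5 : (2:ℝ) / (m + 1) ≤ 4 * (1 / (m + 2)) := by
        rw [mul_one_div, div_le_div_iff₀ (by positivity) (by positivity)]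
        have : (0:ℝ) ≤ m := by positivity
        linarith
      linarith
    have h6 : Real.log ((((m + 1 : ℕ) : ℝ) + 1) / (n + 1))
        = Real.log ((m + 1 + 1) / (m + 1)) + Real.log ((m + 1) / (n + 1)) := by
      rw [← Real.log_mul (by positivity) (by positivity)]
      congr 1
      push_cast
      field_simp
    rw [h6]
    linarith

theorem ker_near_axis (p : Site) : |ker p - ker (0, (nm p : ℤ))| ≤ 4 := by
  -- the case `0 ≤ x ≤ y`
  have key : ∀ x y : ℕ, x ≤ y → |ker ((x : ℤ), (y : ℤ)) - ker (0, (y : ℤ))| ≤ 4 := by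
    intro x y hxy
    have h : |ker ((x : ℤ), (y : ℤ)) - ker (0, (y : ℤ))| ≤ x * (4 / (1 + y)) := by
      clear hxy
      induction x with
      | zero => simp
      | succ x ih =>
        have h1 := ker_dx x y
        rw [Int.cast_natCast, abs_of_nonneg (by positivity : (0:ℝ) ≤ y)] at h1
        have e : ker (((x + 1 : ℕ) : ℤ), (y : ℤ)) - ker (0, (y : ℤ))
            = (ker ((x : ℤ) + 1, (y : ℤ)) - ker ((x : ℤ), (y : ℤ)))
              + (ker ((x : ℤ), (y : ℤ)) - ker (0, (y : ℤ))) := by push_cast; ring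
        rw [e]
        refine (abs_add_le _ _).trans ?_
        push_cast
        linarith
    refine h.trans ?_
    rw [mul_div_assoc', div_le_iff₀ (by positivity)]
    have : (x:ℝ) ≤ y := by exact_mod_cast hxy
    linarith
  obtain ⟨x, y⟩ := p
  have e1 : ker (x, y) = ker ((x.natAbs : ℤ), (y.natAbs : ℤ)) := by
    rcases Int.natAbs_eq x with hx' | hx' <;> rcases Int.natAbs_eq y with hy' | hy'
    · rw [← hx', ← hy']
    · conv_lhs => rw [hy', ker_negy]
      rw [← hx']
    · conv_lhs => rw [hx', ker_negx]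
      rw [← hy']
    · conv_lhs => rw [hx', hy', ker_negx, ker_negy]
  rw [e1]
  unfold nm
  rcases le_total x.natAbs y.natAbs with h | h
  · simp only [max_eq_right h]
    exact key _ _ h
  · simp only [max_eq_left h]
    rw [ker_swap]
    exact key _ _ h

/-- Comparison of two values of the kernel. -/
theorem ker_sub_le (p q : Site) {T : ℝ} (hT : 1 ≤ T) (h : (nm p : ℝ) + 1 ≤ T * (nm q + 1)) :
    ker p - ker q ≤ 8 + 4 * Real.log T := by
  have h1 := (abs_le.1 (ker_near_axis p)).2
  have h2 := (abs_le.1 (ker_near_axis q)).1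
  have h3 : ker (0, (nm p : ℤ)) - ker (0, (nm q : ℤ)) ≤ 4 * Real.log T := by
    rcases le_total (nm q) (nm p) with hqp | hqp
    · refine (ker_axis_le hqp).trans ?_
      refine mul_le_mul_of_nonneg_left (Real.log_le_log (by positivity) ?_) (by norm_num)
      rw [div_le_iff₀ (by positivity)]
      exact h
    · have h4 : ker (0, (nm p : ℤ)) ≤ ker (0, (nm q : ℤ)) := by
        have hm : Monotone fun n : ℕ => ker (0, (n : ℤ)) := monotone_nat_of_le_succ ker_mono
        exact hm hqp
      have h5 : 0 ≤ Real.log T := Real.log_nonneg hT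
      linarith
  linarith

/-- Upper bound for a finitely supported function that is subharmonic off the points of `P`. -/
theorem le_log_sum {u : Site → ℝ} {Λ S P : Finset Site} (hu : ∀ x ∉ Λ, u x = 0)
    (hS : ∀ x ∉ S, lap u x = 0) (hP : ∀ x ∉ P, 0 ≤ lap u x) (hPS : P ⊆ S) (z : Site) {D : ℕ}
    (hD : ∀ w ∈ S, nm (z - w) ≤ D) :
    u z ≤ ∑ p ∈ P, (8 + 4 * Real.log ((D + 1) / (nm (z - p) + 1))) * max 0 (-lap u p) := by
  classical
  rcases S.eq_empty_or_nonempty with hne | hne
  · subst hne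
    rw [ker_rep hu hS z, Finset.sum_empty]
    have : P = ∅ := Finset.subset_empty.1 hPS
    rw [this, Finset.sum_empty]
  obtain ⟨w₀, hw₀, hmax⟩ := Finset.exists_max_image S (fun w => ker (z - w)) hne
  set A := ker (z - w₀) with hA
  have h1 : u z = ∑ w ∈ S, (ker (z - w) - A) * lap u w := by
    rw [ker_rep hu hS z]
    simp only [sub_mul, Finset.sum_sub_distrib]
    rw [← Finset.mul_sum, sum_lap_zero hu hS]
    ring
  have h2 : ∀ w ∈ S, (ker (z - w) - A) * lap u w ≤
      if w ∈ P then (8 + 4 * Real.log ((D + 1) / (nm (z - w) + 1))) * max 0 (-lap u w) else 0 := by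
    intro w hw
    have hle : ker (z - w) - A ≤ 0 := by linarith [hmax w hw]
    split_ifs with hwP
    · have h3 : A - ker (z - w) ≤ 8 + 4 * Real.log ((D + 1) / (nm (z - w) + 1)) := by
        refine ker_sub_le _ _ ?_ ?_
        · rw [le_div_iff₀ (by positivity)]
          have : (nm (z - w) : ℝ) ≤ D := by exact_mod_cast hD w hw
          linarith
        · rw [div_mul_cancel₀ _ (by positivity)]
          have : (nm (z - w₀) : ℝ) ≤ D := by exact_mod_cast hD w₀ hw₀
          linarith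
      rcases le_total 0 (lap u w) with h4 | h4
      · rw [max_eq_left (by linarith), mul_zero]
        exact mul_nonpos_of_nonpos_of_nonneg hle h4
      · rw [max_eq_right (by linarith)]
        have h5 : (ker (z - w) - A) * lap u w = (A - ker (z - w)) * (-lap u w) := by ring
        rw [h5]
        exact mul_le_mul_of_nonneg_right h3 (by linarith)
    · exact mul_nonpos_of_nonpos_of_nonneg hle (hP w hwP)
  rw [h1]
  refine (Finset.sum_le_sum h2).trans (le_of_eq ?_)
  rw [Finset.sum_ite_mem, Finset.inter_eq_right.2 hPS]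

/-- The total mass of a finitely supported function that is subharmonic off the points of `P`. -/
theorem mass_le {u : Site → ℝ} {Λ S P : Finset Site} (hu : ∀ x ∉ Λ, u x = 0)
    (hS : ∀ x ∉ S, lap u x = 0) (hP : ∀ x ∉ P, 0 ≤ lap u x) (hPS : P ⊆ S) :
    ∑ w ∈ S, |lap u w| ≤ 2 * ∑ p ∈ P, max 0 (-lap u p) := by
  classical
  have h0 := sum_lap_zero hu hS
  have h1 : ∀ w ∈ S, |lap u w| = lap u w + 2 * max 0 (-lap u w) := by
    intro w _
    rcases le_total 0 (lap u w) with h | h
    · rw [abs_of_nonneg h, max_eq_left (by linarith)]; ring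
    · rw [abs_of_nonpos h, max_eq_right (by linarith)]; ring
  rw [Finset.sum_congr rfl h1, Finset.sum_add_distrib, h0, zero_add, ← Finset.mul_sum]
  refine mul_le_mul_of_nonneg_left (le_of_eq ?_) (by norm_num)
  refine (Finset.sum_subset hPS fun x _ hx => ?_).symm
  exact max_eq_left (by linarith [hP x hx])

/-- Second differences. -/
theorem ker_grad2 : ∃ C : ℝ, 0 < C ∧ ∀ (x e f : Site), (e = (1, 0) ∨ e = (0, 1)) →
    (f = (1, 0) ∨ f = (0, 1)) →
    |(ker (x + e + f) - ker (x + f)) - (ker (x + e) - ker x)|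
      ≤ C / (1 + |(x.1:ℝ)| + |(x.2:ℝ)|) ^ 2 := by
  obtain ⟨C, hC, hsup⟩ := H170.DD_sup 1
  refine ⟨16 * 36 + C * 16 * 100, by positivity, ?_⟩
  intro x e f he hf
  set s : ℝ := 1 + |(x.1:ℝ)| + |(x.2:ℝ)| with hs
  have hs1 : 1 ≤ s := by
    rw [hs]; linarith [abs_nonneg (x.1:ℝ), abs_nonneg (x.2:ℝ)]
  have hcomm : x + e + f = x + f + e := by abel
  -- the trivial bound
  have htriv : |(ker (x + e + f) - ker (x + f)) - (ker (x + e) - ker x)| ≤ 16 := by
    have h1 := ker_grad (x + f) e he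
    have h2 := ker_grad x e he
    have h3 : ∀ y : Site, (1:ℝ) / (1 + |(y.1:ℝ)| + |(y.2:ℝ)|) ≤ 1 := fun y => by
      rw [div_le_one (by positivity)]
      linarith [abs_nonneg (y.1:ℝ), abs_nonneg (y.2:ℝ)]
    rw [hcomm]
    refine (abs_sub _ _).trans ?_
    have h4 := h3 (x + f)
    have h5 := h3 x
    linarith
  rw [le_div_iff₀ (by positivity)]
  by_cases hsm : s ≤ 6
  · have : s ^ 2 ≤ 36 := by nlinarith
    have h0 := abs_nonneg ((ker (x + e + f) - ker (x + f)) - (ker (x + e) - ker x))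
    nlinarith
  · push Not at hsm
    -- radius
    set m : ℕ := nm x with hm
    have hm1 : s ≤ 2 * (m + 1) := by
      rw [hs, hm]
      have a1 : |(x.1:ℝ)| ≤ (nm x : ℝ) := by
        rw [← natAbs_cast]; exact_mod_cast le_max_left _ _
      have a2 : |(x.2:ℝ)| ≤ (nm x : ℝ) := by
        rw [← natAbs_cast]; exact_mod_cast le_max_right _ _
      linarith
    have hm3 : 3 ≤ m := by
      have : (2:ℝ) < m := by linarith
      exact_mod_cast this
    obtain ⟨R, hR⟩ : ∃ R : ℕ, R = (m - 1) / 2 := ⟨_, rfl⟩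
    have hR1 : 1 ≤ R := by omega
    have hR2 : 2 * R + 1 ≤ m := by omega
    have hR3 : m ≤ 2 * R + 2 := by omega
    have hfar : ∀ y ∈ H170.bx x (R + 1), m ≤ 2 * nm y + 1 ∧ (R + 1 ≤ nm y + 1) := by
      intro y hy
      rw [H170.mem_bx] at hy
      obtain ⟨⟨a1, a2⟩, a3, a4⟩ := hy
      have : nm x ≤ nm y + (R + 1) := by
        unfold nm
        push_cast at a1 a2 a3 a4
        omega
      constructor <;> omega
    have hharm : H170.Harm (H170.D e ker) x R := by
      intro y hy
      rw [H170.lap_D, lap_eq170, lap_eq170, lap_ker, lap_ker]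
      have hy1 : y ∈ H170.bx x (R + 1) := H170.bx_mono (by omega) hy
      have hy2 : y + e ∈ H170.bx x (R + 1) := by
        rw [H170.mem_bx] at hy ⊢
        push_cast
        rcases he with rfl | rfl <;> simp <;> omega
      have b1 := hfar y hy1
      have b2 := hfar (y + e) hy2
      rw [if_neg, if_neg, sub_zero]
      · intro h
        rw [h] at b1
        simp [nm] at b1
        omega
      · intro h
        rw [h] at b2
        simp [nm] at b2
        omega
    have hbd : ∀ y ∈ H170.bx x (R + 1), |H170.D e ker y| ≤ 16 / (R + 1) := by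
      intro y hy
      have h1 := ker_grad y e he
      refine h1.trans ?_
      have h2 : (R:ℝ) + 1 ≤ 2 * (1 + |(y.1:ℝ)| + |(y.2:ℝ)|) := by
        have h3 : ((nm y : ℕ) : ℝ) ≤ |(y.1:ℝ)| + |(y.2:ℝ)| := by
          rw [← natAbs_cast, ← natAbs_cast]
          unfold nm
          have : max y.1.natAbs y.2.natAbs ≤ y.1.natAbs + y.2.natAbs := by omega
          exact_mod_cast this
        have h4 : (R:ℝ) + 1 ≤ nm y + 1 := by exact_mod_cast (hfar y hy).2
        linarith [abs_nonneg (y.1:ℝ), abs_nonneg (y.2:ℝ)]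
      rw [mul_one_div, div_le_div_iff₀ (by positivity) (by positivity)]
      linarith
    have h1 := hsup [f] (fun g hg => by
      simp only [List.mem_cons, List.not_mem_nil, or_false] at hg
      rw [hg]; exact hf) rfl (H170.D e ker) x R (16 / (R + 1)) (by omega) hharm hbd
    have e1 : H170.DD [f] (H170.D e ker) x
        = (ker (x + e + f) - ker (x + f)) - (ker (x + e) - ker x) := by
      show H170.D e ker (x + f) - H170.D e ker x = _
      unfold H170.D
      rw [hcomm]
    rw [e1, pow_one] at h1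
    have hR0 : (1:ℝ) ≤ R := by exact_mod_cast hR1
    have h5 : s ≤ 10 * R := by
      have : (m:ℝ) ≤ 2 * R + 2 := by exact_mod_cast hR3
      linarith
    have h6 : C * (16 / (R + 1)) / R ≤ C * 16 * 100 / s ^ 2 := by
      rw [mul_div_assoc', div_div, div_le_div_iff₀ (by positivity) (by positivity)]
      have : s ^ 2 ≤ 100 * ((R + 1) * R) := by nlinarith
      nlinarith
    rw [le_div_iff₀ (by positivity)] at h6
    have h7 : 0 ≤ s ^ 2 := by positivity
    have h8 := mul_le_mul_of_nonneg_right h1 h7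
    nlinarith

end Vale.Agent.P144.H436
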