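import Vale.Agent.P144.Bdl.B1

/-!
Griffiths–Kelly–Sherman inequalities for ferromagnetic pair interactions with nonnegative fields,
monotonicity in the couplings, restriction to a sub-volume, and the Messager–Miracle-Sole
inequality for a reflection.
-/

namespace Vale.Agent.P144.H436

open Finset Vale.Agent.P144

/-! ### cones of functions with nonnegative moments -/

section cone

variable {κ : Type*} [Fintype κ] [DecidableEq κ] {Ω : Type*} [Fintype Ω]
  {R : Type*} [Fintype R] [DecidableEq R]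

/-- all moments of the local variables are nonnegative -/
def NNM (φ : κ → R → Ω → ℝ) : Prop := ∀ i (e : R → ℕ), 0 ≤ ∑ ω, ∏ r, φ i r ω ^ e r

/-- monomial in the local variables -/
noncomputable def mon (φ : κ → R → Ω → ℝ) (e : κ → R → ℕ) (p : κ → Ω) : ℝ :=
  ∏ i, ∏ r, φ i r (p i) ^ e i r

omit [DecidableEq κ] [Fintype Ω] [DecidableEq R] in
theorem mon_zero (φ : κ → R → Ω → ℝ) (p : κ → Ω) : mon φ (fun _ _ => 0) p = 1 := by
  simp only [mon, pow_zero, prod_const_one]

omit [Fintype Ω] in
theorem mon_single (φ : κ → R → Ω → ℝ) (e : κ → R → ℕ) (j : κ) (r : R) (p : κ → Ω) :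
    mon φ e p * φ j r (p j)
      = mon φ (fun i r' => e i r' + if i = j ∧ r' = r then 1 else 0) p := by
  unfold mon
  have h1 : ∀ i, ∏ r', φ i r' (p i) ^ (e i r' + if i = j ∧ r' = r then 1 else 0)
      = (∏ r', φ i r' (p i) ^ e i r') * (if i = j then φ j r (p j) else 1) := by
    intro i
    simp only [pow_add, Finset.prod_mul_distrib]
    congr 1
    by_cases hij : i = j
    · subst hij
      simp only [true_and, if_true]
      rw [Finset.prod_eq_single r]
      · simp
      · intro b _ hb; simp [hb]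
      · simp
    · simp [hij]
  simp only [h1, Finset.prod_mul_distrib]
  congr 1
  simp only [prod_ite_eq', mem_univ, ↓reduceIte]

/-- `F` has nonnegative correlation with all monomials. -/
def PosF (φ : κ → R → Ω → ℝ) (F : (κ → Ω) → ℝ) : Prop :=
  ∀ e : κ → R → ℕ, 0 ≤ ∑ p, F p * mon φ e p

/-- multiplication by `G` preserves `PosF`. -/
def MP (φ : κ → R → Ω → ℝ) (G : (κ → Ω) → ℝ) : Prop :=
  ∀ F : (κ → Ω) → ℝ, PosF φ F → PosF φ (fun p => F p * G p)

variable {φ : κ → R → Ω → ℝ}

omit [DecidableEq R] in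
theorem PosF_one (hφ : NNM φ) : PosF φ (fun _ : κ → Ω => (1:ℝ)) := by
  intro e
  simp only [one_mul]
  have h : ∑ p : κ → Ω, mon φ e p = ∏ i, ∑ q : Ω, ∏ r, φ i r q ^ e i r := by
    rw [Fintype.prod_sum]
    rfl
  rw [h]
  exact Finset.prod_nonneg fun i _ => hφ i (e i)

theorem MP.var (j : κ) (r : R) : MP φ (fun p : κ → Ω => φ j r (p j)) := by
  intro F hF e
  have := hF (fun i r' => e i r' + if i = j ∧ r' = r then 1 else 0)
  refine this.trans (le_of_eq ?_)
  refine Finset.sum_congr rfl fun p _ => ?_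
  rw [← mon_single]
  ring

omit [DecidableEq R] in
theorem MP.congr {G H : (κ → Ω) → ℝ} (hG : MP φ G) (h : ∀ p, G p = H p) : MP φ H := by
  have : G = H := funext h
  exact this ▸ hG

omit [DecidableEq R] in
theorem MP.add {G H : (κ → Ω) → ℝ} (hG : MP φ G) (hH : MP φ H) :
    MP φ (fun p => G p + H p) := by
  intro F hF e
  have := add_nonneg (hG F hF e) (hH F hF e)
  refine this.trans (le_of_eq ?_)
  rw [← Finset.sum_add_distrib]
  exact Finset.sum_congr rfl fun p _ => by ring

omit [DecidableEq R] in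
theorem MP.const {c : ℝ} (hc : 0 ≤ c) : MP φ (fun _ : κ → Ω => c) := by
  intro F hF e
  have := mul_nonneg hc (hF e)
  refine this.trans (le_of_eq ?_)
  rw [Finset.mul_sum]
  exact Finset.sum_congr rfl fun p _ => by ring

omit [DecidableEq R] in
theorem MP.mul {G H : (κ → Ω) → ℝ} (hG : MP φ G) (hH : MP φ H) :
    MP φ (fun p => G p * H p) := by
  intro F hF e
  have := hH _ (hG F hF) e
  refine this.trans (le_of_eq ?_)
  exact Finset.sum_congr rfl fun p _ => by ring

omit [DecidableEq R] in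
theorem MP.sum {ξ : Type*} (T : Finset ξ) {G : ξ → (κ → Ω) → ℝ}
    (hG : ∀ k ∈ T, MP φ (G k)) : MP φ (fun p => ∑ k ∈ T, G k p) := by
  classical
  induction T using Finset.induction_on with
  | empty => simpa using MP.const (φ := φ) (le_refl (0:ℝ))
  | insert a T ha ih =>
    simp only [Finset.sum_insert ha]
    exact (hG a (Finset.mem_insert_self _ _)).add
      (ih fun k hk => hG k (Finset.mem_insert_of_mem hk))

omit [DecidableEq R] in
theorem MP.pow {G : (κ → Ω) → ℝ} (hG : MP φ G) (n : ℕ) : MP φ (fun p => G p ^ n) := by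
  induction n with
  | zero => simpa using MP.const (φ := φ) (zero_le_one (α := ℝ))
  | succ n ih =>
    simp only [pow_succ]
    exact ih.mul hG

omit [DecidableEq R] in
theorem MP.hasSum {G : ℕ → (κ → Ω) → ℝ} {S : (κ → Ω) → ℝ} (hG : ∀ n, MP φ (G n))
    (hS : ∀ p, HasSum (fun n => G n p) (S p)) : MP φ S := by
  intro F hF e
  have h2 : HasSum (fun n : ℕ => ∑ p, F p * G n p * mon φ e p)
      (∑ p, F p * S p * mon φ e p) :=
    hasSum_sum fun p _ => ((hS p).mul_left (F p)).mul_right (mon φ e p)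
  exact h2.nonneg fun n => hG n F hF e

omit [DecidableEq R] in
theorem MP.exp {G : (κ → Ω) → ℝ} (hG : MP φ G) : MP φ (fun p => Real.exp (G p)) := by
  refine MP.hasSum (G := fun n p => (1 / n.factorial : ℝ) * G p ^ n)
    (fun n => (MP.const (by positivity)).mul (hG.pow n)) fun p => ?_
  have h := NormedSpace.expSeries_div_hasSum_exp (G p)
  rw [← Real.exp_eq_exp_ℝ] at h
  have e : (fun n : ℕ => (1 / n.factorial : ℝ) * G p ^ n) = fun n => G p ^ n / n.factorial := by
    funext n; ring
  show HasSum (fun n : ℕ => (1 / n.factorial : ℝ) * G p ^ n) _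
  rw [e]
  exact h

omit [DecidableEq R] in
theorem MP.nonneg (hφ : NNM φ) {G : (κ → Ω) → ℝ} (hG : MP φ G) : 0 ≤ ∑ p, G p := by
  have := hG _ (PosF_one hφ) (fun _ _ => 0)
  refine this.trans (le_of_eq ?_)
  simp only [mon_zero, mul_one, one_mul]

end cone

/-! ### two replicas: the Ginibre class -/

section ginibre

variable {ι : Type*} [Fintype ι] [DecidableEq ι]

/-- sum and difference of two spins -/
noncomputable def ph : Bool → Bool × Bool → ℝ
  | true, q => sp q.1 + sp q.2
  | false, q => sp q.1 - sp q.2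

/-- the same at every site -/
noncomputable def phi2 : ι → Bool → Bool × Bool → ℝ := fun _ => ph

omit [Fintype ι] [DecidableEq ι] in
theorem nnm2 : NNM (phi2 (ι := ι)) := by
  intro i e
  simp only [phi2, Fintype.sum_prod_type, Fintype.sum_bool, Fintype.prod_bool, ph, sp_true,
    sp_false]
  have h1 := two_pow_nn (e true)
  have h2 := two_pow_nn (e false)
  have z1 := zero_pow_nn (e true)
  have z2 := zero_pow_nn (e false)
  norm_num
  nlinarith [mul_nonneg h1 z2, mul_nonneg h2 z1]

/-- a class of observables for which the second Griffiths inequality holds -/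
def Gin (f : (ι → Bool) → ℝ) : Prop :=
  MP phi2 (fun p : ι → Bool × Bool => f (fun i => (p i).1) + f (fun i => (p i).2)) ∧
  MP phi2 (fun p : ι → Bool × Bool => f (fun i => (p i).1) - f (fun i => (p i).2))

theorem Gin.congr {f g : (ι → Bool) → ℝ} (hf : Gin f) (h : ∀ s, f s = g s) : Gin g := by
  have : f = g := funext h
  exact this ▸ hf

theorem Gin.const {c : ℝ} (hc : 0 ≤ c) : Gin (fun _ : ι → Bool => c) :=
  ⟨MP.const (by positivity), by simpa using MP.const (φ := phi2 (ι := ι)) (le_refl (0:ℝ))⟩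

theorem Gin.spin (i : ι) : Gin (fun s : ι → Bool => sp (s i)) :=
  ⟨MP.var (φ := phi2 (ι := ι)) i true, MP.var (φ := phi2 (ι := ι)) i false⟩

theorem Gin.add {f g : (ι → Bool) → ℝ} (hf : Gin f) (hg : Gin g) : Gin (fun s => f s + g s) :=
  ⟨(hf.1.add hg.1).congr fun p => by ring, (hf.2.add hg.2).congr fun p => by ring⟩

theorem Gin.mul {f g : (ι → Bool) → ℝ} (hf : Gin f) (hg : Gin g) : Gin (fun s => f s * g s) := by
  have h2 : (0:ℝ) ≤ 1 / 2 := by norm_num
  refine ⟨((MP.const h2).mul ((hf.1.mul hg.1).add (hf.2.mul hg.2))).congr fun p => by ring,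
    ((MP.const h2).mul ((hf.1.mul hg.2).add (hf.2.mul hg.1))).congr fun p => by ring⟩

theorem Gin.sum {ξ : Type*} (T : Finset ξ) {f : ξ → (ι → Bool) → ℝ} (hf : ∀ k ∈ T, Gin (f k)) :
    Gin (fun s => ∑ k ∈ T, f k s) := by
  classical
  induction T using Finset.induction_on with
  | empty => simpa using Gin.const (ι := ι) (le_refl (0:ℝ))
  | insert a T ha ih =>
    simp only [Finset.sum_insert ha]
    exact (hf a (Finset.mem_insert_self _ _)).add
      (ih fun k hk => hf k (Finset.mem_insert_of_mem hk))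

theorem Gin.prod {ξ : Type*} (T : Finset ξ) {f : ξ → (ι → Bool) → ℝ} (hf : ∀ k ∈ T, Gin (f k)) :
    Gin (fun s => ∏ k ∈ T, f k s) := by
  classical
  induction T using Finset.induction_on with
  | empty => simpa using Gin.const (ι := ι) (zero_le_one (α := ℝ))
  | insert a T ha ih =>
    simp only [Finset.prod_insert ha]
    exact (hf a (Finset.mem_insert_self _ _)).mul
      (ih fun k hk => hf k (Finset.mem_insert_of_mem hk))

theorem Gin.pow {f : (ι → Bool) → ℝ} (hf : Gin f) (n : ℕ) : Gin (fun s => f s ^ n) := by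
  induction n with
  | zero => simpa using Gin.const (ι := ι) (zero_le_one (α := ℝ))
  | succ n ih =>
    simp only [pow_succ]
    exact ih.mul hf

theorem Gin.exp {f : (ι → Bool) → ℝ} (hf : Gin f) : Gin (fun s => Real.exp (f s)) := by
  have hn : ∀ n : ℕ, Gin (fun s : ι → Bool => (1 / n.factorial : ℝ) * f s ^ n) := fun n =>
    (Gin.const (by positivity)).mul (hf.pow n)
  have hs : ∀ s : ι → Bool, HasSum (fun n : ℕ => (1 / n.factorial : ℝ) * f s ^ n)
      (Real.exp (f s)) := by
    intro s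
    have h := NormedSpace.expSeries_div_hasSum_exp (f s)
    rw [← Real.exp_eq_exp_ℝ] at h
    have e : (fun n : ℕ => (1 / n.factorial : ℝ) * f s ^ n) = fun n => f s ^ n / n.factorial := by
      funext n; ring
    rw [e]
    exact h
  exact ⟨MP.hasSum (fun n => (hn n).1) fun p => (hs _).add (hs _),
    MP.hasSum (fun n => (hn n).2) fun p => (hs _).sub (hs _)⟩

/-- The exponent of a ferromagnet is in the class. -/
theorem Gin.ex {K : ι → ι → ℝ} {h : ι → ℝ} (hK : ∀ i j, 0 ≤ K i j) (hh : ∀ i, 0 ≤ h i) :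
    Gin (Vale.Agent.P144.ex K h) := by
  unfold Vale.Agent.P144.ex
  refine Gin.add (Gin.sum _ fun i _ => Gin.sum _ fun j _ => ?_) (Gin.sum _ fun i _ => ?_)
  · exact (Gin.const (hK i j)).mul ((Gin.spin i).mul (Gin.spin j))
  · exact (Gin.const (hh i)).mul (Gin.spin i)

theorem sum_pairs (F : (ι → Bool) → (ι → Bool) → ℝ) :
    ∑ p : ι → Bool × Bool, F (fun i => (p i).1) (fun i => (p i).2) = ∑ s, ∑ t, F s t := by
  rw [← Fintype.sum_prod_type']
  exact Fintype.sum_equiv (Equiv.arrowProdEquivProdArrow ι (fun _ => Bool) (fun _ => Bool)) _ _ fun p => rfl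

/-- First Griffiths inequality. -/
theorem gks1 {K : ι → ι → ℝ} {h : ι → ℝ} (hK : ∀ i j, 0 ≤ K i j) (hh : ∀ i, 0 ≤ h i)
    {f : (ι → Bool) → ℝ} (hf : Gin f) : 0 ≤ ev K h f := by
  have hw : Gin (wt K h) := (Gin.ex hK hh).exp
  have h1 := MP.nonneg nnm2 (hf.mul hw).1
  rw [sum_pairs (fun s t => f s * wt K h s + f t * wt K h t)] at h1
  simp only [Finset.sum_add_distrib, Finset.sum_const, Finset.card_univ, ← Finset.smul_sum] at h1
  have h2 : 0 ≤ ∑ s, f s * wt K h s := by
    have hc : (0:ℝ) < (Fintype.card (ι → Bool) : ℝ) := by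
      exact_mod_cast Fintype.card_pos
    simp only [nsmul_eq_mul] at h1
    have : 0 ≤ 2 * (Fintype.card (ι → Bool) : ℝ) * ∑ s, f s * wt K h s := by linarith
    by_contra hneg
    push Not at hneg
    have := mul_neg_of_pos_of_neg (by positivity : 0 < 2 * (Fintype.card (ι → Bool) : ℝ)) hneg
    linarith
  exact div_nonneg h2 (Z_pos K h).le

/-- Second Griffiths inequality. -/
theorem gks2 {K : ι → ι → ℝ} {h : ι → ℝ} (hK : ∀ i j, 0 ≤ K i j) (hh : ∀ i, 0 ≤ h i)
    {f g : (ι → Bool) → ℝ} (hf : Gin f) (hg : Gin g) :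
    ev K h f * ev K h g ≤ ev K h (fun s => f s * g s) := by
  have hw : MP phi2 (fun p : ι → Bool × Bool =>
      wt K h (fun i => (p i).1) * wt K h (fun i => (p i).2)) := by
    refine (MP.exp (Gin.ex hK hh).1).congr fun p => ?_
    rw [Real.exp_add]; rfl
  have h1 := MP.nonneg nnm2 ((hf.2.mul hg.2).mul hw)
  rw [sum_pairs (fun s t => (f s - f t) * (g s - g t) * (wt K h s * wt K h t))] at h1
  have hZ := Z_pos K h
  have h3 : ∑ s, ∑ t, (f s - f t) * (g s - g t) * (wt K h s * wt K h t)
      = 2 * ((∑ s, f s * g s * wt K h s) * (∑ s, wt K h s)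
        - (∑ s, f s * wt K h s) * (∑ s, g s * wt K h s)) := by
    have e : ∀ s t, (f s - f t) * (g s - g t) * (wt K h s * wt K h t)
        = (f s * g s * wt K h s) * wt K h t + wt K h s * (f t * g t * wt K h t)
          - (f s * wt K h s) * (g t * wt K h t) - (g s * wt K h s) * (f t * wt K h t) := by
      intro s t; ring
    simp only [e, Finset.sum_sub_distrib, Finset.sum_add_distrib, ← Finset.mul_sum,
      ← Finset.sum_mul]
    ring
  rw [h3] at h1
  unfold ev
  rw [div_mul_div_comm, div_le_div_iff₀ (by positivity) hZ]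
  nlinarith

omit [DecidableEq ι] in
theorem wt_add (K K' : ι → ι → ℝ) (h h' : ι → ℝ) (s : ι → Bool) :
    wt K' h' s = Real.exp (ex (fun i j => K' i j - K i j) (fun i => h' i - h i) s) * wt K h s := by
  unfold wt
  rw [← Real.exp_add]
  congr 1
  unfold ex
  simp only [sub_mul, Finset.sum_sub_distrib]
  ring

/-- Monotonicity of the correlations in the couplings and in the fields. -/
theorem ev_mono {K K' : ι → ι → ℝ} {h h' : ι → ℝ} (hK : ∀ i j, 0 ≤ K i j) (hh : ∀ i, 0 ≤ h i)
    (hKK : ∀ i j, K i j ≤ K' i j) (hhh : ∀ i, h i ≤ h' i) {f : (ι → Bool) → ℝ} (hf : Gin f) :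
    ev K h f ≤ ev K' h' f := by
  set g : (ι → Bool) → ℝ := fun s =>
    Real.exp (ex (fun i j => K' i j - K i j) (fun i => h' i - h i) s) with hg
  have hgG : Gin g := (Gin.ex (fun i j => sub_nonneg.2 (hKK i j))
    (fun i => sub_nonneg.2 (hhh i))).exp
  have h1 := gks2 hK hh hf hgG
  have hgpos : 0 < ev K h g := by
    refine div_pos (Finset.sum_pos (fun s _ => mul_pos (Real.exp_pos _) (wt_pos K h s)) ?_)
      (Z_pos K h)
    exact ⟨fun _ => true, Finset.mem_univ _⟩
  have h2 : ev K' h' f = ev K h (fun s => f s * g s) / ev K h g := by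
    unfold ev
    have hZ := (Z_pos K h).ne'
    have e1 : ∑ s, f s * wt K' h' s = ∑ s, f s * g s * wt K h s :=
      Finset.sum_congr rfl fun s _ => by rw [wt_add K K' h h' s]; ring
    have e2 : ∑ s, wt K' h' s = ∑ s, g s * wt K h s :=
      Finset.sum_congr rfl fun s _ => wt_add K K' h h' s
    rw [e1, e2, div_div_div_cancel_right₀ hZ]
  rw [h2, le_div_iff₀ hgpos]
  exact h1

end ginibre

/-! ### restriction to a sub-volume -/

section restrict

variable {ι : Type*} [Fintype ι] [DecidableEq ι] {ι' : Type*} [Fintype ι'] [DecidableEq ι']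

theorem sum_comp (e : ι ↪ ι') : ∃ c : ℝ, 0 < c ∧ ∀ g : (ι → Bool) → ℝ,
    ∑ s' : ι' → Bool, g (fun i => s' (e i)) = c * ∑ s, g s := by
  classical
  let C := {x : ι' // x ∉ Set.range e}
  let E : ι ⊕ C ≃ ι' := (Equiv.sumCongr (Equiv.ofInjective e e.injective) (Equiv.refl C)).trans
    (Equiv.Set.sumCompl (Set.range e))
  refine ⟨(Fintype.card (C → Bool) : ℝ), by exact_mod_cast Fintype.card_pos, fun g => ?_⟩
  have h1 : ∑ s' : ι' → Bool, g (fun i => s' (e i))
      = ∑ q : (ι → Bool) × (C → Bool), g q.1 := by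
    refine Fintype.sum_equiv
      ((Equiv.arrowCongr E.symm (Equiv.refl Bool)).trans (Equiv.sumArrowEquivProdArrow ι C Bool))
      _ _ fun s' => ?_
    congr 1
  rw [h1, Fintype.sum_prod_type]
  simp only [Finset.sum_const, Finset.card_univ, nsmul_eq_mul, ← Finset.mul_sum]

/-- The spins outside the range of `e` do not interact: they can be removed. -/
theorem ev_comp (e : ι ↪ ι') {K : ι → ι → ℝ} {h : ι → ℝ} {K' : ι' → ι' → ℝ} {h' : ι' → ℝ}
    (hex : ∀ s', Vale.Agent.P144.ex K' h' s' = Vale.Agent.P144.ex K h (fun i => s' (e i)))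
    (f : (ι → Bool) → ℝ) :
    ev K' h' (fun s' => f (fun i => s' (e i))) = ev K h f := by
  obtain ⟨c, hc, hs⟩ := sum_comp e
  unfold ev wt
  simp only [hex]
  rw [hs (fun s => f s * Real.exp (Vale.Agent.P144.ex K h s)),
    hs (fun s => Real.exp (Vale.Agent.P144.ex K h s)), mul_div_mul_left _ _ hc.ne']

end restrict

/-! ### two interacting spins -/

section pair

variable {ι : Type*} [Fintype ι] [DecidableEq ι]

theorem sum_spin_pair {u v : ι} (huv : u ≠ v) : ∑ s : ι → Bool, sp (s u) * sp (s v) = 0 := by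
  have h := sum_flp u (fun s : ι → Bool => sp (s u) * sp (s v))
  simp only [flp_self, flp_ne huv.symm, sp_not, neg_mul, Finset.sum_neg_distrib] at h
  linarith

/-- Two spins coupled by `κ` in a ferromagnet have correlation at least `tanh κ`. -/
theorem tanh_le {K : ι → ι → ℝ} (hK : ∀ i j, 0 ≤ K i j) {u v : ι} (huv : u ≠ v) :
    Real.tanh (K u v + K v u) ≤ ev K (fun _ => 0) (fun s => sp (s u) * sp (s v)) := by
  set κ := K u v + K v u with hκ
  let K₀ : ι → ι → ℝ := fun i j =>
    if (i = u ∧ j = v) ∨ (i = v ∧ j = u) then K i j else 0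
  have hK₀ : ∀ i j, 0 ≤ K₀ i j := fun i j => by
    simp only [K₀]; split_ifs
    · exact hK i j
    · exact le_rfl
  have hle : ∀ i j, K₀ i j ≤ K i j := fun i j => by
    simp only [K₀]; split_ifs
    · exact le_rfl
    · exact hK i j
  have h1 := ev_mono hK₀ (fun _ => le_rfl) hle (h := fun _ => 0) (h' := fun _ => 0)
    (fun _ => le_rfl) ((Gin.spin u).mul (Gin.spin v))
  refine le_trans (le_of_eq ?_) h1
  have hex : ∀ s : ι → Bool, Vale.Agent.P144.ex K₀ (fun _ => 0) s = κ * (sp (s u) * sp (s v)) := by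
    intro s
    unfold Vale.Agent.P144.ex
    have e1 : ∀ i j, K₀ i j * (sp (s i) * sp (s j))
        = (if i = u then (if j = v then K u v * (sp (s u) * sp (s v)) else 0) else 0)
          + (if i = v then (if j = u then K v u * (sp (s v) * sp (s u)) else 0) else 0) := by
      intro i j
      simp only [K₀]
      by_cases hi : i = u
      · subst hi
        by_cases hj : j = v
        · subst hj
          simp [huv]
        · simp [hj, huv]
      · by_cases hi' : i = v
        · subst hi'
          by_cases hj : j = u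
          · subst hj; simp [hi]
          · simp [hi, hj]
        · simp [hi, hi']
    simp only [e1, Finset.sum_add_distrib, zero_mul, Finset.sum_const_zero, add_zero]
    have e2 : ∑ x : ι, (if x = u then (∑ x_1 : ι, if x_1 = v then K u v * (sp (s u) * sp (s v)) else 0)
        else 0) = K u v * (sp (s u) * sp (s v)) := by simp
    have e3 : ∀ (a b : ι) (c : ℝ), ∑ x : ι, ∑ y : ι,
        (if x = a then (if y = b then c else 0) else 0) = c := by
      intro a b c
      rw [Finset.sum_eq_single a]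
      · simp
      · intro x _ hx; simp [hx]
      · simp
    rw [e3, e3, hκ]
    ring
  have hexp : ∀ s : ι → Bool, wt K₀ (fun _ => 0) s
      = Real.cosh κ + Real.sinh κ * (sp (s u) * sp (s v)) := by
    intro s
    unfold wt
    rw [hex]
    have : sp (s u) * sp (s v) = 1 ∨ sp (s u) * sp (s v) = -1 := by
      cases s u <;> cases s v <;> simp [sp]
    rcases this with h | h
    · rw [h, mul_one, mul_one, Real.cosh_add_sinh]
    · rw [h, mul_neg_one, mul_neg_one, ← sub_eq_add_neg, Real.cosh_sub_sinh]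
  unfold ev
  have e1 : ∑ s, sp (s u) * sp (s v) * wt K₀ (fun _ => 0) s
      = Real.sinh κ * (Fintype.card (ι → Bool) : ℝ) := by
    have : ∀ s : ι → Bool, sp (s u) * sp (s v) * wt K₀ (fun _ => 0) s
        = Real.cosh κ * (sp (s u) * sp (s v)) + Real.sinh κ := by
      intro s
      rw [hexp]
      have h1 := sp_sq (s u)
      have h2 := sp_sq (s v)
      have : sp (s u) * sp (s v) * (sp (s u) * sp (s v)) = 1 := by
        calc _ = (sp (s u) * sp (s u)) * (sp (s v) * sp (s v)) := by ring
          _ = 1 := by rw [h1, h2, one_mul]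
      linear_combination Real.sinh κ * this
    simp only [this, Finset.sum_add_distrib, ← Finset.mul_sum, sum_spin_pair huv, mul_zero,
      zero_add, Finset.sum_const, Finset.card_univ, nsmul_eq_mul]
    ring
  have e2 : ∑ s, wt K₀ (fun _ => 0) s = Real.cosh κ * (Fintype.card (ι → Bool) : ℝ) := by
    simp only [hexp, Finset.sum_add_distrib, ← Finset.mul_sum, sum_spin_pair huv, mul_zero,
      add_zero, Finset.sum_const, Finset.card_univ, nsmul_eq_mul]
    ring
  have hc : (0:ℝ) < (Fintype.card (ι → Bool) : ℝ) := by exact_mod_cast Fintype.card_pos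
  rw [e1, e2, mul_div_mul_right _ _ hc.ne', Real.tanh_eq_sinh_div_cosh]

end pair

/-! ### the inequality of Messager and Miracle-Sole -/

section mms

variable {ι : Type*} [Fintype ι] [DecidableEq ι] (ρ : ι → ι) (pos : ι → Prop) [DecidablePred pos]

/-- local variables: sum and difference of the spins of a pair, or the spin of a fixed site -/
noncomputable def phm : ι → Bool → Bool × Bool → ℝ
  | i, true, q => if pos i then sp q.1 + sp q.2 else sp q.1
  | i, false, q => if pos i then sp q.1 - sp q.2 else 0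

omit [Fintype ι] [DecidableEq ι] in
theorem nnm_phm : NNM (phm pos) := by
  intro i e
  simp only [Fintype.sum_prod_type, Fintype.sum_bool, Fintype.prod_bool, phm, sp_true,
    sp_false]
  have h1 := two_pow_nn (e true)
  have h2 := two_pow_nn (e false)
  have z1 := zero_pow_nn (e true)
  have z2 := zero_pow_nn (e false)
  by_cases hp : pos i
  · simp only [hp, if_true]
    norm_num
    nlinarith [mul_nonneg h1 z2, mul_nonneg h2 z1]
  · simp only [hp, if_false, one_pow, one_mul]
    rcases neg_one_pow_eq_or ℝ (e true) with h | h <;> rw [h] <;> norm_num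

/-- the spin configuration described by the pairs `p` -/
def cfg (p : ι → Bool × Bool) (i : ι) : Bool := if pos (ρ i) then (p (ρ i)).2 else (p i).1

/-- pairs of bits at every site are bits on two copies -/
def pairEquiv : (ι → Bool × Bool) ≃ (ι × Bool → Bool) where
  toFun p := fun x => if x.2 then (p x.1).1 else (p x.1).2
  invFun s := fun i => (s (i, true), s (i, false))
  left_inv p := by funext i; simp
  right_inv s := by
    funext x
    rcases x with ⟨i, b⟩
    cases b <;> simp

variable {ρ pos}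

theorem sum_cfg (hρ : ∀ i, ρ (ρ i) = i) : ∃ c : ℝ, 0 < c ∧ ∀ g : (ι → Bool) → ℝ,
    ∑ p : ι → Bool × Bool, g (cfg ρ pos p) = c * ∑ s, g s := by
  let e : ι ↪ ι × Bool := ⟨fun i => if pos (ρ i) then (ρ i, false) else (i, true), by
    intro i j hij
    simp only at hij
    by_cases hi : pos (ρ i) <;> by_cases hj : pos (ρ j) <;> simp [hi, hj] at hij
    · rw [← hρ i, hij, hρ]
    · exact hij⟩
  obtain ⟨c, hc, hs⟩ := sum_comp e
  refine ⟨c, hc, fun g => ?_⟩
  rw [← hs]
  refine Fintype.sum_equiv pairEquiv _ _ fun p => ?_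
  congr 1
  funext i
  show cfg ρ pos p i = pairEquiv p (if pos (ρ i) then (ρ i, false) else (i, true))
  simp only [cfg, pairEquiv, Equiv.coe_fn_mk]
  by_cases hi : pos (ρ i) <;> simp [hi]

variable {K : ι → ι → ℝ}

section

variable (hρ : ∀ i, ρ (ρ i) = i) (hpn : ∀ i, pos i → ¬ pos (ρ i))
    (hfix : ∀ i, ¬ pos i → ¬ pos (ρ i) → ρ i = i)

include hρ hpn

omit [Fintype ι] [DecidableEq ι] in
theorem cfg_pos {i : ι} (hi : pos i) (p : ι → Bool × Bool) :
    sp (cfg ρ pos p i) = sp (p i).1 ∧ sp (cfg ρ pos p (ρ i)) = sp (p i).2 := by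
  constructor
  · simp [cfg, hpn i hi]
  · simp [cfg, hρ, hi]

theorem mp_sum_pos {i : ι} (hi : pos i) :
    MP (phm pos) (fun p => sp (cfg ρ pos p i) + sp (cfg ρ pos p (ρ i))) :=
  (MP.var (φ := phm pos) i true).congr fun p => by
    rw [(cfg_pos hρ hpn hi p).1, (cfg_pos hρ hpn hi p).2]; simp [phm, hi]

theorem mp_diff_pos {i : ι} (hi : pos i) :
    MP (phm pos) (fun p => sp (cfg ρ pos p i) - sp (cfg ρ pos p (ρ i))) :=
  (MP.var (φ := phm pos) i false).congr fun p => by
    rw [(cfg_pos hρ hpn hi p).1, (cfg_pos hρ hpn hi p).2]; simp [phm, hi]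

include hfix

theorem mp_sum (i : ι) :
    MP (phm pos) (fun p => sp (cfg ρ pos p i) + sp (cfg ρ pos p (ρ i))) := by
  by_cases hi : pos i
  · exact mp_sum_pos hρ hpn hi
  by_cases hi' : pos (ρ i)
  · refine (mp_sum_pos hρ hpn hi').congr fun p => ?_
    rw [hρ]; ring
  · have h := hfix i hi hi'
    refine ((MP.const (φ := phm pos) (zero_le_two (α := ℝ))).mul
      (MP.var (φ := phm pos) i true)).congr fun p => ?_
    rw [h]
    simp only [phm, hi, if_false, cfg, hi']
    ring

/-- the exponent in the pair variables -/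
theorem mp_ex (hK : ∀ i j, 0 ≤ K i j)
    (hKρ : ∀ i j, K (ρ i) (ρ j) = K i j) (hcr : ∀ i j, pos i → pos (ρ j) → K i j = 0 ∧ K j i = 0) :
    MP (phm pos) (fun p => ex K (fun _ => 0) (cfg ρ pos p)) := by
  have hsum : ∀ p, ex K (fun _ => 0) (cfg ρ pos p) = ∑ i, ∑ j, 1 / 2 * (K i j *
      (sp (cfg ρ pos p i) * sp (cfg ρ pos p j)
        + sp (cfg ρ pos p (ρ i)) * sp (cfg ρ pos p (ρ j)))) := by
    intro p
    have hE : ∑ i, ∑ j, K i j * (sp (cfg ρ pos p (ρ i)) * sp (cfg ρ pos p (ρ j)))
        = ∑ i, ∑ j, K i j * (sp (cfg ρ pos p i) * sp (cfg ρ pos p j)) := by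
      let R : ι ≃ ι := ⟨ρ, ρ, hρ, hρ⟩
      refine Fintype.sum_equiv R _ _ fun i => Fintype.sum_equiv R _ _ fun j => ?_
      show _ = K (ρ i) (ρ j) * _
      rw [hKρ]
      rfl
    unfold ex
    simp only [zero_mul, Finset.sum_const_zero, add_zero]
    have : ∑ i, ∑ j, 1 / 2 * (K i j * (sp (cfg ρ pos p i) * sp (cfg ρ pos p j)
        + sp (cfg ρ pos p (ρ i)) * sp (cfg ρ pos p (ρ j))))
        = 1 / 2 * (∑ i, ∑ j, K i j * (sp (cfg ρ pos p i) * sp (cfg ρ pos p j))
          + ∑ i, ∑ j, K i j * (sp (cfg ρ pos p (ρ i)) * sp (cfg ρ pos p (ρ j)))) := by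
      simp only [mul_add, Finset.sum_add_distrib, Finset.mul_sum]
    rw [this, hE]
    ring
  refine MP.congr (MP.sum _ fun i _ => MP.sum _ fun j _ => ?_) (fun p => (hsum p).symm)
  refine (MP.const (by norm_num)).mul ?_
  have hS := fun i => mp_sum hρ hpn hfix i
  have hq : (0:ℝ) ≤ 1 / 2 := by norm_num
  -- zero couplings between the two sides
  have hz : K i j = 0 → MP (phm pos) (fun p => K i j *
      (sp (cfg ρ pos p i) * sp (cfg ρ pos p j)
        + sp (cfg ρ pos p (ρ i)) * sp (cfg ρ pos p (ρ j)))) := fun h =>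
    (MP.const (φ := phm pos) (le_refl (0:ℝ))).congr fun p => by rw [h, zero_mul]
  by_cases hi : pos i
  · by_cases hj' : pos (ρ j)
    · exact hz (hcr i j hi hj').1
    refine (MP.const (hK i j)).mul ?_
    by_cases hj : pos j
    · refine ((MP.const hq).mul (((hS i).mul (hS j)).add ((mp_diff_pos hρ hpn hi).mul
        (mp_diff_pos hρ hpn hj)))).congr fun p => by ring
    · have h := hfix j hj hj'
      refine ((MP.const hq).mul ((hS i).mul (hS j))).congr fun p => ?_
      rw [h]; ring
  by_cases hi' : pos (ρ i)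
  · by_cases hj : pos j
    · have := (hcr j i hj hi').2
      exact hz this
    refine (MP.const (hK i j)).mul ?_
    by_cases hj' : pos (ρ j)
    · refine ((MP.const hq).mul (((hS i).mul (hS j)).add ((mp_diff_pos hρ hpn hi').mul
        (mp_diff_pos hρ hpn hj')))).congr fun p => ?_
      rw [hρ, hρ]; ring
    · have h := hfix j hj hj'
      refine ((MP.const hq).mul ((hS i).mul (hS j))).congr fun p => ?_
      rw [h]; ring
  · have h := hfix i hi hi'
    refine (MP.const (hK i j)).mul ?_
    refine ((MP.const hq).mul ((hS i).mul (hS j))).congr fun p => ?_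
    rw [h]; ring

/-- The inequality of Messager and Miracle-Sole for a reflection `ρ` that fixes the sites of its
axis and such that no coupling crosses the axis. -/
theorem mms (hK : ∀ i j, 0 ≤ K i j)
    (hKρ : ∀ i j, K (ρ i) (ρ j) = K i j) (hcr : ∀ i j, pos i → pos (ρ j) → K i j = 0 ∧ K j i = 0)
    {x y : ι} (hx : pos x) (hy : pos y) :
    ev K (fun _ => 0) (fun s => sp (s x) * sp (s (ρ y)))
      ≤ ev K (fun _ => 0) (fun s => sp (s x) * sp (s y)) := by
  have h1 := MP.nonneg (nnm_phm pos) (((mp_diff_pos hρ hpn hx).mul (mp_diff_pos hρ hpn hy)).mul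
    (mp_ex hρ hpn hfix hK hKρ hcr).exp)
  obtain ⟨c, hc, hs⟩ := sum_cfg (pos := pos) hρ
  rw [hs (fun s => (sp (s x) - sp (s (ρ x))) * (sp (s y) - sp (s (ρ y)))
    * Real.exp (ex K (fun _ => 0) s))] at h1
  have h2 : 0 ≤ ∑ s : ι → Bool, (sp (s x) - sp (s (ρ x))) * (sp (s y) - sp (s (ρ y)))
      * wt K (fun _ => 0) s := by
    by_contra hneg
    push Not at hneg
    have := mul_neg_of_pos_of_neg hc hneg
    exact absurd h1 (not_le.2 this)
  -- invariance of the weight
  let R : ι ≃ ι := ⟨ρ, ρ, hρ, hρ⟩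
  have hinv : ∀ s : ι → Bool, wt K (fun _ => 0) (fun i => s (ρ i)) = wt K (fun _ => 0) s := by
    intro s
    unfold wt ex
    congr 1
    simp only [zero_mul, Finset.sum_const_zero, add_zero]
    refine Fintype.sum_equiv R _ _ fun i => Fintype.sum_equiv R _ _ fun j => ?_
    show _ = K (ρ i) (ρ j) * _
    rw [hKρ]
    rfl
  have hre : ∀ g : (ι → Bool) → ℝ, ∑ s : ι → Bool, g (fun i => s (ρ i)) = ∑ s, g s := by
    intro g
    refine Fintype.sum_equiv (Equiv.arrowCongr R (Equiv.refl Bool)) _ _ fun s => ?_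
    rfl
  have e1 : ∑ s : ι → Bool, sp (s (ρ x)) * sp (s (ρ y)) * wt K (fun _ => 0) s
      = ∑ s : ι → Bool, sp (s x) * sp (s y) * wt K (fun _ => 0) s := by
    rw [← hre (fun s => sp (s x) * sp (s y) * wt K (fun _ => 0) s)]
    exact Finset.sum_congr rfl fun s _ => by rw [hinv]
  have e2 : ∑ s : ι → Bool, sp (s (ρ x)) * sp (s y) * wt K (fun _ => 0) s
      = ∑ s : ι → Bool, sp (s x) * sp (s (ρ y)) * wt K (fun _ => 0) s := by
    rw [← hre (fun s => sp (s x) * sp (s (ρ y)) * wt K (fun _ => 0) s)]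
    refine Finset.sum_congr rfl fun s _ => ?_
    rw [hinv]
    simp only [hρ]
  have h3 : ∑ s : ι → Bool, (sp (s x) - sp (s (ρ x))) * (sp (s y) - sp (s (ρ y)))
      * wt K (fun _ => 0) s = 2 * (∑ s : ι → Bool, sp (s x) * sp (s y) * wt K (fun _ => 0) s
        - ∑ s : ι → Bool, sp (s x) * sp (s (ρ y)) * wt K (fun _ => 0) s) := by
    have : ∀ s : ι → Bool, (sp (s x) - sp (s (ρ x))) * (sp (s y) - sp (s (ρ y)))
      * wt K (fun _ => 0) s = sp (s x) * sp (s y) * wt K (fun _ => 0) s
        - sp (s x) * sp (s (ρ y)) * wt K (fun _ => 0) s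
        - sp (s (ρ x)) * sp (s y) * wt K (fun _ => 0) s
        + sp (s (ρ x)) * sp (s (ρ y)) * wt K (fun _ => 0) s := fun s => by ring
    simp only [this, Finset.sum_add_distrib, Finset.sum_sub_distrib, e1, e2]
    ring
  unfold ev
  have hZ := Z_pos K (fun _ : ι => (0:ℝ))
  rw [div_le_div_iff_of_pos_right hZ]
  linarith

end

end mms

end Vale.Agent.P144.H436
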