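import Vale.Agent.P144.U.Spec
import Vale.Agent.P144.H436.Gks

/-!
Free finite-volume correlations: lattice symmetries, monotonicity in the volume, the bound at the
corners of the square `dia N`.
-/

namespace Vale.Agent.P144.H436

open Finset Vale.Agent.P144 Filter Topology

/-- the free finite-volume measure as an Ising measure on the sites of `Λ` -/
theorem gibbs_free {J lam lam' : ℝ} {V : Finset Site → ℝ}
    (hPhi : ∀ u v, Phi J lam V {u, v} = cpl J lam' u v)
    (hsupp : ∀ A, Phi J lam V A ≠ 0 → ∃ u v, u ≠ v ∧ dsq u v ≤ 5 ∧ A = {u, v})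
    (β : ℝ) (Λ : Finset Site) (F : Config → ℝ) :
    gibbs J lam V β none Λ F
      = ev (KK β J lam' Λ) (fun _ => 0) (fun s => F (exs Λ (fun _ => true) s)) := by
  have h := expect_eq_ev (β := β) hPhi hsupp (window_win Λ) (P := fun A => A ⊆ Λ)
    (Q := fun x => x ∈ Λ) (fun u v => by
      constructor
      · intro h
        have hu : u ∈ Λ := h (by simp)
        have hv : v ∈ Λ := h (by simp)
        exact ⟨Or.inl hu, hu, hv⟩
      · rintro ⟨_, hu, hv⟩ x hx
        simp only [Finset.mem_insert, Finset.mem_singleton] at hx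
        rcases hx with rfl | rfl
        · exact hu
        · exact hv) (fun u hu => hu) (fun _ => true) F
  have hf : (fun i : Λ => β * fld J lam' Λ (win Λ) (fun x => x ∈ Λ) (fun _ => true) i)
      = fun _ => 0 := by
    funext i
    have : fld J lam' Λ (win Λ) (fun x => x ∈ Λ) (fun _ => true) i = 0 := by
      unfold fld
      refine Finset.sum_eq_zero fun v _ => ?_
      rw [if_neg]
      rintro ⟨h1, h2⟩
      exact h1 h2
    rw [this, mul_zero]
  rw [hf] at h
  exact h

theorem gibbs_free0 (J β : ℝ) (Λ : Finset Site) (F : Config → ℝ) :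
    gibbs J 0 (fun _ => 0) β none Λ F
      = ev (KK β J 0 Λ) (fun _ => 0) (fun s => F (exs Λ (fun _ => true) s)) :=
  gibbs_free (Phi_pair0 J) (fun _ h => Phi_supp0 h) β Λ F

theorem gibbs_freeK (J lam β : ℝ) (Λ : Finset Site) (F : Config → ℝ) :
    gibbs J lam Vk β none Λ F
      = ev (KK β J lam Λ) (fun _ => 0) (fun s => F (exs Λ (fun _ => true) s)) :=
  gibbs_free (Phi_pair J lam) (fun _ h => Phi_supp h) β Λ F

/-- the free correlation of the spins of `A` in the model with knight couplings `lam` -/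
noncomputable def cor (β J lam : ℝ) (Λ A : Finset Site) : ℝ :=
  ev (KK β J lam Λ) (fun _ => 0) (fun s => ∏ x ∈ A, sp (exs Λ (fun _ => true) s x))

theorem fcor_eq (J : ℝ) (Λ A : Finset Site) : fcor J Λ A = cor (Kc / J) J 0 Λ A :=
  gibbs_free0 J (Kc / J) Λ _

/-- nonnegativity of the couplings -/
theorem KK_nonneg {β J lam : ℝ} (hβ : 0 ≤ β) (hJ : 0 ≤ J) (hl : 0 ≤ lam) (Λ : Finset Site)
    (i j : Λ) : 0 ≤ KK β J lam Λ i j :=
  mul_nonneg (by positivity) (cpl_nonneg hJ hl _ _)

theorem gin_exs {Λ : Finset Site} (x : Site) :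
    Gin (fun s : Λ → Bool => sp (exs Λ (fun _ => true) s x)) := by
  by_cases h : x ∈ Λ
  · exact (Gin.spin (⟨x, h⟩ : Λ)).congr fun s => by rw [exs_mem h]
  · exact (Gin.const zero_le_one).congr fun s => by rw [exs_not_mem h, sp_true]

theorem gin_prod {Λ : Finset Site} (A : Finset Site) :
    Gin (fun s : Λ → Bool => ∏ x ∈ A, sp (exs Λ (fun _ => true) s x)) :=
  Gin.prod _ fun x _ => gin_exs x

/-- the exponent of the free measure as a double sum over sites -/
theorem ex_KK (β J lam : ℝ) (Λ : Finset Site) (η : Config) (s : Λ → Bool) :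
    ex (KK β J lam Λ) (fun _ => 0) s = ∑ u ∈ Λ, ∑ v ∈ Λ,
      β / 2 * cpl J lam u v * (sp (exs Λ η s u) * sp (exs Λ η s v)) := by
  unfold ex KK
  simp only [zero_mul, Finset.sum_const_zero, add_zero]
  rw [← Finset.sum_coe_sort Λ]
  refine Finset.sum_congr rfl fun i _ => ?_
  rw [← Finset.sum_coe_sort Λ]
  refine Finset.sum_congr rfl fun j _ => ?_
  rw [exs_mem i.2, exs_mem j.2]

/-- A bijection of the lattice that preserves the couplings preserves the correlations. -/
theorem cor_map (β J lam : ℝ) (f : Site ≃ Site) (hf : ∀ u v, dsq (f u) (f v) = dsq u v)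
    (Λ A : Finset Site) :
    cor β J lam (Λ.map f.toEmbedding) (A.map f.toEmbedding) = cor β J lam Λ A := by
  let e : Λ ↪ (Λ.map f.toEmbedding : Finset Site) := ⟨fun i => ⟨f i.1, by
    rw [Finset.mem_map]; exact ⟨i.1, i.2, rfl⟩⟩, fun i j hij => by
      have := congrArg Subtype.val hij
      exact Subtype.ext (f.injective this)⟩
  have hx : ∀ (s' : ↥(Λ.map f.toEmbedding) → Bool) (x : Site),
      exs (Λ.map f.toEmbedding) (fun _ => true) s' (f x)
        = exs Λ (fun _ => true) (fun i => s' (e i)) x := by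
    intro s' x
    by_cases h : x ∈ Λ
    · have h' : f x ∈ Λ.map f.toEmbedding := by rw [Finset.mem_map]; exact ⟨x, h, rfl⟩
      rw [exs_mem h, exs_mem h']
      rfl
    · have h' : f x ∉ Λ.map f.toEmbedding := by
        rw [Finset.mem_map]
        rintro ⟨y, hy, hyx⟩
        exact h (f.injective hyx ▸ hy)
      rw [exs_not_mem h, exs_not_mem h']
  have hex : ∀ s', ex (KK β J lam (Λ.map f.toEmbedding)) (fun _ => 0) s'
      = ex (KK β J lam Λ) (fun _ => 0) (fun i => s' (e i)) := by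
    intro s'
    rw [ex_KK β J lam _ (fun _ => true), ex_KK β J lam _ (fun _ => true)]
    simp only [Finset.sum_map, Equiv.coe_toEmbedding, hx, cpl, hf]
  have h1 := ev_comp e hex (fun s => ∏ x ∈ A, sp (exs Λ (fun _ => true) s x))
  unfold cor
  rw [← h1]
  simp only [Finset.prod_map, Equiv.coe_toEmbedding, hx]

/-- Monotonicity of the free correlations in the volume. -/
theorem cor_mono {β J lam : ℝ} (hβ : 0 ≤ β) (hJ : 0 ≤ J) (hl : 0 ≤ lam) {Λ Λ' A : Finset Site}
    (h : Λ ⊆ Λ') (hA : A ⊆ Λ) : cor β J lam Λ A ≤ cor β J lam Λ' A := by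
  let e : Λ ↪ Λ' := ⟨fun i => ⟨i.1, h i.2⟩, fun i j hij => by
    have := congrArg Subtype.val hij
    exact Subtype.ext this⟩
  let K₀ : Λ' → Λ' → ℝ := fun i j => if i.1 ∈ Λ ∧ j.1 ∈ Λ then KK β J lam Λ' i j else 0
  have hK₀ : ∀ i j, 0 ≤ K₀ i j := fun i j => by
    simp only [K₀]; split_ifs
    · exact KK_nonneg hβ hJ hl _ _ _
    · exact le_rfl
  have hle : ∀ i j, K₀ i j ≤ KK β J lam Λ' i j := fun i j => by
    simp only [K₀]; split_ifs
    · exact le_rfl
    · exact KK_nonneg hβ hJ hl _ _ _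
  have hex : ∀ s', ex K₀ (fun _ => 0) s' = ex (KK β J lam Λ) (fun _ => 0) (fun i => s' (e i)) := by
    intro s'
    rw [ex_KK β J lam Λ (exs Λ' (fun _ => true) s')]
    unfold ex
    simp only [zero_mul, Finset.sum_const_zero, add_zero]
    have e1 : ∀ g : Site → ℝ, ∑ i : Λ', (if i.1 ∈ Λ then g i.1 else 0) = ∑ x ∈ Λ, g x := by
      intro g
      rw [Finset.sum_coe_sort Λ' (fun x => if x ∈ Λ then g x else 0), Finset.sum_ite_mem,
        Finset.inter_eq_right.2 h]
    have e2 : ∀ i j : Λ', K₀ i j * (sp (s' i) * sp (s' j))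
        = if i.1 ∈ Λ then (if j.1 ∈ Λ then β / 2 * cpl J lam i.1 j.1 *
          (sp (exs Λ' (fun _ => true) s' i.1) * sp (exs Λ' (fun _ => true) s' j.1)) else 0) else 0 := by
      intro i j
      simp only [K₀, KK]
      by_cases hi : i.1 ∈ Λ <;> by_cases hj : j.1 ∈ Λ <;>
        simp [hi, hj, exs_mem i.2, exs_mem j.2]
    simp only [e2]
    have e3 : ∀ i : Λ', ∑ j : Λ', (if i.1 ∈ Λ then (if j.1 ∈ Λ then β / 2 * cpl J lam i.1 j.1 *
          (sp (exs Λ' (fun _ => true) s' i.1) * sp (exs Λ' (fun _ => true) s' j.1)) else 0) else 0)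
        = if i.1 ∈ Λ then ∑ y ∈ Λ, β / 2 * cpl J lam i.1 y *
          (sp (exs Λ' (fun _ => true) s' i.1) * sp (exs Λ' (fun _ => true) s' y)) else 0 := by
      intro i
      by_cases hi : i.1 ∈ Λ
      · simp only [hi, if_true]
        exact e1 (fun y => β / 2 * cpl J lam i.1 y *
          (sp (exs Λ' (fun _ => true) s' i.1) * sp (exs Λ' (fun _ => true) s' y)))
      · simp [hi]
    simp only [e3]
    rw [e1 (fun x => ∑ y ∈ Λ, β / 2 * cpl J lam x y *
          (sp (exs Λ' (fun _ => true) s' x) * sp (exs Λ' (fun _ => true) s' y)))]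
    refine Finset.sum_congr rfl fun u hu => Finset.sum_congr rfl fun v hv => ?_
    rw [exs_mem (h hu), exs_mem (h hv), exs_mem hu, exs_mem hv]
    rfl
  have h1 := ev_comp e hex (fun s => ∏ x ∈ A, sp (exs Λ (fun _ => true) s x))
  have h2 : (fun s' : Λ' → Bool => ∏ x ∈ A, sp (exs Λ (fun _ => true) (fun i => s' (e i)) x))
      = fun s' => ∏ x ∈ A, sp (exs Λ' (fun _ => true) s' x) := by
    funext s'
    refine Finset.prod_congr rfl fun x hx => ?_
    rw [exs_mem (hA hx), exs_mem (h (hA hx))]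
    rfl
  rw [h2] at h1
  unfold cor
  rw [← h1]
  exact ev_mono hK₀ (fun _ => le_rfl) hle (fun _ => le_rfl) (gin_prod A)

theorem cor_pair (β J lam : ℝ) (Λ : Finset Site) {u v : Site} (h : u ≠ v) :
    cor β J lam Λ {u, v} = ev (KK β J lam Λ) (fun _ => 0)
      (fun s => sp (exs Λ (fun _ => true) s u) * sp (exs Λ (fun _ => true) s v)) := by
  unfold cor
  simp only [Finset.prod_pair h]

/-- chain inequality for two-point functions -/
theorem cor_chain {β J lam : ℝ} (hβ : 0 ≤ β) (hJ : 0 ≤ J) (hl : 0 ≤ lam) (Λ : Finset Site)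
    {u v w : Site} (huv : u ≠ v) (hvw : v ≠ w) (huw : u ≠ w) :
    cor β J lam Λ {u, v} * cor β J lam Λ {v, w} ≤ cor β J lam Λ {u, w} := by
  rw [cor_pair _ _ _ _ huv, cor_pair _ _ _ _ hvw, cor_pair _ _ _ _ huw]
  refine (gks2 (KK_nonneg hβ hJ hl Λ) (fun _ => le_rfl) ((gin_exs u).mul (gin_exs v))
    ((gin_exs v).mul (gin_exs w))).trans (le_of_eq ?_)
  congr 1
  funext s
  have := sp_sq (exs Λ (fun _ => true) s v)
  calc _ = sp (exs Λ (fun _ => true) s u) * (sp (exs Λ (fun _ => true) s v)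
        * sp (exs Λ (fun _ => true) s v)) * sp (exs Λ (fun _ => true) s w) := by ring
    _ = _ := by rw [this, mul_one]

/-- neighbours are correlated -/
theorem cor_edge {β J lam : ℝ} (hβ : 0 ≤ β) (hJ : 0 ≤ J) (hl : 0 ≤ lam) {Λ : Finset Site}
    {u v : Site} (h : dsq u v = 1) (hu : u ∈ Λ) (hv : v ∈ Λ) :
    Real.tanh (β * J) ≤ cor β J lam Λ {u, v} := by
  have huv : u ≠ v := by rintro rfl; rw [dsq_self] at h; omega
  rw [cor_pair _ _ _ _ huv]
  have h1 := tanh_le (KK_nonneg hβ hJ hl Λ) (u := ⟨u, hu⟩) (v := ⟨v, hv⟩)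
    (fun h => huv (congrArg Subtype.val h))
  have h2 : KK β J lam Λ ⟨u, hu⟩ ⟨v, hv⟩ + KK β J lam Λ ⟨v, hv⟩ ⟨u, hu⟩ = β * J := by
    have h' : dsq v u = 1 := by rw [dsq_comm]; exact h
    simp only [KK, cpl, h, h', if_true]
    ring
  rw [h2] at h1
  refine h1.trans (le_of_eq ?_)
  congr 1
  funext s
  rw [exs_mem hu, exs_mem hv]

/-- translations -/
def tr (t : Site) : Site ≃ Site := Equiv.addRight t

theorem dsq_tr (t u v : Site) : dsq (tr t u) (tr t v) = dsq u v := by
  simp only [tr, Equiv.coe_addRight, dsq, Prod.fst_add, Prod.snd_add]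
  ring

/-- the square box of radius `M` around `t` -/
noncomputable def boxAt (t : Site) (M : ℕ) : Finset Site := (box M).map (tr t).toEmbedding

theorem mem_box {M : ℕ} {x : Site} : x ∈ box M ↔ |x.1| ≤ M ∧ |x.2| ≤ M := by
  unfold box
  rw [Finset.mem_product, Finset.mem_Icc, Finset.mem_Icc, abs_le, abs_le]

theorem mem_boxAt {t : Site} {M : ℕ} {x : Site} :
    x ∈ boxAt t M ↔ |x.1 - t.1| ≤ M ∧ |x.2 - t.2| ≤ M := by
  unfold boxAt
  rw [Finset.mem_map]
  constructor
  · rintro ⟨y, hy, rfl⟩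
    rw [mem_box] at hy
    simpa [tr] using hy
  · intro h
    refine ⟨x - t, ?_, by simp [tr]⟩
    rw [mem_box]
    simpa using h

theorem cor_boxAt (β J lam : ℝ) (t : Site) (M : ℕ) (A : Finset Site) :
    cor β J lam (boxAt t M) (A.map (tr t).toEmbedding) = cor β J lam (box M) A :=
  cor_map β J lam (tr t) (dsq_tr t) (box M) A

/-- Reflection of a corner pair to a diagonal pair. -/
theorem mms_corner {β J : ℝ} (hβ : 0 ≤ β) (hJ : 0 ≤ J) {N c : ℤ} (hc : 0 < c) (hN : c < N)
    {M : ℕ} (hM : N + c ≤ M) :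
    cor β J 0 (boxAt (c, 0) M) {(N, 0), (0, 0)} ≤ cor β J 0 (boxAt (c, 0) M) {(N, 0), (c, -c)} := by
  set Q := boxAt (c, 0) M with hQ
  have hmem : ∀ {x : Site}, x ∈ Q ↔ |x.1 - c| ≤ M ∧ |x.2| ≤ M := by
    intro x; rw [hQ, mem_boxAt]; simp
  let r : Site → Site := fun x => (x.2 + c, x.1 - c)
  have hr : ∀ x, x ∈ Q → r x ∈ Q := by
    intro x hx
    rw [hmem] at hx ⊢
    simp only [r]
    refine ⟨?_, hx.1⟩
    have : x.2 + c - c = x.2 := by ring
    rw [this]; exact hx.2
  let ρ : Q → Q := fun i => ⟨r i.1, hr i.1 i.2⟩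
  let pos : Q → Prop := fun i => c < i.1.1 - i.1.2
  have hxQ : ((N, 0) : Site) ∈ Q := by
    rw [hmem]; constructor
    · show |N - c| ≤ _
      rw [abs_le]; constructor <;> omega
    · simp
  have hyQ : ((c, -c) : Site) ∈ Q := by
    rw [hmem]; constructor
    · simp
    · show |-c| ≤ _
      rw [abs_le]; constructor <;> omega
  have h0Q : ((0, 0) : Site) ∈ Q := by
    rw [hmem]; constructor
    · show |(0:ℤ) - c| ≤ _
      rw [abs_le]; constructor <;> omega
    · simp
  have key := mms (ρ := ρ) (pos := pos) (K := KK β J 0 Q)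
    (fun i => by
      apply Subtype.ext
      show r (r i.1) = i.1
      simp only [r]
      ext <;> simp)
    (fun i hi => by
      simp only [pos, ρ, r] at hi ⊢
      omega)
    (fun i hi hi' => by
      simp only [pos, ρ, r] at hi hi'
      apply Subtype.ext
      show r i.1 = i.1
      simp only [r]
      ext <;> simp <;> omega)
    (KK_nonneg hβ hJ le_rfl Q)
    (fun i j => by
      simp only [KK, cpl, ρ, r]
      have : dsq (i.1.2 + c, i.1.1 - c) (j.1.2 + c, j.1.1 - c) = dsq i.1 j.1 := by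
        simp only [dsq]; ring
      rw [this])
    (fun i j hi hj => by
      simp only [pos, ρ, r] at hi hj
      have hd : ∀ u v : Site, c < u.1 - u.2 → v.1 - v.2 < c → dsq u v ≠ 1 := by
        intro u v hu hv h1
        simp only [dsq] at h1
        nlinarith [sq_nonneg (u.1 - v.1 + (u.2 - v.2))]
      have h1 := hd i.1 j.1 hi (by omega)
      have h2 : dsq j.1 i.1 ≠ 1 := by rw [dsq_comm]; exact h1
      simp only [KK, cpl, h1, h2, if_false, ite_self, mul_zero, and_self])
    (x := ⟨(N, 0), hxQ⟩) (y := ⟨(c, -c), hyQ⟩) (by simp only [pos]; omega)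
    (by simp only [pos]; omega)
  have hne1 : ((N, 0) : Site) ≠ (0, 0) := by
    intro h; have := (Prod.ext_iff.1 h).1; simp only at this; omega
  have hne2 : ((N, 0) : Site) ≠ (c, -c) := by
    intro h; have := (Prod.ext_iff.1 h).1; simp only at this; omega
  have hρy : ρ ⟨(c, -c), hyQ⟩ = ⟨(0, 0), h0Q⟩ := by
    apply Subtype.ext
    show r (c, -c) = (0, 0)
    simp [r]
  rw [hρy] at key
  rw [cor_pair _ _ _ _ hne1, cor_pair _ _ _ _ hne2]
  simp only [exs_mem hxQ, exs_mem h0Q, exs_mem hyQ]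
  exact key

/-! ### limits along boxes -/

theorem subset_box (Λ : Finset Site) : ∀ᶠ M : ℕ in atTop, Λ ⊆ box M := by
  obtain ⟨M₀, hM₀⟩ : ∃ M₀ : ℕ, ∀ x ∈ Λ, |x.1| ≤ M₀ ∧ |x.2| ≤ M₀ := by
    refine ⟨∑ x ∈ Λ, (x.1.natAbs + x.2.natAbs), fun x hx => ?_⟩
    have h := Finset.single_le_sum (f := fun x : Site => x.1.natAbs + x.2.natAbs)
      (fun _ _ => Nat.zero_le _) hx
    constructor
    · rw [Int.abs_eq_natAbs]
      exact_mod_cast (Nat.le_add_right _ _).trans h
    · rw [Int.abs_eq_natAbs]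
      exact_mod_cast (Nat.le_add_left _ _).trans h
  filter_upwards [eventually_ge_atTop M₀] with M hM x hx
  rw [mem_box]
  have h := hM₀ x hx
  have hM' : (M₀ : ℤ) ≤ M := by exact_mod_cast hM
  exact ⟨h.1.trans hM', h.2.trans hM'⟩

theorem box_mono {M M' : ℕ} (h : M ≤ M') : box M ⊆ box M' := by
  intro x hx
  rw [mem_box] at hx ⊢
  have hM' : (M : ℤ) ≤ M' := by exact_mod_cast h
  exact ⟨hx.1.trans hM', hx.2.trans hM'⟩

section lim

variable {β J lam : ℝ} (hβ : 0 ≤ β) (hJ : 0 ≤ J) (hl : 0 ≤ lam)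

include hβ hJ hl

theorem cor_le_lim {Λ A : Finset Site} (hA : A ⊆ Λ) {l : ℝ}
    (h : Tendsto (fun M : ℕ => cor β J lam (box M) A) atTop (𝓝 l)) : cor β J lam Λ A ≤ l := by
  refine ge_of_tendsto h ?_
  filter_upwards [subset_box Λ] with M hM
  exact cor_mono hβ hJ hl hM hA

theorem cor_nonneg (Λ A : Finset Site) : 0 ≤ cor β J lam Λ A :=
  gks1 (KK_nonneg hβ hJ hl Λ) (fun _ => le_rfl) (gin_prod A)

omit hβ hJ hl in
theorem cor_le_one (Λ A : Finset Site) : cor β J lam Λ A ≤ 1 := by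
  unfold cor ev
  have hZ := Z_pos (KK β J lam Λ) (fun _ => (0:ℝ))
  rw [div_le_one hZ]
  refine Finset.sum_le_sum fun s _ => ?_
  have h1 : ∏ x ∈ A, sp (exs Λ (fun _ => true) s x) ≤ 1 := by
    refine (le_abs_self _).trans ?_
    rw [Finset.abs_prod]
    simp only [abs_sp, Finset.prod_const_one, le_refl]
  exact mul_le_of_le_one_left (wt_pos _ _ _).le h1

theorem cor_tendsto (A : Finset Site) :
    ∃ l, Tendsto (fun M : ℕ => cor β J lam (box M) A) atTop (𝓝 l) := by
  obtain ⟨M₀, hM₀⟩ := (subset_box A).exists_forall_of_atTop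
  have hmono : Monotone (fun M : ℕ => cor β J lam (box (M + M₀)) A) := by
    intro M M' h
    exact cor_mono hβ hJ hl (box_mono (by omega)) (hM₀ _ (by omega))
  have hbdd : BddAbove (Set.range fun M : ℕ => cor β J lam (box (M + M₀)) A) := by
    refine ⟨1, ?_⟩
    rintro _ ⟨M, rfl⟩
    exact cor_le_one _ _
  refine ⟨_, (tendsto_add_atTop_iff_nat M₀).1 (tendsto_atTop_ciSup hmono hbdd)⟩

/-- the free infinite-volume correlation -/
theorem cor_lim_map {A : Finset Site} {l : ℝ} (f : Site ≃ Site)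
    (hf : ∀ u v, dsq (f u) (f v) = dsq u v)
    (h : Tendsto (fun M : ℕ => cor β J lam (box M) A) atTop (𝓝 l)) :
    Tendsto (fun M : ℕ => cor β J lam (box M) (A.map f.toEmbedding)) atTop (𝓝 l) := by
  obtain ⟨l', h'⟩ := cor_tendsto hβ hJ hl (A.map f.toEmbedding)
  have hle : l ≤ l' := by
    refine le_of_tendsto h ?_
    filter_upwards [subset_box A] with M hM
    rw [← cor_map β J lam f hf]
    exact cor_le_lim hβ hJ hl (Finset.map_subset_map.2 hM) h'
  have hge : l' ≤ l := by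
    refine le_of_tendsto h' ?_
    filter_upwards [subset_box (A.map f.toEmbedding)] with M hM
    have hf' : ∀ u v, dsq (f.symm u) (f.symm v) = dsq u v := by
      intro u v
      rw [← hf (f.symm u), f.apply_symm_apply, f.apply_symm_apply]
    rw [← cor_map β J lam f.symm hf']
    have e : (A.map f.toEmbedding).map f.symm.toEmbedding = A := by
      rw [Finset.map_map]
      ext x
      simp
    rw [e]
    refine cor_le_lim hβ hJ hl ?_ h
    intro x hx
    rw [Finset.mem_map]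
    exact ⟨f x, hM (Finset.mem_map.2 ⟨x, hx, rfl⟩), by simp⟩
  rw [le_antisymm hle hge]
  exact h'

end lim

/-! ### the corners of the square -/

theorem mem_dia {N : ℕ} {x : Site} : x ∈ dia N ↔ |x.1| + |x.2| ≤ N := by
  unfold dia
  rw [Finset.mem_filter, Finset.mem_product, Finset.mem_Icc, Finset.mem_Icc, ← abs_le, ← abs_le]
  constructor
  · exact fun h => h.2
  · intro h
    refine ⟨⟨?_, ?_⟩, h⟩
    · have := abs_nonneg x.2; omega
    · have := abs_nonneg x.1; omega

/-- the rotation by `π / 2` -/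
def rot : Site ≃ Site := ⟨fun x => (-x.2, x.1), fun x => (x.2, -x.1), fun x => by simp,
  fun x => by simp⟩

theorem dsq_rot (u v : Site) : dsq (rot u) (rot v) = dsq u v := by
  simp only [rot, Equiv.coe_fn_mk, dsq]; ring

theorem dia_rot (N : ℕ) : (dia N).map rot.toEmbedding = dia N := by
  ext x
  rw [Finset.mem_map_equiv, mem_dia, mem_dia]
  simp only [rot, Equiv.coe_fn_symm_mk, abs_neg]
  rw [add_comm]

theorem kc_pos : 0 < Kc := by
  unfold Kc
  have : 0 < √(2:ℝ) := Real.sqrt_pos.2 (by norm_num)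
  have := Real.log_pos (show (1:ℝ) < 1 + √2 by linarith)
  positivity

/-- The bound for the right corner. -/
theorem corner_right {J : ℝ} (hJ : 0 < J)
    (hE : ∀ k : ℕ, 1 ≤ k → Tendsto (fun M : ℕ => fcor J (box M) {(0, 0), ((k : ℤ), (k : ℤ))}) atTop
      (𝓝 (Dg k))) {N : ℕ} (hN : 2 ≤ N) :
    fcor J (dia N) {(0, 0), ((N : ℤ), 0)} ≤ (Real.tanh Kc)⁻¹ * Dg (N / 2) := by
  have hβ : 0 ≤ Kc / J := (div_pos kc_pos hJ).le
  have hβJ : Kc / J * J = Kc := div_mul_cancel₀ _ hJ.ne'
  have ht : 0 < Real.tanh Kc := by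
    rw [Real.tanh_eq_sinh_div_cosh]
    exact div_pos (Real.sinh_pos_iff.2 kc_pos) (Real.cosh_pos _)
  simp only [fcor_eq] at hE ⊢
  obtain ⟨c, k, hck, hk, hc⟩ : ∃ c k : ℕ, c + k = N ∧ k = N / 2 ∧ (c = k ∨ c = k + 1) :=
    ⟨N - N / 2, N / 2, by omega, rfl, by omega⟩
  have hkpos : 1 ≤ k := by omega
  set Q := boxAt ((c : ℤ), 0) (2 * N) with hQ
  have hsub : dia N ⊆ Q := by
    intro x hx
    rw [mem_dia] at hx
    rw [hQ, mem_boxAt]
    have h1 := abs_nonneg x.1
    have h2 := abs_nonneg x.2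
    simp only [sub_zero]
    refine ⟨(abs_sub _ _).trans ?_, ?_⟩
    · rw [abs_of_nonneg (show (0:ℤ) ≤ (c : ℤ) by positivity)]; push_cast; omega
    · push_cast; omega
  have h0N : ((0, 0) : Site) ≠ ((N : ℤ), 0) := by
    intro h; have := (Prod.ext_iff.1 h).1; simp only at this; omega
  have hA : ({(0, 0), ((N : ℤ), 0)} : Finset Site) ⊆ dia N := by
    intro x hx
    simp only [Finset.mem_insert, Finset.mem_singleton] at hx
    rw [mem_dia]
    rcases hx with rfl | rfl <;> simp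
  have h1 := cor_mono hβ hJ.le (le_refl (0:ℝ)) hsub hA
  have h2 := mms_corner hβ hJ.le (N := (N : ℤ)) (c := (c : ℤ)) (by omega) (by omega)
    (M := 2 * N) (by push_cast; omega)
  rw [← hQ, Finset.pair_comm] at h2
  refine (h1.trans h2).trans ?_
  -- diagonal pairs in the box
  have hdiag : ∀ t : Site, t ∈ Q → (t.1 + k, t.2 + k) ∈ Q →
      cor (Kc / J) J 0 Q {(t.1 + k, t.2 + k), t} ≤ Dg k := by
    intro t ht1 ht2
    have h3 := cor_lim_map hβ hJ.le (le_refl (0:ℝ)) (tr t) (dsq_tr t) (hE k hkpos)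
    have e : (({(0, 0), ((k : ℤ), (k : ℤ))} : Finset Site).map (tr t).toEmbedding)
        = {(t.1 + k, t.2 + k), t} := by
      rw [Finset.map_insert, Finset.map_singleton, Finset.pair_comm]
      congr 1
      · simp only [tr, Equiv.coe_toEmbedding, Equiv.coe_addRight]
        ext <;> simp [add_comm]
      · simp only [tr, Equiv.coe_toEmbedding, Equiv.coe_addRight]
        congr 1
        ext <;> simp
    rw [e] at h3
    refine cor_le_lim hβ hJ.le (le_refl (0:ℝ)) ?_ h3
    intro x hx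
    simp only [Finset.mem_insert, Finset.mem_singleton] at hx
    rcases hx with rfl | rfl
    · exact ht2
    · exact ht1
  have hNQ : (((N : ℤ), 0) : Site) ∈ Q := by
    rw [hQ, mem_boxAt]
    simp only [sub_zero, abs_zero]
    constructor
    · rw [abs_le]; push_cast; constructor <;> omega
    · positivity
  have htinv : 1 ≤ (Real.tanh Kc)⁻¹ := by
    rw [one_le_inv₀ ht]
    exact (Real.tanh_lt_one _).le
  rcases hc with hc | hc
  · -- even case
    have htQ : (((c : ℤ), -(c : ℤ)) : Site) ∈ Q := by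
      rw [hQ, mem_boxAt]
      simp only [sub_zero, sub_self, abs_zero, abs_neg]
      constructor
      · positivity
      · rw [abs_le]; push_cast; constructor <;> omega
    have e : (((c : ℤ) + k, -(c : ℤ) + k) : Site) = ((N : ℤ), 0) := by
      ext
      · show (c : ℤ) + k = N
        omega
      · show -(c : ℤ) + k = 0
        omega
    have h3 := hdiag ((c : ℤ), -(c : ℤ)) htQ (by rw [e]; exact hNQ)
    simp only [e] at h3
    have hD : 0 ≤ Dg k := (cor_nonneg hβ hJ.le (le_refl (0:ℝ)) _ _).trans h3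
    rw [← hk]
    exact h3.trans (le_mul_of_one_le_left hD htinv)
  · -- odd case
    have htQ : (((c : ℤ), -(c : ℤ) + 1) : Site) ∈ Q := by
      rw [hQ, mem_boxAt]
      simp only [sub_zero, sub_self, abs_zero]
      constructor
      · positivity
      · rw [abs_le]; push_cast; constructor <;> omega
    have htQ' : (((c : ℤ), -(c : ℤ)) : Site) ∈ Q := by
      rw [hQ, mem_boxAt]
      simp only [sub_zero, sub_self, abs_zero, abs_neg]
      constructor
      · positivity
      · rw [abs_le]; push_cast; constructor <;> omega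
    have e : (((c : ℤ) + k, -(c : ℤ) + 1 + k) : Site) = ((N : ℤ), 0) := by
      ext
      · show (c : ℤ) + k = N
        omega
      · show -(c : ℤ) + 1 + k = 0
        omega
    have h3 := hdiag ((c : ℤ), -(c : ℤ) + 1) htQ (by rw [e]; exact hNQ)
    simp only [e] at h3
    have h4 := cor_chain hβ hJ.le (le_refl (0:ℝ)) Q (u := ((N : ℤ), 0))
      (v := ((c : ℤ), -(c : ℤ))) (w := ((c : ℤ), -(c : ℤ) + 1))
      (by intro h; have := (Prod.ext_iff.1 h).1; simp only at this; omega)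
      (by intro h; have := (Prod.ext_iff.1 h).2; simp only at this; omega)
      (by intro h; have := (Prod.ext_iff.1 h).1; simp only at this; omega)
    have h5 := cor_edge hβ hJ.le (le_refl (0:ℝ)) (Λ := Q) (u := ((c : ℤ), -(c : ℤ)))
      (v := ((c : ℤ), -(c : ℤ) + 1)) (by simp only [dsq]; ring) htQ' htQ
    rw [hβJ] at h5
    have h6 : cor (Kc / J) J 0 Q {((N : ℤ), 0), ((c : ℤ), -(c : ℤ))} * Real.tanh Kc ≤ Dg k :=
      (mul_le_mul_of_nonneg_left h5 (cor_nonneg hβ hJ.le (le_refl (0:ℝ)) _ _)).trans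
        (h4.trans h3)
    rw [← hk, inv_mul_eq_div, le_div_iff₀ ht]
    exact h6

/-- Block G3: the corner bound. -/
theorem corner {J : ℝ} (hJ : 0 < J)
    (hE : ∀ k : ℕ, 1 ≤ k → Tendsto (fun M : ℕ => fcor J (box M) {(0, 0), ((k : ℤ), (k : ℤ))}) atTop
      (𝓝 (Dg k))) :
    ∃ C, ∀ N : ℕ, 2 ≤ N → ∀ c ∈ ({((N : ℤ), 0), (0, (N : ℤ)), (-(N : ℤ), 0), (0, -(N : ℤ))} :
      Finset Site), fcor J (dia N) {(0, 0), c} ≤ C * Dg (N / 2) := by
  refine ⟨(Real.tanh Kc)⁻¹, fun N hN c hc => ?_⟩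
  have hrot : ∀ c : Site, fcor J (dia N) {(0, 0), rot c} = fcor J (dia N) {(0, 0), c} := by
    intro c
    rw [fcor_eq, fcor_eq, ← cor_map (Kc / J) J 0 rot dsq_rot (dia N) {(0, 0), c}, dia_rot]
    congr 1
    rw [Finset.map_insert, Finset.map_singleton]
    rfl
  have h := corner_right hJ hE hN
  have e1 : rot ((N : ℤ), 0) = (0, (N : ℤ)) := by simp [rot]
  have e2 : rot (0, (N : ℤ)) = (-(N : ℤ), 0) := by simp [rot]
  have e3 : rot (-(N : ℤ), 0) = (0, -(N : ℤ)) := by simp [rot]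
  simp only [Finset.mem_insert, Finset.mem_singleton] at hc
  rcases hc with rfl | rfl | rfl | rfl
  · exact h
  · rw [← e1, hrot]; exact h
  · rw [← e2, hrot, ← e1, hrot]; exact h
  · rw [← e3, hrot, ← e2, hrot, ← e1, hrot]; exact h

/-- Block G2: monotonicity in the volume. -/
theorem fcor_mono {J : ℝ} (hJ : 0 < J) {Λ Λ' A : Finset Site} (h : Λ ⊆ Λ') (hA : A ⊆ Λ) :
    fcor J Λ A ≤ fcor J Λ' A := by
  rw [fcor_eq, fcor_eq]
  exact cor_mono (div_pos kc_pos hJ).le hJ.le le_rfl h hA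

end Vale.Agent.P144.H436
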