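import Vale.Agent.P144.H436.Pot
import Vale.Agent.P144.H436.Cor

/-!
The Dirichlet Green function of the square `dia N`: decay at the boundary and at the corners.
-/

namespace Vale.Agent.P144.H436

open Finset Vale.Agent.P144

/-- the angle `π / (2 (N + 1))` -/
noncomputable def thN (N : ℕ) : ℝ := Real.pi / (2 * (N + 1))

theorem thN_pos (N : ℕ) : 0 < thN N := by unfold thN; positivity

theorem thN_mul (N : ℕ) : thN N * (N + 1) = Real.pi / 2 := by
  unfold thN; field_simp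

/-- the first Dirichlet eigenfunction of `dia N` -/
noncomputable def eigF (N : ℕ) (x : Site) : ℝ :=
  Real.cos (thN N * ((x.1 : ℝ) + x.2)) * Real.cos (thN N * ((x.1 : ℝ) - x.2))

theorem lap_eigF (N : ℕ) (x : Site) : lap (eigF N) x = -(4 * Real.sin (thN N) ^ 2) * eigF N x := by
  unfold lap eigF
  simp only [Prod.fst_add, Prod.snd_add, add_zero]
  push_cast
  set p : ℝ := (x.1 : ℝ)
  set q : ℝ := (x.2 : ℝ)
  set t := thN N
  have e1 : t * (p + 1 + q) = t * (p + q) + t := by ring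
  have e2 : t * (p + 1 - q) = t * (p - q) + t := by ring
  have e3 : t * (p + -1 + q) = t * (p + q) - t := by ring
  have e4 : t * (p + -1 - q) = t * (p - q) - t := by ring
  have e5 : t * (p + (q + 1)) = t * (p + q) + t := by ring
  have e6 : t * (p - (q + 1)) = t * (p - q) - t := by ring
  have e7 : t * (p + (q + -1)) = t * (p + q) - t := by ring
  have e8 : t * (p - (q + -1)) = t * (p - q) + t := by ring
  rw [e1, e2, e3, e4, e5, e6, e7, e8]
  simp only [Real.cos_add, Real.cos_sub]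
  have h := Real.sin_sq_add_cos_sq t
  have h2 : Real.cos t ^ 2 = 1 - Real.sin t ^ 2 := by linarith
  ring_nf
  rw [h2]
  ring

theorem lin_le {a b : ℤ} {n : ℤ} (h : |a| + |b| ≤ n) : |a + b| ≤ n ∧ |a - b| ≤ n :=
  ⟨(abs_add_le a b).trans h, (abs_sub a b).trans h⟩

/-- the eigenfunction is nonnegative up to the boundary -/
theorem eigF_nonneg {N : ℕ} {x : Site} (h : |x.1| + |x.2| ≤ N + 1) : 0 ≤ eigF N x := by
  obtain ⟨h1, h2⟩ := lin_le h
  have aux : ∀ s : ℤ, |s| ≤ N + 1 → 0 ≤ Real.cos (thN N * (s : ℝ)) := by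
    intro s hs
    have hs' : |(s : ℝ)| ≤ N + 1 := by exact_mod_cast hs
    have h3 : |thN N * (s : ℝ)| ≤ Real.pi / 2 := by
      rw [abs_mul, abs_of_pos (thN_pos N), ← thN_mul N]
      exact mul_le_mul_of_nonneg_left hs' (thN_pos N).le
    rw [abs_le] at h3
    exact Real.cos_nonneg_of_neg_pi_div_two_le_of_le h3.1 h3.2
  unfold eigF
  have g1 := aux _ h1
  have g2 := aux _ h2
  push_cast at g1 g2
  exact mul_nonneg g1 g2

theorem eigF_le_one (N : ℕ) (x : Site) : eigF N x ≤ 1 := by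
  unfold eigF
  have h1 := abs_le.1 (Real.abs_cos_le_one (thN N * ((x.1 : ℝ) + x.2)))
  have h2 := abs_le.1 (Real.abs_cos_le_one (thN N * ((x.1 : ℝ) - x.2)))
  nlinarith [h1.1, h1.2, h2.1, h2.2]

/-- lower bound well inside -/
theorem eigF_ge {N : ℕ} {x : Site} {ε : ℝ} (hε : 0 ≤ ε)
    (h : |(x.1 : ℝ)| + |(x.2 : ℝ)| ≤ (1 - ε) * (N + 1)) : ε ^ 2 ≤ eigF N x := by
  have h1 : |(x.1 : ℝ) + x.2| ≤ (1 - ε) * (N + 1) := (abs_add_le _ _).trans h
  have h2 : |(x.1 : ℝ) - x.2| ≤ (1 - ε) * (N + 1) := (abs_sub _ _).trans h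
  have hN : (0:ℝ) < N + 1 := by positivity
  have hε1 : ε ≤ 1 := by
    by_contra hc
    push Not at hc
    have : (1 - ε) * (N + 1) < 0 := mul_neg_of_neg_of_pos (by linarith) hN
    have := abs_nonneg ((x.1 : ℝ) + x.2)
    linarith
  have aux : ∀ s : ℝ, |s| ≤ (1 - ε) * (N + 1) → ε ≤ Real.cos (thN N * s) := by
    intro s hs
    have h3 : |thN N * s| ≤ (1 - ε) * (Real.pi / 2) := by
      rw [abs_mul, abs_of_pos (thN_pos N), ← thN_mul N]
      calc thN N * |s| ≤ thN N * ((1 - ε) * (N + 1)) :=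
            mul_le_mul_of_nonneg_left hs (thN_pos N).le
        _ = _ := by ring
    have h4 : Real.cos (thN N * s) = Real.cos |thN N * s| := (Real.cos_abs _).symm
    have h5 : Real.cos ((1 - ε) * (Real.pi / 2)) ≤ Real.cos |thN N * s| :=
      Real.cos_le_cos_of_nonneg_of_le_pi (abs_nonneg _) (by nlinarith [Real.pi_pos]) h3
    have h6 : Real.cos ((1 - ε) * (Real.pi / 2)) = Real.sin (ε * (Real.pi / 2)) := by
      rw [← Real.cos_pi_div_two_sub]; congr 1; ring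
    have h7 : 2 / Real.pi * (ε * (Real.pi / 2)) ≤ Real.sin (ε * (Real.pi / 2)) :=
      Real.mul_le_sin (by positivity) (by nlinarith [Real.pi_pos])
    have h8 : 2 / Real.pi * (ε * (Real.pi / 2)) = ε := by
      have := Real.pi_pos.ne'
      field_simp
    rw [h4]
    linarith
  unfold eigF
  have g1 := aux _ h1
  have g2 := aux _ h2
  rw [sq]
  exact mul_le_mul g1 g2 hε (hε.trans g1)

/-- upper bound near the boundary -/
theorem eigF_le {N : ℕ} {x : Site} (h : |x.1| + |x.2| ≤ N + 1) :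
    eigF N x ≤ thN N * ((N : ℝ) + 1 - (|(x.1 : ℝ)| + |(x.2 : ℝ)|)) := by
  have hx : |(x.1 : ℝ)| + |(x.2 : ℝ)| ≤ N + 1 := by exact_mod_cast h
  have aux : ∀ s : ℝ, |s| ≤ N + 1 → Real.cos (thN N * s) ≤ thN N * ((N : ℝ) + 1 - |s|) := by
    intro s hs
    rw [← Real.cos_abs, abs_mul, abs_of_pos (thN_pos N)]
    have e : thN N * |s| = Real.pi / 2 - thN N * ((N : ℝ) + 1 - |s|) := by
      rw [← thN_mul N]; ring
    rw [e, Real.cos_pi_div_two_sub]
    exact Real.sin_le (mul_nonneg (thN_pos N).le (by linarith))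
  have h1 := abs_le.1 (Real.abs_cos_le_one (thN N * ((x.1 : ℝ) + x.2)))
  have h2 := abs_le.1 (Real.abs_cos_le_one (thN N * ((x.1 : ℝ) - x.2)))
  have hmax : |(x.1 : ℝ) + x.2| = |(x.1 : ℝ)| + |(x.2 : ℝ)| ∨
      |(x.1 : ℝ) - x.2| = |(x.1 : ℝ)| + |(x.2 : ℝ)| := by
    rcases le_total 0 (x.1 : ℝ) with ha | ha <;> rcases le_total 0 (x.2 : ℝ) with hb | hb
    · left; rw [abs_of_nonneg ha, abs_of_nonneg hb, abs_of_nonneg (by linarith)]
    · right; rw [abs_of_nonneg ha, abs_of_nonpos hb, abs_of_nonneg (by linarith)]; ring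
    · right; rw [abs_of_nonpos ha, abs_of_nonneg hb, abs_of_nonpos (by linarith)]; ring
    · left; rw [abs_of_nonpos ha, abs_of_nonpos hb, abs_of_nonpos (by linarith)]; ring
  have hb1 : |(x.1 : ℝ) + x.2| ≤ N + 1 := (abs_add_le _ _).trans hx
  have hb2 : |(x.1 : ℝ) - x.2| ≤ N + 1 := (abs_sub _ _).trans hx
  have c1 : 0 ≤ Real.cos (thN N * ((x.1 : ℝ) + x.2)) := by
    have h3 : |thN N * ((x.1 : ℝ) + x.2)| ≤ Real.pi / 2 := by
      rw [abs_mul, abs_of_pos (thN_pos N), ← thN_mul N]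
      exact mul_le_mul_of_nonneg_left hb1 (thN_pos N).le
    rw [abs_le] at h3
    exact Real.cos_nonneg_of_neg_pi_div_two_le_of_le h3.1 h3.2
  have c2 : 0 ≤ Real.cos (thN N * ((x.1 : ℝ) - x.2)) := by
    have h3 : |thN N * ((x.1 : ℝ) - x.2)| ≤ Real.pi / 2 := by
      rw [abs_mul, abs_of_pos (thN_pos N), ← thN_mul N]
      exact mul_le_mul_of_nonneg_left hb2 (thN_pos N).le
    rw [abs_le] at h3
    exact Real.cos_nonneg_of_neg_pi_div_two_le_of_le h3.1 h3.2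
  unfold eigF
  rcases hmax with hm | hm
  · have := aux _ hb1
    rw [hm] at this
    calc _ ≤ Real.cos (thN N * ((x.1 : ℝ) + x.2)) * 1 := mul_le_mul_of_nonneg_left h2.2 c1
      _ ≤ _ := by rw [mul_one]; exact this
  · have := aux _ hb2
    rw [hm] at this
    calc _ ≤ 1 * Real.cos (thN N * ((x.1 : ℝ) - x.2)) := mul_le_mul_of_nonneg_right h1.2 c2
      _ ≤ _ := by rw [one_mul]; exact this

/-- Green function of `dia N`: logarithmic bound -/
theorem green_dia_log {N : ℕ} {w x : Site} (hw : w ∈ dia N) (hx : x ∈ dia N) :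
    green (dia N) w x ≤ (Real.log (16 * ((N : ℝ) + 1) ^ 2) - Real.log (((x.1 : ℝ) - w.1) ^ 2
      + ((x.2 : ℝ) - w.2) ^ 2 + 1)) / (4 * Real.log 2) := by
  have h := green_log (Λ := dia N) (w := w) (M := 4 * ((N : ℝ) + 1) ^ 2) (fun y hy => ?_) hx
  · have e : (4:ℝ) * (4 * ((N : ℝ) + 1) ^ 2) = 16 * ((N : ℝ) + 1) ^ 2 := by ring
    rwa [e] at h
  · have h1 : |(y.1 : ℝ)| + |(y.2 : ℝ)| ≤ N := by exact_mod_cast mem_dia.1 hy
    have h2 : |(w.1 : ℝ)| + |(w.2 : ℝ)| ≤ N := by exact_mod_cast mem_dia.1 hw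
    have h3 : |(y.1 : ℝ) - w.1| + |(y.2 : ℝ) - w.2| ≤ 2 * N := by
      have := abs_sub (y.1 : ℝ) w.1
      have := abs_sub (y.2 : ℝ) w.2
      linarith
    have h4 : ((y.1 : ℝ) - w.1) ^ 2 + ((y.2 : ℝ) - w.2) ^ 2 ≤ (2 * N) ^ 2 := by
      rw [← sq_abs ((y.1 : ℝ) - w.1), ← sq_abs ((y.2 : ℝ) - w.2)]
      have := abs_nonneg ((y.1 : ℝ) - w.1)
      have := abs_nonneg ((y.2 : ℝ) - w.2)
      nlinarith
    have hN : (0:ℝ) ≤ N := by positivity
    nlinarith

/-- At macroscopic distance from the pole, the Green function is bounded by the eigenfunction. -/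
theorem green_decay {ε : ℝ} (hε : 0 < ε) (hε1 : ε ≤ 1) : ∃ C : ℝ, 0 < C ∧ ∀ (N : ℕ) (w x : Site),
    x ∈ dia N → |(w.1 : ℝ)| + |(w.2 : ℝ)| ≤ (1 - ε) * (N + 1) →
    ε * (N + 1) / 2 ≤ |(x.1 : ℝ) - w.1| + |(x.2 : ℝ) - w.2| →
    green (dia N) w x ≤ C * eigF N x := by
  have hlog2 : 0 < 4 * Real.log 2 := by positivity
  set K : ℝ := Real.log (512 / ε ^ 2) / (4 * Real.log 2) with hK
  have hK0 : 0 < K := by
    refine div_pos (Real.log_pos ?_) hlog2
    rw [lt_div_iff₀ (by positivity)]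
    nlinarith
  refine ⟨4 * K / ε ^ 2, by positivity, fun N w x hx hw hxw => ?_⟩
  classical
  set Λ' : Finset Site := (dia N).filter
    (fun z => ε * (N + 1) / 2 ≤ |(z.1 : ℝ) - w.1| + |(z.2 : ℝ) - w.2|) with hΛ'
  have hmem : ∀ z, z ∈ Λ' ↔ z ∈ dia N ∧
      ε * (N + 1) / 2 ≤ |(z.1 : ℝ) - w.1| + |(z.2 : ℝ) - w.2| := fun z => by
    rw [hΛ', Finset.mem_filter]
  have hNpos : (0:ℝ) < N + 1 := by positivity
  have hsin : 0 ≤ 4 * Real.sin (thN N) ^ 2 := by positivity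
  have hC : 0 < 4 * K / ε ^ 2 := by positivity
  have hwdia : w ∈ dia N := by
    rw [mem_dia]
    have h1 : |(w.1 : ℝ)| + |(w.2 : ℝ)| < N + 1 := by
      refine lt_of_le_of_lt hw ?_
      nlinarith
    have h2 : |w.1| + |w.2| < N + 1 := by exact_mod_cast h1
    omega
  refine comparison' (Λ := Λ') (u := green (dia N) w) (v := fun y => 4 * K / ε ^ 2 * eigF N y)
    (fun y hy => ?_) (fun y hy hn => ?_) ((hmem x).2 ⟨hx, hxw⟩)
  · obtain ⟨hy1, hy2⟩ := (hmem y).1 hy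
    have hyw : y ≠ w := by
      rintro rfl
      simp only [sub_self, abs_zero, add_zero] at hy2
      have : 0 < ε * (N + 1) / 2 := by positivity
      linarith
    rw [lap_green hy1, if_neg hyw, neg_zero, lap_mul, lap_eigF]
    have h1 := eigF_nonneg (N := N) (x := y) (by have := mem_dia.1 hy1; omega)
    have h2 := mul_nonneg hsin h1
    nlinarith [mul_nonneg hC.le h2]
  · -- the boundary layer
    have hnb : ∃ z, z ∈ Λ' ∧ |(y.1 : ℝ) - z.1| + |(y.2 : ℝ) - z.2| ≤ 1 := by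
      rcases hn with hn | hn | hn | hn
      · refine ⟨_, hn, ?_⟩
        simp only [Prod.fst_add, Prod.snd_add]
        push_cast
        have e1 : (y.1 : ℝ) - (y.1 + 1) = -1 := by ring
        have e2 : (y.2 : ℝ) - (y.2 + 0) = 0 := by ring
        rw [e1, e2]; norm_num
      · refine ⟨_, hn, ?_⟩
        simp only [Prod.fst_add, Prod.snd_add]
        push_cast
        have e1 : (y.1 : ℝ) - (y.1 + -1) = 1 := by ring
        have e2 : (y.2 : ℝ) - (y.2 + 0) = 0 := by ring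
        rw [e1, e2]; norm_num
      · refine ⟨_, hn, ?_⟩
        simp only [Prod.fst_add, Prod.snd_add]
        push_cast
        have e1 : (y.1 : ℝ) - (y.1 + 0) = 0 := by ring
        have e2 : (y.2 : ℝ) - (y.2 + 1) = -1 := by ring
        rw [e1, e2]; norm_num
      · refine ⟨_, hn, ?_⟩
        simp only [Prod.fst_add, Prod.snd_add]
        push_cast
        have e1 : (y.1 : ℝ) - (y.1 + 0) = 0 := by ring
        have e2 : (y.2 : ℝ) - (y.2 + -1) = 1 := by ring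
        rw [e1, e2]; norm_num
    obtain ⟨z, hz, hyz⟩ := hnb
    obtain ⟨hz1, hz2⟩ := (hmem z).1 hz
    have hz3 : |(z.1 : ℝ)| + |(z.2 : ℝ)| ≤ N := by exact_mod_cast mem_dia.1 hz1
    have hy3 : |(y.1 : ℝ)| + |(y.2 : ℝ)| ≤ N + 1 := by
      have h1 : |(y.1 : ℝ)| ≤ |(y.1 : ℝ) - z.1| + |(z.1 : ℝ)| := by
        have := abs_add_le ((y.1 : ℝ) - z.1) z.1
        simpa using this
      have h2 : |(y.2 : ℝ)| ≤ |(y.2 : ℝ) - z.2| + |(z.2 : ℝ)| := by
        have := abs_add_le ((y.2 : ℝ) - z.2) z.2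
        simpa using this
      linarith
    have hy3' : |y.1| + |y.2| ≤ N + 1 := by exact_mod_cast hy3
    by_cases hyd : y ∈ dia N
    · -- inside, close to the ball
      have hy4 : |(y.1 : ℝ) - w.1| + |(y.2 : ℝ) - w.2| < ε * (N + 1) / 2 := by
        by_contra hc
        push Not at hc
        exact hy ((hmem y).2 ⟨hyd, hc⟩)
      have hy5 : ε * (N + 1) / 2 - 1 ≤ |(y.1 : ℝ) - w.1| + |(y.2 : ℝ) - w.2| := by
        have h1 : |(z.1 : ℝ) - w.1| ≤ |(y.1 : ℝ) - z.1| + |(y.1 : ℝ) - w.1| := by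
          rw [abs_sub_comm (y.1 : ℝ) z.1]; exact abs_sub_le _ _ _
        have h2 : |(z.2 : ℝ) - w.2| ≤ |(y.2 : ℝ) - z.2| + |(y.2 : ℝ) - w.2| := by
          rw [abs_sub_comm (y.2 : ℝ) z.2]; exact abs_sub_le _ _ _
        linarith
      -- lower bound of the distance
      have hd : ε ^ 2 * ((N : ℝ) + 1) ^ 2 / 32
          ≤ ((y.1 : ℝ) - w.1) ^ 2 + ((y.2 : ℝ) - w.2) ^ 2 + 1 := by
        have hsq : (|(y.1 : ℝ) - w.1| + |(y.2 : ℝ) - w.2|) ^ 2
            ≤ 2 * (((y.1 : ℝ) - w.1) ^ 2 + ((y.2 : ℝ) - w.2) ^ 2) := by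
          rw [← sq_abs ((y.1 : ℝ) - w.1), ← sq_abs ((y.2 : ℝ) - w.2)]
          nlinarith [sq_nonneg (|(y.1 : ℝ) - w.1| - |(y.2 : ℝ) - w.2|)]
        by_cases h4 : 4 ≤ ε * (N + 1)
        · have h5 : ε * (N + 1) / 4 ≤ |(y.1 : ℝ) - w.1| + |(y.2 : ℝ) - w.2| := by linarith
          have h6 : (ε * (N + 1) / 4) ^ 2 ≤ (|(y.1 : ℝ) - w.1| + |(y.2 : ℝ) - w.2|) ^ 2 :=
            pow_le_pow_left₀ (by positivity) h5 2
          nlinarith
        · push Not at h4
          have h5 : (ε * (N + 1)) ^ 2 ≤ 4 ^ 2 := pow_le_pow_left₀ (by positivity) h4.le 2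
          have h6 : 0 ≤ ((y.1 : ℝ) - w.1) ^ 2 + ((y.2 : ℝ) - w.2) ^ 2 := by positivity
          nlinarith
      have hG := green_dia_log hwdia hyd
      have hG' : green (dia N) w y ≤ K := by
        refine hG.trans ?_
        rw [hK]
        refine div_le_div_of_nonneg_right ?_ hlog2.le
        rw [← Real.log_div (by positivity) (by positivity)]
        refine Real.log_le_log (by positivity) ?_
        rw [div_le_div_iff₀ (by positivity) (by positivity)]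
        nlinarith [hd]
      have hf : (ε / 2) ^ 2 ≤ eigF N y := by
        refine eigF_ge (by positivity) ?_
        have h1 : |(y.1 : ℝ)| ≤ |(y.1 : ℝ) - w.1| + |(w.1 : ℝ)| := by
          have := abs_add_le ((y.1 : ℝ) - w.1) w.1
          simpa using this
        have h2 : |(y.2 : ℝ)| ≤ |(y.2 : ℝ) - w.2| + |(w.2 : ℝ)| := by
          have := abs_add_le ((y.2 : ℝ) - w.2) w.2
          simpa using this
        linarith
      refine hG'.trans ?_
      have h7 : 4 * K / ε ^ 2 * (ε / 2) ^ 2 = K := by field_simp; ring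
      calc K = 4 * K / ε ^ 2 * (ε / 2) ^ 2 := h7.symm
        _ ≤ _ := mul_le_mul_of_nonneg_left hf hC.le
    · rw [green_out hyd]
      exact mul_nonneg hC.le (eigF_nonneg hy3')

/-- the eigenfunction at the corners -/
theorem eigF_corner {N : ℕ} {c : Site} (hc : |c.1| + |c.2| = N) (h0 : c.1 = 0 ∨ c.2 = 0) :
    eigF N c ≤ thN N ^ 2 := by
  have hcN : |(c.1 : ℝ)| + |(c.2 : ℝ)| = N := by exact_mod_cast hc
  have h1 : |(c.1 : ℝ) + c.2| = N ∧ |(c.1 : ℝ) - c.2| = N := by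
    rcases h0 with h | h
    · rw [h] at hcN ⊢
      simp only [Int.cast_zero, abs_zero, zero_add, zero_sub, abs_neg] at hcN ⊢
      exact ⟨hcN, hcN⟩
    · rw [h] at hcN ⊢
      simp only [Int.cast_zero, abs_zero, add_zero, sub_zero] at hcN ⊢
      exact ⟨hcN, hcN⟩
  have aux : ∀ s : ℝ, |s| = N → Real.cos (thN N * s) = Real.sin (thN N) := by
    intro s hs
    rw [← Real.cos_abs, abs_mul, abs_of_pos (thN_pos N), hs]
    have e : thN N * (N : ℝ) = Real.pi / 2 - thN N := by rw [← thN_mul N]; ring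
    rw [e, Real.cos_pi_div_two_sub]
  unfold eigF
  rw [aux _ h1.1, aux _ h1.2, ← sq]
  have h2 : 0 ≤ Real.sin (thN N) := by
    refine Real.sin_nonneg_of_nonneg_of_le_pi (thN_pos N).le ?_
    have h3 := thN_mul N
    have h4 := Real.pi_pos
    have h5 := thN_pos N
    have h6 : (0:ℝ) ≤ N := by positivity
    nlinarith
  exact pow_le_pow_left₀ h2 (Real.sin_le (thN_pos N).le) 2

theorem thN_le (N : ℕ) : thN N ≤ 2 / (N + 1) := by
  unfold thN
  rw [div_le_div_iff₀ (by positivity) (by positivity)]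
  have := Real.pi_le_four
  have hN : (0:ℝ) < N + 1 := by positivity
  nlinarith

/-- Corner bound. -/
theorem green_corner {ε : ℝ} (hε : 0 < ε) (hε1 : ε ≤ 1) : ∃ C : ℝ, 0 < C ∧ ∀ (N : ℕ) (w c : Site),
    |(w.1 : ℝ)| + |(w.2 : ℝ)| ≤ (1 - ε) * (N + 1) → |c.1| + |c.2| = N → (c.1 = 0 ∨ c.2 = 0) →
    ε * (N + 1) / 2 ≤ |(c.1 : ℝ) - w.1| + |(c.2 : ℝ) - w.2| →
    green (dia N) w c ≤ C / (N + 1) ^ 2 := by
  obtain ⟨C, hC, h⟩ := green_decay hε hε1
  refine ⟨4 * C, by positivity, fun N w c hw hc h0 hd => ?_⟩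
  have h1 := h N w c (mem_dia.2 hc.le) hw hd
  have h2 := eigF_corner hc h0
  have h3 : thN N ^ 2 ≤ (2 / ((N : ℝ) + 1)) ^ 2 :=
    pow_le_pow_left₀ (thN_pos N).le (thN_le N) 2
  calc green (dia N) w c ≤ C * eigF N c := h1
    _ ≤ C * (2 / ((N : ℝ) + 1)) ^ 2 := mul_le_mul_of_nonneg_left (h2.trans h3) hC.le
    _ = _ := by field_simp; ring

/-- Linear decay at the boundary. -/
theorem green_boundary {ε : ℝ} (hε : 0 < ε) (hε1 : ε ≤ 1) : ∃ C : ℝ, 0 < C ∧
    ∀ (N : ℕ) (w x : Site), x ∈ dia N → |(w.1 : ℝ)| + |(w.2 : ℝ)| ≤ (1 - ε) * (N + 1) →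
    ε * (N + 1) / 2 ≤ |(x.1 : ℝ) - w.1| + |(x.2 : ℝ) - w.2| →
    green (dia N) w x ≤ C * (((N : ℝ) + 1 - (|(x.1 : ℝ)| + |(x.2 : ℝ)|)) / (N + 1)) := by
  obtain ⟨C, hC, h⟩ := green_decay hε hε1
  refine ⟨2 * C, by positivity, fun N w x hx hw hd => ?_⟩
  have h1 := h N w x hx hw hd
  have hx' : |(x.1 : ℝ)| + |(x.2 : ℝ)| ≤ N := by exact_mod_cast mem_dia.1 hx
  have h2 := eigF_le (N := N) (x := x) (by have := mem_dia.1 hx; omega)
  have h3 : thN N * ((N : ℝ) + 1 - (|(x.1 : ℝ)| + |(x.2 : ℝ)|))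
      ≤ 2 / (N + 1) * ((N : ℝ) + 1 - (|(x.1 : ℝ)| + |(x.2 : ℝ)|)) :=
    mul_le_mul_of_nonneg_right (thN_le N) (by linarith)
  calc green (dia N) w x ≤ C * eigF N x := h1
    _ ≤ C * (2 / (N + 1) * ((N : ℝ) + 1 - (|(x.1 : ℝ)| + |(x.2 : ℝ)|))) :=
        mul_le_mul_of_nonneg_left (h2.trans h3) hC.le
    _ = _ := by ring

end Vale.Agent.P144.H436
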