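import Vale.Agent.P144.Defs
import Mathlib.Analysis.SpecialFunctions.Log.Basic
import Mathlib.Analysis.SpecialFunctions.Trigonometric.Bounds
import Mathlib.LinearAlgebra.FiniteDimensional.Basic

/-!
Discrete potential theory on finite subsets of the square lattice: maximum principle, Dirichlet
Green function, comparison, logarithmic bound.
-/

namespace Vale.Agent.P144.H436

open Finset Vale.Agent.P144

/-- the nearest-neighbour Laplacian -/
def lap (u : Site → ℝ) (x : Site) : ℝ :=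
  u (x + (1, 0)) + u (x + (-1, 0)) + u (x + (0, 1)) + u (x + (0, -1)) - 4 * u x

theorem lap_add (u v : Site → ℝ) (x : Site) : lap (fun y => u y + v y) x = lap u x + lap v x := by
  unfold lap; ring

theorem lap_sub (u v : Site → ℝ) (x : Site) : lap (fun y => u y - v y) x = lap u x - lap v x := by
  unfold lap; ring

theorem lap_neg (u : Site → ℝ) (x : Site) : lap (fun y => -u y) x = -lap u x := by
  unfold lap; ring

theorem lap_mul (c : ℝ) (u : Site → ℝ) (x : Site) : lap (fun y => c * u y) x = c * lap u x := by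
  unfold lap; ring

theorem lap_const (c : ℝ) (x : Site) : lap (fun _ => c) x = 0 := by
  unfold lap; ring

theorem lap_sum {κ : Type*} (T : Finset κ) (f : κ → Site → ℝ) (x : Site) :
    lap (fun y => ∑ k ∈ T, f k y) x = ∑ k ∈ T, lap (f k) x := by
  unfold lap
  simp only [Finset.mul_sum, ← Finset.sum_add_distrib, ← Finset.sum_sub_distrib]

/-- Maximum principle: a function that is subharmonic in the finite set `Λ` and nonpositive
outside is nonpositive. -/
theorem max_principle {Λ : Finset Site} {u : Site → ℝ} (h : ∀ x ∈ Λ, 0 ≤ lap u x)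
    (h0 : ∀ x ∉ Λ, u x ≤ 0) (x : Site) : u x ≤ 0 := by
  by_contra hx
  push Not at hx
  have hxΛ : x ∈ Λ := by
    by_contra h; exact absurd (h0 x h) (not_le.2 hx)
  obtain ⟨y, hy, hmax⟩ := Finset.exists_max_image Λ u ⟨x, hxΛ⟩
  have hpos : 0 < u y := hx.trans_le (hmax x hxΛ)
  have hall : ∀ z, u z ≤ u y := fun z => by
    by_cases hz : z ∈ Λ
    · exact hmax z hz
    · exact (h0 z hz).trans hpos.le
  -- the maximum propagates to the right
  have hstep : ∀ n : ℕ, u (y + ((n : ℤ), 0)) = u y := by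
    intro n
    induction n with
    | zero =>
      have e : (y : Site) + (((0 : ℕ) : ℤ), 0) = y := by ext <;> simp
      rw [e]
    | succ n ih =>
      have hm : y + ((n : ℤ), 0) ∈ Λ := by
        by_contra hz
        have := h0 _ hz
        rw [ih] at this
        exact absurd this (not_le.2 hpos)
      have h1 := h _ hm
      unfold lap at h1
      rw [ih] at h1
      have e : y + ((n : ℤ), 0) + (1, 0) = y + (((n + 1 : ℕ) : ℤ), 0) := by
        ext <;> simp [add_assoc]
      rw [e] at h1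
      have a1 := hall (y + (((n + 1 : ℕ) : ℤ), 0))
      have a2 := hall (y + ((n : ℤ), 0) + (-1, 0))
      have a3 := hall (y + ((n : ℤ), 0) + (0, 1))
      have a4 := hall (y + ((n : ℤ), 0) + (0, -1))
      linarith
  have hinj : Function.Injective fun n : ℕ => y + ((n : ℤ), (0 : ℤ)) := by
    intro a b hab
    have := congrArg Prod.fst hab
    simpa using this
  have hsub : Set.range (fun n : ℕ => y + ((n : ℤ), (0 : ℤ))) ⊆ (Λ : Set Site) := by
    rintro _ ⟨n, rfl⟩
    by_contra hz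
    have := h0 _ (by simpa using hz)
    rw [hstep n] at this
    exact absurd this (not_le.2 hpos)
  exact (Set.infinite_range_of_injective hinj) (Λ.finite_toSet.subset hsub)

theorem min_principle {Λ : Finset Site} {u : Site → ℝ} (h : ∀ x ∈ Λ, lap u x ≤ 0)
    (h0 : ∀ x ∉ Λ, 0 ≤ u x) (x : Site) : 0 ≤ u x := by
  have := max_principle (Λ := Λ) (u := fun y => -u y)
    (fun x hx => by rw [lap_neg]; linarith [h x hx]) (fun x hx => by linarith [h0 x hx]) x
  linarith

/-- comparison -/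
theorem comparison {Λ : Finset Site} {u v : Site → ℝ} (h : ∀ x ∈ Λ, lap v x ≤ lap u x)
    (h0 : ∀ x ∉ Λ, u x ≤ v x) (x : Site) : u x ≤ v x := by
  have := max_principle (Λ := Λ) (u := fun y => u y - v y)
    (fun x hx => by rw [lap_sub]; linarith [h x hx]) (fun x hx => by linarith [h0 x hx]) x
  linarith

/-- zero extension -/
def zext (Λ : Finset Site) (f : Λ → ℝ) (x : Site) : ℝ := if h : x ∈ Λ then f ⟨x, h⟩ else 0

theorem zext_mem {Λ : Finset Site} {f : Λ → ℝ} {x : Site} (h : x ∈ Λ) : zext Λ f x = f ⟨x, h⟩ :=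
  dif_pos h

theorem zext_not_mem {Λ : Finset Site} {f : Λ → ℝ} {x : Site} (h : x ∉ Λ) : zext Λ f x = 0 :=
  dif_neg h

theorem zext_add (Λ : Finset Site) (f g : Λ → ℝ) (x : Site) :
    zext Λ (f + g) x = zext Λ f x + zext Λ g x := by
  unfold zext; split_ifs <;> simp

theorem zext_smul (Λ : Finset Site) (c : ℝ) (f : Λ → ℝ) (x : Site) :
    zext Λ (c • f) x = c * zext Λ f x := by
  unfold zext; split_ifs <;> simp

/-- the Dirichlet Laplacian -/
def dlap (Λ : Finset Site) : (Λ → ℝ) →ₗ[ℝ] (Λ → ℝ) where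
  toFun f := fun x => -lap (zext Λ f) x
  map_add' f g := by
    funext x
    have : zext Λ (f + g) = fun y => zext Λ f y + zext Λ g y := funext (zext_add Λ f g)
    simp only [this, lap_add, Pi.add_apply, neg_add]
  map_smul' c f := by
    funext x
    have : zext Λ (c • f) = fun y => c * zext Λ f y := funext (zext_smul Λ c f)
    simp only [this, lap_mul, Pi.smul_apply, smul_eq_mul, RingHom.id_apply, mul_neg]

theorem dlap_inj (Λ : Finset Site) : Function.Injective (dlap Λ) := by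
  rw [injective_iff_map_eq_zero]
  intro f hf
  have h1 : ∀ x ∈ Λ, lap (zext Λ f) x = 0 := by
    intro x hx
    have := congrFun hf ⟨x, hx⟩
    simp only [dlap, LinearMap.coe_mk, AddHom.coe_mk, Pi.zero_apply, neg_eq_zero] at this
    exact this
  have h2 := max_principle (Λ := Λ) (u := zext Λ f) (fun x hx => (h1 x hx).ge)
    (fun x hx => (zext_not_mem hx).le)
  have h3 := min_principle (Λ := Λ) (u := zext Λ f) (fun x hx => (h1 x hx).le)
    (fun x hx => (zext_not_mem hx).ge)
  funext x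
  have := le_antisymm (h2 x) (h3 x)
  rw [zext_mem x.2] at this
  exact this

theorem exists_green (Λ : Finset Site) (w : Site) : ∃ u : Site → ℝ, (∀ x ∉ Λ, u x = 0) ∧
    ∀ x ∈ Λ, lap u x = -(if x = w then 1 else 0) := by
  have hs : Function.Surjective (dlap Λ) := LinearMap.injective_iff_surjective.1 (dlap_inj Λ)
  obtain ⟨f, hf⟩ := hs (fun x => if (x : Site) = w then 1 else 0)
  refine ⟨zext Λ f, fun x hx => zext_not_mem hx, fun x hx => ?_⟩
  have := congrFun hf ⟨x, hx⟩
  simp only [dlap, LinearMap.coe_mk, AddHom.coe_mk] at this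
  rw [← this, neg_neg]

/-- The Dirichlet Green function of `Λ` with pole `w`. -/
noncomputable def green (Λ : Finset Site) (w : Site) : Site → ℝ := (exists_green Λ w).choose

theorem green_out {Λ : Finset Site} {w x : Site} (hx : x ∉ Λ) : green Λ w x = 0 :=
  (exists_green Λ w).choose_spec.1 x hx

theorem lap_green {Λ : Finset Site} {w x : Site} (hx : x ∈ Λ) :
    lap (green Λ w) x = -(if x = w then 1 else 0) :=
  (exists_green Λ w).choose_spec.2 x hx

theorem green_nonneg (Λ : Finset Site) (w x : Site) : 0 ≤ green Λ w x :=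
  min_principle (Λ := Λ) (fun x hx => by rw [lap_green hx]; split_ifs <;> norm_num)
    (fun _ hx => (green_out hx).ge) x

/-- A function that is superharmonic in `Λ`, nonnegative outside, with `-Δ ≥ 1` at the pole, is
above the Green function. -/
theorem green_le {Λ : Finset Site} {w : Site} {v : Site → ℝ} (h : ∀ x ∈ Λ, lap v x ≤ 0)
    (hw : w ∈ Λ → lap v w ≤ -1) (h0 : ∀ x ∉ Λ, 0 ≤ v x) (x : Site) : green Λ w x ≤ v x := by
  refine comparison (Λ := Λ) (fun x hx => ?_) (fun x hx => ?_) x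
  · rw [lap_green hx]
    split_ifs with hxw
    · subst hxw; exact hw hx
    · simpa using h x hx
  · rw [green_out hx]; exact h0 x hx

/-- comparison with a combination of Green functions -/
theorem le_green_sum {Λ : Finset Site} {κ : Type*} (T : Finset κ) (w : κ → Site) (c : κ → ℝ)
    {u : Site → ℝ} (h : ∀ x ∈ Λ, -(∑ k ∈ T, c k * (if x = w k then 1 else 0)) ≤ lap u x)
    (h0 : ∀ x ∉ Λ, u x ≤ 0) (x : Site) : u x ≤ ∑ k ∈ T, c k * green Λ (w k) x := by
  refine comparison (Λ := Λ) (v := fun x => ∑ k ∈ T, c k * green Λ (w k) x)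
    (fun x hx => ?_) (fun x hx => ?_) x
  · rw [lap_sum T (fun k y => c k * green Λ (w k) y)]
    refine le_trans (le_of_eq ?_) (h x hx)
    rw [← Finset.sum_neg_distrib]
    refine Finset.sum_congr rfl fun k _ => ?_
    rw [lap_mul, lap_green hx]
    ring
  · simp only [green_out hx, mul_zero, Finset.sum_const_zero]
    exact h0 x hx

/-! ### symmetry -/

theorem sum_shift {Λ : Finset Site} {u v : Site → ℝ} (hu : ∀ x ∉ Λ, u x = 0)
    (hv : ∀ x ∉ Λ, v x = 0) (d : Site) :
    ∑ x ∈ Λ, u x * v (x + d) = ∑ x ∈ Λ, u (x + -d) * v x := by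
  have h1 : ∑ x ∈ Λ, u x * v (x + d) = ∑ x ∈ Λ.filter (fun x => x + d ∈ Λ), u x * v (x + d) := by
    rw [Finset.sum_filter]
    refine Finset.sum_congr rfl fun x _ => ?_
    split_ifs with h
    · rfl
    · rw [hv _ h, mul_zero]
  have h2 : ∑ x ∈ Λ, u (x + -d) * v x
      = ∑ x ∈ Λ.filter (fun x => x + -d ∈ Λ), u (x + -d) * v x := by
    rw [Finset.sum_filter]
    refine Finset.sum_congr rfl fun x _ => ?_
    split_ifs with h
    · rfl
    · rw [hu _ h, zero_mul]
  rw [h1, h2]
  refine Finset.sum_bij' (fun x _ => x + d) (fun x _ => x + -d) ?_ ?_ ?_ ?_ ?_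
  · intro x hx
    rw [Finset.mem_filter] at hx ⊢
    exact ⟨hx.2, by simpa using hx.1⟩
  · intro x hx
    rw [Finset.mem_filter] at hx ⊢
    exact ⟨hx.2, by simpa using hx.1⟩
  · intro x _; simp
  · intro x _; simp
  · intro x _; simp

theorem sum_lap_comm {Λ : Finset Site} {u v : Site → ℝ} (hu : ∀ x ∉ Λ, u x = 0)
    (hv : ∀ x ∉ Λ, v x = 0) : ∑ x ∈ Λ, u x * lap v x = ∑ x ∈ Λ, v x * lap u x := by
  have e : ∀ a b : Site → ℝ, ∑ x ∈ Λ, a x * lap b x = ∑ x ∈ Λ, a x * b (x + (1, 0))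
      + ∑ x ∈ Λ, a x * b (x + (-1, 0)) + ∑ x ∈ Λ, a x * b (x + (0, 1))
      + ∑ x ∈ Λ, a x * b (x + (0, -1)) - 4 * ∑ x ∈ Λ, a x * b x := by
    intro a b
    simp only [Finset.mul_sum, ← Finset.sum_add_distrib, ← Finset.sum_sub_distrib]
    refine Finset.sum_congr rfl fun x _ => ?_
    unfold lap; ring
  rw [e, e, sum_shift hu hv, sum_shift hu hv, sum_shift hu hv, sum_shift hu hv]
  have c : ∀ a b : Site → ℝ, ∑ x ∈ Λ, a x * b x = ∑ x ∈ Λ, b x * a x := fun a b =>
    Finset.sum_congr rfl fun x _ => mul_comm _ _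
  have n1 : (-((1, 0) : Site)) = (-1, 0) := by simp
  have n2 : (-((-1, 0) : Site)) = (1, 0) := by simp
  have n3 : (-((0, 1) : Site)) = (0, -1) := by simp
  have n4 : (-((0, -1) : Site)) = (0, 1) := by simp
  rw [n1, n2, n3, n4, c u v]
  simp only [c (fun x => u (x + _)) v]
  ring

theorem green_symm (Λ : Finset Site) (w z : Site) (hw : w ∈ Λ) (hz : z ∈ Λ) :
    green Λ w z = green Λ z w := by
  have h := sum_lap_comm (Λ := Λ) (u := green Λ w) (v := green Λ z)
    (fun _ hx => green_out hx) (fun _ hx => green_out hx)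
  have e : ∀ a b : Site, b ∈ Λ → ∑ x ∈ Λ, green Λ a x * lap (green Λ b) x = -green Λ a b := by
    intro a b hb
    have : ∀ x ∈ Λ, green Λ a x * lap (green Λ b) x = if x = b then -green Λ a x else 0 := by
      intro x hx
      rw [lap_green hx]
      split_ifs <;> ring
    rw [Finset.sum_congr rfl this, Finset.sum_ite_eq' Λ b, if_pos hb]
  rw [e w z hz, e z w hw] at h
  linarith

/-- maximum principle with values only on the boundary layer -/
theorem max_principle' {Λ : Finset Site} {u : Site → ℝ} (h : ∀ x ∈ Λ, 0 ≤ lap u x)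
    (h0 : ∀ x ∉ Λ, (x + (1, 0) ∈ Λ ∨ x + (-1, 0) ∈ Λ ∨ x + (0, 1) ∈ Λ ∨ x + (0, -1) ∈ Λ) →
      u x ≤ 0) {x : Site} (hx : x ∈ Λ) : u x ≤ 0 := by
  classical
  let P : Site → Prop := fun x => x ∈ Λ ∨ x + (1, 0) ∈ Λ ∨ x + (-1, 0) ∈ Λ ∨ x + (0, 1) ∈ Λ ∨
    x + (0, -1) ∈ Λ
  have key := max_principle (Λ := Λ) (u := fun x => if P x then u x else 0) (fun y hy => ?_)
    (fun y hy => ?_) x
  · have hP : P x := Or.inl hx
    simpa only [if_pos hP] using key
  · have e : lap (fun x => if P x then u x else 0) y = lap u y := by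
      unfold lap
      have p0 : P y := Or.inl hy
      have p1 : P (y + (1, 0)) := by
        right; right; left
        have : y + (1, 0) + (-1, 0) = y := by ext <;> simp
        rw [this]; exact hy
      have p2 : P (y + (-1, 0)) := by
        right; left
        have : y + (-1, 0) + (1, 0) = y := by ext <;> simp
        rw [this]; exact hy
      have p3 : P (y + (0, 1)) := by
        right; right; right; right
        have : y + (0, 1) + (0, -1) = y := by ext <;> simp
        rw [this]; exact hy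
      have p4 : P (y + (0, -1)) := by
        right; right; right; left
        have : y + (0, -1) + (0, 1) = y := by ext <;> simp
        rw [this]; exact hy
      simp only [if_pos p0, if_pos p1, if_pos p2, if_pos p3, if_pos p4]
    rw [e]
    exact h y hy
  · by_cases hP : P y
    · simp only [if_pos hP]
      exact h0 y hy (hP.resolve_left hy)
    · simp only [if_neg hP, le_refl]

theorem comparison' {Λ : Finset Site} {u v : Site → ℝ} (h : ∀ x ∈ Λ, lap v x ≤ lap u x)
    (h0 : ∀ x ∉ Λ, (x + (1, 0) ∈ Λ ∨ x + (-1, 0) ∈ Λ ∨ x + (0, 1) ∈ Λ ∨ x + (0, -1) ∈ Λ) →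
      u x ≤ v x) {x : Site} (hx : x ∈ Λ) : u x ≤ v x := by
  have := max_principle' (Λ := Λ) (u := fun y => u y - v y)
    (fun x hx => by rw [lap_sub]; linarith [h x hx]) (fun x hx hn => by linarith [h0 x hx hn]) hx
  linarith

/-! ### the logarithmic bound -/

/-- squared distance as a real number -/
theorem lap_log_nonneg (w x : Site) :
    0 ≤ lap (fun y => Real.log (((y.1 : ℝ) - w.1) ^ 2 + ((y.2 : ℝ) - w.2) ^ 2 + 1)) x := by
  unfold lap
  simp only [Prod.fst_add, Prod.snd_add, add_zero]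
  push_cast
  set p : ℝ := (x.1 : ℝ) - w.1 with hp
  set q : ℝ := (x.2 : ℝ) - w.2 with hq
  have e1 : ((x.1 : ℝ) + 1 - w.1) ^ 2 + q ^ 2 + 1 = (p ^ 2 + q ^ 2 + 1) + 1 + 2 * p := by
    rw [hp]; ring
  have e2 : ((x.1 : ℝ) + -1 - w.1) ^ 2 + q ^ 2 + 1 = (p ^ 2 + q ^ 2 + 1) + 1 - 2 * p := by
    rw [hp]; ring
  have e3 : p ^ 2 + ((x.2 : ℝ) + 1 - w.2) ^ 2 + 1 = (p ^ 2 + q ^ 2 + 1) + 1 + 2 * q := by
    rw [hq]; ring
  have e4 : p ^ 2 + ((x.2 : ℝ) + -1 - w.2) ^ 2 + 1 = (p ^ 2 + q ^ 2 + 1) + 1 - 2 * q := by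
    rw [hq]; ring
  rw [e1, e2, e3, e4]
  have h1 : 0 < (p ^ 2 + q ^ 2 + 1) + 1 + 2 * p := by nlinarith [sq_nonneg (p + 1), sq_nonneg q]
  have h2 : 0 < (p ^ 2 + q ^ 2 + 1) + 1 - 2 * p := by nlinarith [sq_nonneg (p - 1), sq_nonneg q]
  have h3 : 0 < (p ^ 2 + q ^ 2 + 1) + 1 + 2 * q := by nlinarith [sq_nonneg (q + 1), sq_nonneg p]
  have h4 : 0 < (p ^ 2 + q ^ 2 + 1) + 1 - 2 * q := by nlinarith [sq_nonneg (q - 1), sq_nonneg p]
  have hR : 0 < p ^ 2 + q ^ 2 + 1 := by positivity
  rw [← Real.log_mul h1.ne' h2.ne', ← Real.log_mul (mul_pos h1 h2).ne' h3.ne',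
    ← Real.log_mul (mul_pos (mul_pos h1 h2) h3).ne' h4.ne']
  have h5 : (4:ℝ) * Real.log (p ^ 2 + q ^ 2 + 1) = Real.log ((p ^ 2 + q ^ 2 + 1) ^ 4) := by
    rw [Real.log_pow]; norm_num
  rw [h5, sub_nonneg]
  refine Real.log_le_log (by positivity) ?_
  nlinarith [sq_nonneg (p * q), sq_nonneg p, sq_nonneg q, sq_nonneg (p ^ 2 + q ^ 2)]

theorem lap_log_pole (w : Site) :
    lap (fun y => Real.log (((y.1 : ℝ) - w.1) ^ 2 + ((y.2 : ℝ) - w.2) ^ 2 + 1)) w
      = 4 * Real.log 2 := by
  unfold lap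
  simp only [Prod.fst_add, Prod.snd_add, add_zero]
  push_cast
  have e1 : ((w.1 : ℝ) + 1 - w.1) ^ 2 + ((w.2 : ℝ) - w.2) ^ 2 + 1 = 2 := by ring
  have e2 : ((w.1 : ℝ) + -1 - w.1) ^ 2 + ((w.2 : ℝ) - w.2) ^ 2 + 1 = 2 := by ring
  have e3 : ((w.1 : ℝ) - w.1) ^ 2 + ((w.2 : ℝ) + 1 - w.2) ^ 2 + 1 = 2 := by ring
  have e4 : ((w.1 : ℝ) - w.1) ^ 2 + ((w.2 : ℝ) + -1 - w.2) ^ 2 + 1 = 2 := by ring
  have e5 : ((w.1 : ℝ) - w.1) ^ 2 + ((w.2 : ℝ) - w.2) ^ 2 + 1 = 1 := by ring
  rw [e1, e2, e3, e4, e5, Real.log_one]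
  ring

/-- The logarithmic bound for the Green function. -/
theorem green_log {Λ : Finset Site} {w : Site} {M : ℝ}
    (hM : ∀ x ∈ Λ, ((x.1 : ℝ) - w.1) ^ 2 + ((x.2 : ℝ) - w.2) ^ 2 + 1 ≤ M) {x : Site}
    (hx : x ∈ Λ) :
    green Λ w x ≤ (Real.log (4 * M) - Real.log (((x.1 : ℝ) - w.1) ^ 2
      + ((x.2 : ℝ) - w.2) ^ 2 + 1)) / (4 * Real.log 2) := by
  have hl2 : 0 < 4 * Real.log 2 := by positivity
  set v : Site → ℝ := fun y => (4 * Real.log 2)⁻¹ * (Real.log (4 * M)
    - Real.log (((y.1 : ℝ) - w.1) ^ 2 + ((y.2 : ℝ) - w.2) ^ 2 + 1)) with hv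
  have hlap : ∀ y, lap v y = -((4 * Real.log 2)⁻¹ *
      lap (fun y => Real.log (((y.1 : ℝ) - w.1) ^ 2 + ((y.2 : ℝ) - w.2) ^ 2 + 1)) y) := by
    intro y
    rw [hv, lap_mul, lap_sub (fun _ => Real.log (4 * M)), lap_const]
    ring
  have h := comparison' (Λ := Λ) (u := green Λ w) (v := v) (fun y hy => ?_) (fun y hy hn => ?_) hx
  · rw [hv] at h
    simp only at h
    rw [inv_mul_eq_div] at h
    exact h
  · rw [lap_green hy, hlap]
    by_cases hyw : y = w
    · subst hyw
      rw [lap_log_pole, if_pos rfl, inv_mul_cancel₀ hl2.ne']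
    · rw [if_neg hyw, neg_zero, neg_nonpos]
      exact mul_nonneg (inv_nonneg.2 hl2.le) (lap_log_nonneg w y)
  · rw [green_out hy, hv]
    simp only
    refine mul_nonneg (inv_nonneg.2 hl2.le) ?_
    rw [sub_nonneg]
    refine Real.log_le_log (by positivity) ?_
    have key : ∀ (a b p q : ℝ), p ^ 2 + q ^ 2 + 1 ≤ M → a ^ 2 + b ^ 2 ≤ 1 →
        (p - a) ^ 2 + (q - b) ^ 2 + 1 ≤ 4 * M := by
      intro a b p q h1 h2
      nlinarith [sq_nonneg (p + a), sq_nonneg (q + b)]
    rcases hn with hn | hn | hn | hn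
    · have := key 1 0 _ _ (hM _ hn) (by norm_num)
      simp only [Prod.fst_add, Prod.snd_add, add_zero] at this
      push_cast at this
      convert this using 3 <;> ring
    · have := key (-1) 0 _ _ (hM _ hn) (by norm_num)
      simp only [Prod.fst_add, Prod.snd_add, add_zero] at this
      push_cast at this
      convert this using 3 <;> ring
    · have := key 0 1 _ _ (hM _ hn) (by norm_num)
      simp only [Prod.fst_add, Prod.snd_add, add_zero] at this
      push_cast at this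
      convert this using 3 <;> ring
    · have := key 0 (-1) _ _ (hM _ hn) (by norm_num)
      simp only [Prod.fst_add, Prod.snd_add, add_zero] at this
      push_cast at this
      convert this using 3 <;> ring

end Vale.Agent.P144.H436
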