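import Vale.Agent.P144.H436.Norm3

/-!
The alternating boundary condition in the square against the free one: only the four tips carry a
field. Reduction of the limits for the alternating boundary condition to limits for the free one
with spins at the tips.
-/

namespace Vale.Agent.P144.H436

open Finset Vale.Agent.P144 Filter Topology

section field

variable {ι : Type*} [Fintype ι] [DecidableEq ι]

/-- a field on the sites of `S` as a product of linear factors -/
theorem ev_field (K : ι → ι → ℝ) (h : ι → ℝ) (S : Finset ι) (hS : ∀ i ∉ S, h i = 0)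
    (F : (ι → Bool) → ℝ) :
    ev K h F = ev K (fun _ => 0) (fun s => F s * ∏ i ∈ S, (1 + Real.tanh (h i) * sg i s))
      / ev K (fun _ => 0) (fun s => ∏ i ∈ S, (1 + Real.tanh (h i) * sg i s)) := by
  set c : ℝ := ∏ i ∈ S, Real.cosh (h i) with hc
  have hc0 : 0 < c := prod_pos fun i _ => Real.cosh_pos _
  have hw : ∀ s, wt K h s = c * (wt K (fun _ => 0) s * ∏ i ∈ S, (1 + Real.tanh (h i) * sg i s)) := by
    intro s
    have h1 : ∑ i, h i * sp (s i) = ∑ i ∈ S, h i * sp (s i) := by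
      refine (sum_subset (subset_univ S) fun i _ hi => ?_).symm
      rw [hS i hi, zero_mul]
    have h2 : Real.exp (∑ i ∈ S, h i * sp (s i))
        = c * ∏ i ∈ S, (1 + Real.tanh (h i) * sg i s) := by
      rw [Real.exp_sum, hc, ← prod_mul_distrib]
      refine prod_congr rfl fun i _ => ?_
      have hch := (Real.cosh_pos (h i)).ne'
      have h3 : Real.cosh (h i) * Real.tanh (h i) = Real.sinh (h i) := by
        rw [Real.tanh_eq_sinh_div_cosh]; field_simp
      rw [mul_add, mul_one, ← mul_assoc, h3]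
      unfold sg
      cases s i
      · rw [sp_false]
        rw [mul_neg_one, mul_neg_one, ← sub_eq_add_neg, Real.cosh_sub_sinh]
      · rw [sp_true, mul_one, mul_one, Real.cosh_add_sinh]
    unfold wt ex
    rw [h1, Real.exp_add, h2]
    simp only [zero_mul, sum_const_zero, add_zero]
    ring
  unfold ev
  simp only [hw]
  have e1 : ∀ G : (ι → Bool) → ℝ, ∑ s, G s * (c * (wt K (fun _ => 0) s
      * ∏ i ∈ S, (1 + Real.tanh (h i) * sg i s)))
      = c * ∑ s, (G s * ∏ i ∈ S, (1 + Real.tanh (h i) * sg i s)) * wt K (fun _ => 0) s := by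
    intro G
    rw [mul_sum]
    exact sum_congr rfl fun s _ => by ring
  have e2 := e1 fun _ => 1
  simp only [one_mul] at e2
  rw [e1, e2]
  have hZ := Z_pos K (fun _ => 0)
  rw [mul_div_mul_left _ _ hc0.ne', div_div_div_cancel_right₀ hZ.ne']

end field

/-- the four tips of `dia N` -/
def tip (N : ℕ) : Fin 4 → Site := ![((N : ℤ), 0), (0, (N : ℤ)), (-(N : ℤ), 0), (0, -(N : ℤ))]

theorem tip_inj {N : ℕ} (hN : 1 ≤ N) : Function.Injective (tip N) := by
  have : (1:ℤ) ≤ N := by exact_mod_cast hN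
  intro i j h
  fin_cases i <;> fin_cases j <;> simp [tip] at h ⊢ <;> omega

theorem corners_eq (N : ℕ) : corners N = univ.image (tip N) := by
  ext x
  simp only [corners, mem_insert, mem_singleton, mem_image, mem_univ, true_and, tip]
  constructor
  · rintro (h | h | h | h)
    · exact ⟨0, h.symm⟩
    · exact ⟨1, h.symm⟩
    · exact ⟨2, h.symm⟩
    · exact ⟨3, h.symm⟩
  · rintro ⟨i, rfl⟩
    fin_cases i <;> simp

/-- the number of the mesh -/
noncomputable def nn (a : ℝ) : ℕ := ⌈1 / a⌉₊ - 1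

/-- the free critical expectation in the square -/
noncomputable def E0 (J a : ℝ) (F : Config → ℝ) : ℝ :=
  gibbs J 0 (fun _ => 0) (Kc / J) none (disc Dia a) F

/-- the strength of the field at a tip -/
noncomputable def tt (N : ℕ) (i : Fin 4) : ℝ :=
  Real.tanh (Kc * (S1 (gA N) (tip N i).1 (tip N i).2 : ℝ))

theorem tt_abs (N : ℕ) (i : Fin 4) : |tt N i| ≤ 1 := (Real.abs_tanh_lt_one _).le

/-- the factor of the fields at the tips -/
noncomputable def PP (N : ℕ) (σ : Config) : ℝ := ∏ i : Fin 4, (1 + tt N i * sp (σ (tip N i)))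

/-- `F` depends only on the spins in `Λ` -/
def Loc (Λ : Finset Site) (F : Config → ℝ) : Prop := ∀ σ σ' : Config, (∀ x ∈ Λ, σ x = σ' x) → F σ = F σ'

theorem tip_mem (N : ℕ) (i : Fin 4) : tip N i ∈ dia N := by
  rw [mem_dia]
  fin_cases i <;> simp [tip]

theorem alt_eq {J : ℝ} (hJ : 0 < J) {N : ℕ} (hN : 1 ≤ N) {F : Config → ℝ} (hF : Loc (dia N) F) :
    gibbs J 0 (fun _ => 0) (Kc / J) (some (alt N)) (dia N) F
      = gibbs J 0 (fun _ => 0) (Kc / J) none (dia N) (fun σ => F σ * PP N σ)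
        / gibbs J 0 (fun _ => 0) (Kc / J) none (dia N) (PP N) := by
  have hβJ : Kc / J * J = Kc := div_mul_cancel₀ _ hJ.ne'
  have hW := window_win (dia N)
  rw [gibbs_zero J _ hW, gibbs_free0, gibbs_free0]
  have hf : (fun i : dia N => Kc / J * fld J 0 (dia N) (win (dia N)) (fun _ => True) (alt N) i)
      = fun i : dia N => Kc * (S1 (gA N) (i : Site).1 (i : Site).2 : ℝ) := by
    funext i
    rw [fld_alt J 0 hW i.2, zero_mul, add_zero, ← mul_assoc, hβJ]
  rw [hf]
  let e : Fin 4 ↪ (dia N : Finset Site) := ⟨fun i => ⟨tip N i, tip_mem N i⟩, fun i j h =>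
    tip_inj hN (congrArg Subtype.val h)⟩
  have hS : ∀ i ∉ (univ.map e), (fun i : dia N => Kc * (S1 (gA N) (i : Site).1 (i : Site).2 : ℝ)) i
      = 0 := by
    intro i hi
    have h1 : (i : Site) ∉ corners N := by
      intro hc
      rw [corners_eq, mem_image] at hc
      obtain ⟨k, _, hk⟩ := hc
      exact hi (mem_map.2 ⟨k, mem_univ _, Subtype.ext hk⟩)
    have h2 := (S1_alt hN (mem_dia.1 i.2)).2.2 h1
    simp [h2]
  rw [ev_field _ _ (univ.map e) hS]
  have hP : ∀ s : dia N → Bool, (∏ i ∈ univ.map e, (1 + Real.tanh (Kc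
      * (S1 (gA N) (i : Site).1 (i : Site).2 : ℝ)) * sg i s))
      = PP N (exs (dia N) (fun _ => true) s) := by
    intro s
    rw [prod_map]
    unfold PP
    refine prod_congr rfl fun i _ => ?_
    have h1 : exs (dia N) (fun _ => true) s (tip N i) = s (e i) := exs_mem (tip_mem N i)
    rw [h1]
    rfl
  simp only [hP]
  congr 2
  funext s
  congr 1
  refine hF _ _ fun x hx => ?_
  rw [exs_mem hx, exs_mem hx]

/-! ### linearity -/

section lin

variable (J a : ℝ)

theorem E0_eq (F : Config → ℝ) : E0 J a F = ev (KK (Kc / J) J 0 (disc Dia a)) (fun _ => 0)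
    (fun s => F (exs (disc Dia a) (fun _ => true) s)) := gibbs_free0 J _ _ F

theorem E0_const_mul (c : ℝ) (F : Config → ℝ) : E0 J a (fun σ => c * F σ) = c * E0 J a F := by
  rw [E0_eq, E0_eq]; exact ev_const_mul _ _ _ _

theorem E0_sum {κ : Type*} (T : Finset κ) (F : κ → Config → ℝ) :
    E0 J a (fun σ => ∑ i ∈ T, F i σ) = ∑ i ∈ T, E0 J a (F i) := by
  rw [E0_eq]
  refine (ev_sum _ _ T _).trans ?_
  exact sum_congr rfl fun i _ => (E0_eq J a (F i)).symm

theorem E0_sub (F G : Config → ℝ) : E0 J a (fun σ => F σ - G σ) = E0 J a F - E0 J a G := by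
  rw [E0_eq, E0_eq, E0_eq]; exact ev_sub _ _ _ _

theorem E0_const (c : ℝ) : E0 J a (fun _ => c) = c := by
  rw [E0_eq]; exact ev_const _ _ c

end lin

/-- the product of the rescaled spins -/
noncomputable def Xs (p : Pts) (a : ℝ) (σ : Config) : ℝ :=
  ∏ i, a ^ (-(1 / 8) : ℝ) * sp (σ (fl a (p.x i)))

/-- the energy at the `k`-th point -/
noncomputable def be (p : Pts) (a : ℝ) (k : Fin p.m) (σ : Config) : ℝ :=
  sp (σ (fl a (p.y k))) * sp (σ (fl a (p.y k) + dir (p.j k)))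

/-- the rescaled centred energy -/
noncomputable def hat (J : ℝ) (p : Pts) (a : ℝ) (k : Fin p.m) (σ : Config) : ℝ :=
  a⁻¹ * (be p a k σ - E0 J a (be p a k))

/-- the mixed correlations of the free model with some energies of `p` and spins at the tips -/
noncomputable def mixC (J : ℝ) (p : Pts) (T : Finset (Fin p.m)) (C : Finset (Fin 4)) (a : ℝ) : ℝ :=
  E0 J a fun σ => Xs p a σ * (∏ k ∈ T, hat J p a k σ) * ∏ c ∈ C, sp (σ (tip (nn a) c))

/-- the points are distinct points of `Dia` -/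
def Good0 (p : Pts) : Prop :=
  (∀ i, p.x i ∈ Dia) ∧ (∀ k, p.y k ∈ Dia) ∧ Function.Injective (Sum.elim p.x p.y)

/-- The limits of the free model with spins at the tips. -/
def TipLim (J : ℝ) : Prop := ∀ p, Good0 p → ∀ (T : Finset (Fin p.m)) (C : Finset (Fin 4)),
  ∃ r : ℝ, (C.Nonempty → r = 0) ∧ Tendsto (mixC J p T C) (𝓝[>] 0) (𝓝 r)

/-- the weights of the sets of tips -/
noncomputable def tC (a : ℝ) (C : Finset (Fin 4)) : ℝ := ∏ c ∈ C, tt (nn a) c

theorem tC_abs (a : ℝ) (C : Finset (Fin 4)) : |tC a C| ≤ 1 := by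
  unfold tC
  rw [abs_prod]
  exact prod_le_one (fun c _ => abs_nonneg _) fun c _ => tt_abs _ c

theorem PP_expand (N : ℕ) (σ : Config) :
    PP N σ = ∑ C ∈ (univ : Finset (Fin 4)).powerset, (∏ c ∈ C, tt N c) * ∏ c ∈ C, sp (σ (tip N c)) := by
  unfold PP
  rw [prod_one_add]
  exact sum_congr rfl fun C _ => prod_mul_distrib

theorem E0_PP (J a : ℝ) (G : Config → ℝ) : E0 J a (fun σ => G σ * PP (nn a) σ)
    = ∑ C ∈ (univ : Finset (Fin 4)).powerset,
      tC a C * E0 J a (fun σ => G σ * ∏ c ∈ C, sp (σ (tip (nn a) c))) := by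
  simp only [PP_expand, mul_sum]
  rw [E0_sum]
  refine sum_congr rfl fun C _ => ?_
  rw [← E0_const_mul]
  congr 1
  funext σ
  unfold tC
  ring

theorem tendsto_bdd_mul {u v : ℝ → ℝ} (hu : ∀ a, |u a| ≤ 1) (hv : Tendsto v (𝓝[>] 0) (𝓝 0)) :
    Tendsto (fun a => u a * v a) (𝓝[>] 0) (𝓝 0) := by
  refine squeeze_zero_norm (fun a => ?_) (by simpa using hv.norm)
  rw [norm_mul]
  calc ‖u a‖ * ‖v a‖ ≤ 1 * ‖v a‖ := mul_le_mul_of_nonneg_right (hu a) (norm_nonneg _)
    _ = ‖v a‖ := one_mul _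

/-- the sum over the sets of tips -/
theorem lim_tips {G : Finset (Fin 4) → ℝ → ℝ} {r : ℝ} (h0 : Tendsto (G ∅) (𝓝[>] 0) (𝓝 r))
    (h1 : ∀ C, C.Nonempty → Tendsto (G C) (𝓝[>] 0) (𝓝 0)) :
    Tendsto (fun a => ∑ C ∈ (univ : Finset (Fin 4)).powerset, tC a C * G C a) (𝓝[>] 0) (𝓝 r) := by
  have h2 : ∀ C ∈ (univ : Finset (Fin 4)).powerset,
      Tendsto (fun a => tC a C * G C a) (𝓝[>] 0) (𝓝 (if C = ∅ then r else 0)) := by
    intro C _
    split_ifs with h
    · subst h
      have : (fun a => tC a ∅ * G ∅ a) = G ∅ := by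
        funext a; simp [tC]
      rw [this]; exact h0
    · exact tendsto_bdd_mul (fun a => tC_abs a C) (h1 C (nonempty_iff_ne_empty.2 h))
  have h3 := tendsto_finsetSum _ h2
  simpa using h3

theorem E0_PP_lim {J : ℝ} (hT : TipLim J) (p : Pts) (hp : Good0 p) (T : Finset (Fin p.m)) :
    ∃ r, Tendsto (mixC J p T ∅) (𝓝[>] 0) (𝓝 r) ∧
      Tendsto (fun a => E0 J a (fun σ => (Xs p a σ * ∏ k ∈ T, hat J p a k σ) * PP (nn a) σ))
        (𝓝[>] 0) (𝓝 r) := by
  obtain ⟨r, _, hr⟩ := hT p hp T ∅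
  refine ⟨r, hr, ?_⟩
  simp only [E0_PP]
  refine lim_tips (G := fun C a => E0 J a (fun σ => Xs p a σ * (∏ k ∈ T, hat J p a k σ)
    * ∏ c ∈ C, sp (σ (tip (nn a) c)))) hr fun C hC => ?_
  obtain ⟨r', hr0, hr'⟩ := hT p hp T C
  rw [hr0 hC] at hr'
  exact hr'

theorem Z_lim {J : ℝ} (hT : TipLim J) : Tendsto (fun a => E0 J a (PP (nn a))) (𝓝[>] 0) (𝓝 1) := by
  obtain ⟨r, hr, hr'⟩ := E0_PP_lim hT ⟨0, 0, ![], ![], ![]⟩
    ⟨fun i => i.elim0, fun i => i.elim0, fun i => by rcases i with i | i <;> exact i.elim0⟩ ∅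
  have e1 : mixC J ⟨0, 0, ![], ![], ![]⟩ ∅ ∅ = fun _ => 1 := by
    funext a
    unfold mixC Xs
    simp [E0_const]
  rw [e1] at hr
  have h1 : r = 1 := tendsto_nhds_unique hr tendsto_const_nhds
  subst h1
  refine hr'.congr fun a => ?_
  congr 1
  funext σ
  unfold Xs
  simp

/-- the expectation for the alternating boundary condition -/
noncomputable def EA (J a : ℝ) (F : Config → ℝ) : ℝ := crit J Dia (some altb) a F

theorem EA_eq {J : ℝ} (hJ : 0 < J) {a : ℝ} (ha : 0 < a) (ha1 : a < 1 / 2) {F : Config → ℝ}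
    (hF : Loc (disc Dia a) F) :
    EA J a F = E0 J a (fun σ => F σ * PP (nn a) σ) / E0 J a (PP (nn a)) := by
  have hN : 1 ≤ nn a := by
    unfold nn
    have h2 : (2:ℝ) < 1 / a := by rw [lt_div_iff₀ ha]; linarith
    have h3 : (2:ℝ) < ⌈1 / a⌉₊ := h2.trans_le (Nat.le_ceil _)
    have h4 : 2 < ⌈1 / a⌉₊ := by exact_mod_cast h3
    omega
  have e1 : EA J a F = gibbs J 0 (fun _ => 0) (Kc / J) (some (alt (nn a))) (disc Dia a) F := rfl
  have e2 : disc Dia a = dia (nn a) := disc_Dia ha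
  rw [e1]
  unfold E0
  rw [e2] at hF ⊢
  exact alt_eq hJ hN hF

theorem Loc.mul {Λ : Finset Site} {F G : Config → ℝ} (hF : Loc Λ F) (hG : Loc Λ G) :
    Loc Λ fun σ => F σ * G σ := fun σ σ' h => by
  show F σ * G σ = F σ' * G σ'
  rw [hF σ σ' h, hG σ σ' h]

theorem Loc.const {Λ : Finset Site} (c : ℝ) : Loc Λ fun _ => c := fun _ _ _ => rfl

theorem Loc.sub {Λ : Finset Site} {F G : Config → ℝ} (hF : Loc Λ F) (hG : Loc Λ G) :
    Loc Λ fun σ => F σ - G σ := fun σ σ' h => by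
  show F σ - G σ = F σ' - G σ'
  rw [hF σ σ' h, hG σ σ' h]

theorem Loc.prod {Λ : Finset Site} {κ : Type*} (T : Finset κ) {F : κ → Config → ℝ}
    (hF : ∀ k ∈ T, Loc Λ (F k)) : Loc Λ fun σ => ∏ k ∈ T, F k σ := fun σ σ' h =>
  prod_congr rfl fun k hk => hF k hk σ σ' h

theorem Loc.spin {Λ : Finset Site} {x : Site} (hx : x ∈ Λ) : Loc Λ fun σ => sp (σ x) :=
  fun σ σ' h => by
    show sp (σ x) = sp (σ' x)
    rw [h x hx]

/-- for small meshes all sites are in the square -/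
theorem sites_in (p : Pts) (hp : Good0 p) : ∀ᶠ a in 𝓝[>] (0:ℝ), (∀ i, fl a (p.x i) ∈ disc Dia a) ∧
    ∀ k, fl a (p.y k) ∈ disc Dia a ∧ fl a (p.y k) + dir (p.j k) ∈ disc Dia a := by
  classical
  have hX : ∀ z ∈ univ.image p.x ∪ univ.image p.y, z ∈ Dia := by
    intro z hz
    rcases mem_union.1 hz with h | h
    · obtain ⟨i, _, rfl⟩ := mem_image.1 h
      exact hp.1 i
    · obtain ⟨i, _, rfl⟩ := mem_image.1 h
      exact hp.2.1 i
  obtain ⟨κ, hκ, hκ0⟩ := ((ev_mac hX).and self_mem_nhdsWithin).exists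
  filter_upwards [ev_sep hκ hκ0] with a hs
  refine ⟨fun i => hs.mem (mem_union_left _ (mem_image_of_mem _ (mem_univ i))), fun k => ⟨?_, ?_⟩⟩
  · exact hs.mem (mem_union_right _ (mem_image_of_mem _ (mem_univ k)))
  · refine hs.inside (p.y k) (mem_union_right _ (mem_image_of_mem _ (mem_univ k))) _ ?_
    have h2 := hs.two
    have h3 : d1 (fl a (p.y k) + dir (p.j k)) (fl a (p.y k)) = 1 := by
      unfold d1 dir
      split_ifs <;> simp
    rw [h3]
    omega

theorem EA_hat_lim {J : ℝ} (hJ : 0 < J) (hT : TipLim J) (p : Pts) (hp : Good0 p)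
    (T : Finset (Fin p.m)) : ∃ r, Tendsto (mixC J p T ∅) (𝓝[>] 0) (𝓝 r) ∧
      Tendsto (fun a => EA J a (fun σ => Xs p a σ * ∏ k ∈ T, hat J p a k σ)) (𝓝[>] 0) (𝓝 r) := by
  obtain ⟨r, hr, hr'⟩ := E0_PP_lim hT p hp T
  refine ⟨r, hr, ?_⟩
  have h1 := hr'.div (Z_lim hT) one_ne_zero
  rw [div_one] at h1
  refine h1.congr' ?_
  have hsm : ∀ᶠ a in 𝓝[>] (0:ℝ), a < 1 / 2 :=
    (eventually_lt_nhds (by norm_num : (0:ℝ) < 1 / 2)).filter_mono nhdsWithin_le_nhds
  filter_upwards [sites_in p hp, self_mem_nhdsWithin, hsm] with a hs ha ha1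
  have ha : 0 < a := ha
  refine (EA_eq hJ ha ha1 ?_).symm
  refine Loc.mul (Loc.prod _ fun i _ => (Loc.const _).mul (Loc.spin (hs.1 i))) ?_
  refine Loc.prod _ fun k _ => (Loc.const _).mul (Loc.sub ?_ (Loc.const _))
  exact (Loc.spin (hs.2 k).1).mul (Loc.spin (hs.2 k).2)

/-- The means of the energies for the alternating and the free boundary condition agree to the
order of the mesh. -/
theorem mean_lim {J : ℝ} (hJ : 0 < J) (hT : TipLim J) (p : Pts) (hp : Good0 p) (k : Fin p.m) :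
    Tendsto (fun a => a⁻¹ * (EA J a (be p a k) - E0 J a (be p a k))) (𝓝[>] 0) (𝓝 0) := by
  set q : Pts := ⟨0, p.m, ![], p.y, p.j⟩ with hq
  have hq' : Good0 q := by
    refine ⟨fun i => i.elim0, hp.2.1, ?_⟩
    intro i i' h
    rcases i with i | i
    · exact i.elim0
    rcases i' with i' | i'
    · exact i'.elim0
    have := hp.2.2 (a₁ := Sum.inr i) (a₂ := Sum.inr i') h
    exact congrArg Sum.inr (Sum.inr_injective this)
  obtain ⟨r, hr, hr'⟩ := EA_hat_lim hJ hT q hq' {k}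
  have e1 : mixC J q {k} ∅ = fun _ => 0 := by
    funext a
    unfold mixC Xs
    simp only [univ_eq_empty, prod_empty, prod_singleton, one_mul, mul_one]
    have : E0 J a (fun σ => hat J q a k σ) = a⁻¹ * (E0 J a (be q a k) - E0 J a (be q a k)) := by
      unfold hat
      rw [E0_const_mul, E0_sub, E0_const]
    rw [this, sub_self, mul_zero]
  rw [e1] at hr
  have h1 : r = 0 := tendsto_nhds_unique hr tendsto_const_nhds
  subst h1
  refine hr'.congr' ?_
  have hsm : ∀ᶠ a in 𝓝[>] (0:ℝ), a < 1 / 2 :=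
    (eventually_lt_nhds (by norm_num : (0:ℝ) < 1 / 2)).filter_mono nhdsWithin_le_nhds
  have hZ : ∀ᶠ a in 𝓝[>] (0:ℝ), 0 < E0 J a (PP (nn a)) :=
    (Z_lim hT).eventually_const_lt one_pos
  filter_upwards [sites_in p hp, self_mem_nhdsWithin, hsm, hZ] with a hs ha ha1 hZ
  have ha : 0 < a := ha
  have hloc : Loc (disc Dia a) (be p a k) := (Loc.spin (hs.2 k).1).mul (Loc.spin (hs.2 k).2)
  have hloc2 : Loc (disc Dia a) (hat J p a k) := (Loc.const _).mul (Loc.sub hloc (Loc.const _))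
  have e2 : (fun σ => Xs q a σ * ∏ k ∈ ({k} : Finset (Fin q.m)), hat J q a k σ) = hat J p a k := by
    funext σ
    unfold Xs
    simp only [univ_eq_empty, prod_empty, prod_singleton, one_mul]
    rfl
  rw [e2, EA_eq hJ ha ha1 hloc2, EA_eq hJ ha ha1 hloc]
  have e3 : E0 J a (fun σ => hat J p a k σ * PP (nn a) σ)
      = a⁻¹ * (E0 J a (fun σ => be p a k σ * PP (nn a) σ)
        - E0 J a (be p a k) * E0 J a (PP (nn a))) := by
    rw [← E0_const_mul J a (E0 J a (be p a k)), ← E0_sub, ← E0_const_mul]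
    congr 1
    funext σ
    unfold hat
    ring
  rw [e3]
  field_simp

/-- C1: from the free model with spins at the tips to the alternating boundary condition. -/
theorem all_lim_of_tips {J : ℝ} (hJ : 0 < J) (hT : TipLim J) :
    AllLim Dia (crit J Dia (some altb)) := by
  intro p hp
  have hp0 : Good0 p := ⟨hp.2.1, hp.2.2.1, hp.2.2.2⟩
  classical
  choose r hr hr' using fun T => EA_hat_lim hJ hT p hp0 T
  set δ : Fin p.m → ℝ → ℝ := fun k a => a⁻¹ * (EA J a (be p a k) - E0 J a (be p a k)) with hδ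
  have hδl : ∀ k, Tendsto (δ k) (𝓝[>] 0) (𝓝 0) := fun k => mean_lim hJ hT p hp0 k
  have hmain : Tendsto (fun a => ∑ T ∈ (univ : Finset (Fin p.m)).powerset,
      (∏ k ∈ univ \ T, (-δ k a)) * EA J a (fun σ => Xs p a σ * ∏ k ∈ T, hat J p a k σ))
      (𝓝[>] 0) (𝓝 (∑ T ∈ (univ : Finset (Fin p.m)).powerset, (∏ k ∈ univ \ T, (-(0:ℝ))) * r T)) := by
    refine tendsto_finsetSum _ fun T _ => ?_
    exact (tendsto_finsetProd _ fun k _ => (hδl k).neg).mul (hr' T)
  refine ⟨_, hmain.congr' ?_⟩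
  filter_upwards [self_mem_nhdsWithin] with a ha
  have ha : 0 < a := ha
  have hlin : ∀ (κ : Type) (S : Finset κ) (c : κ → ℝ) (F : κ → Config → ℝ),
      ∑ T ∈ S, c T * EA J a (F T) = EA J a (fun σ => ∑ T ∈ S, c T * F T σ) := by
    intro κ S c F
    unfold EA crit inDom
    simp only [Option.map_some]
    rw [gibbs_zero J _ (window_win (disc Dia a))]
    rw [show (fun s => (fun σ => ∑ T ∈ S, c T * F T σ) (exs (disc Dia a) (altb a) s))
      = fun s => ∑ T ∈ S, c T * F T (exs (disc Dia a) (altb a) s) from rfl, ev_sum]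
    refine sum_congr rfl fun T _ => ?_
    rw [gibbs_zero J _ (window_win (disc Dia a)), ev_const_mul]
  rw [hlin]
  unfold corr
  have hE : EA J a = crit J Dia (some altb) a := rfl
  rw [← hE]
  congr 1
  funext σ
  have h1 : ∏ k, a⁻¹ * (sp (σ (fl a (p.y k))) * sp (σ (fl a (p.y k) + dir (p.j k)))
      - EA J a fun τ => sp (τ (fl a (p.y k))) * sp (τ (fl a (p.y k) + dir (p.j k))))
      = ∏ k, (hat J p a k σ + -δ k a) := by
    refine prod_congr rfl fun k _ => ?_
    show a⁻¹ * (be p a k σ - EA J a (be p a k)) = hat J p a k σ + -δ k a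
    simp only [hδ, hat]
    ring
  rw [h1, prod_add, mul_sum]
  refine sum_congr rfl fun T _ => ?_
  unfold Xs
  ring

end Vale.Agent.P144.H436
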