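import Vale.Agent.P144.H436.Dis2
import Vale.Agent.P144.U.Asymp

/-!
Normalisation of the correlations in the square: from ratios of disorder correlations, and the
merging of two points, to the convergence of all rescaled correlations.
-/

namespace Vale.Agent.P144.H436

open Finset Vale.Agent.P144 Vale.Agent.P144.AL Filter Topology

/-- Spin correlations of the sites below the points of `X`. -/
noncomputable def Sn (J a : ℝ) (X : Finset ℂ) : ℝ := fcor J (disc Dia a) (X.image (fl a))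

/-- Correlations of the disorders at the faces next to the points of `X`. -/
noncomputable def Mn (a : ℝ) (X : Finset ℂ) : ℝ := MM (disc Dia a) (X.val.map (fl a))

/-! ### geometry -/

/-- the distance of sites -/
def d1 (x y : Site) : ℤ := |x.1 - y.1| + |x.2 - y.2|

theorem floor_abs (x : ℝ) : |(⌊x⌋ : ℝ)| ≤ |x| + 1 := by
  have g1 := le_abs_self x
  have g2 := neg_abs_le x
  have h1 := Int.floor_le x
  have h2 := Int.lt_floor_add_one x
  rw [abs_le]; constructor <;> linarith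

theorem floor_sub_abs (x y : ℝ) : |x - y| - 1 ≤ |((⌊x⌋ - ⌊y⌋ : ℤ) : ℝ)| := by
  have h1 := Int.floor_le x
  have h2 := Int.lt_floor_add_one x
  have h3 := Int.floor_le y
  have h4 := Int.lt_floor_add_one y
  push_cast
  have g1 := le_abs_self ((⌊x⌋ : ℝ) - ⌊y⌋)
  have g2 := neg_abs_le ((⌊x⌋ : ℝ) - ⌊y⌋)
  have h5 : |x - y| ≤ |(⌊x⌋ : ℝ) - ⌊y⌋| + 1 := by
    rw [abs_le]; constructor <;> linarith
  linarith

theorem fl_box {a : ℝ} (ha : 0 < a) (z : ℂ) :
    (|(fl a z).1| + |(fl a z).2| : ℤ) ≤ (|z.re| + |z.im|) / a + 2 := by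
  have h1 := floor_abs (z.re / a)
  have h2 := floor_abs (z.im / a)
  rw [abs_div, abs_of_pos ha] at h1 h2
  show (((|⌊z.re / a⌋| + |⌊z.im / a⌋| : ℤ)) : ℝ) ≤ _
  push_cast
  rw [add_div]
  linarith

theorem fl_dist {a : ℝ} (ha : 0 < a) (z w : ℂ) :
    (|z.re - w.re| + |z.im - w.im|) / a - 2 ≤ (d1 (fl a z) (fl a w) : ℤ) := by
  have h1 := floor_sub_abs (z.re / a) (w.re / a)
  have h2 := floor_sub_abs (z.im / a) (w.im / a)
  rw [← sub_div, abs_div, abs_of_pos ha] at h1 h2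
  show _ ≤ (((|⌊z.re / a⌋ - ⌊w.re / a⌋| + |⌊z.im / a⌋ - ⌊w.im / a⌋| : ℤ)) : ℝ)
  push_cast at h1 h2 ⊢
  rw [add_div]
  linarith

/-- the microscopic separation -/
structure Sep (X : Finset ℂ) (κ a : ℝ) : Prop where
  two : 2 ≤ ⌊κ / a⌋₊
  lower : κ / (2 * a) ≤ (⌊κ / a⌋₊ : ℝ)
  inside : ∀ z ∈ X, ∀ w : Site, d1 w (fl a z) ≤ ⌊κ / a⌋₊ → w ∈ disc Dia a
  apart : ∀ z ∈ X, ∀ z' ∈ X, z ≠ z' → 2 * (⌊κ / a⌋₊ : ℤ) < d1 (fl a z) (fl a z')

/-- macroscopic separation -/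
def Mac (X : Finset ℂ) (κ : ℝ) : Prop :=
  (∀ z ∈ X, |z.re| + |z.im| + 2 * κ ≤ 1) ∧
    ∀ z ∈ X, ∀ z' ∈ X, z ≠ z' → 4 * κ ≤ |z.re - z'.re| + |z.im - z'.im|

theorem abs_pos_of_ne {z w : ℂ} (h : z ≠ w) : 0 < |z.re - w.re| + |z.im - w.im| := by
  by_contra hc
  push Not at hc
  have h1 := abs_nonneg (z.re - w.re)
  have h2 := abs_nonneg (z.im - w.im)
  have h3 : z.re - w.re = 0 := abs_eq_zero.1 (by linarith)
  have h4 : z.im - w.im = 0 := abs_eq_zero.1 (by linarith)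
  exact h (Complex.ext (by linarith) (by linarith))

theorem ev_mac {X : Finset ℂ} (hX : ∀ z ∈ X, z ∈ Dia) : ∀ᶠ κ in 𝓝[>] (0:ℝ), Mac X κ := by
  have h1 : ∀ c : ℝ, 0 < c → ∀ᶠ κ in 𝓝[>] (0:ℝ), 4 * κ ≤ c := by
    intro c hc
    have : ∀ᶠ κ in 𝓝 (0:ℝ), 4 * κ < c := by
      have hcont : Continuous fun κ : ℝ => 4 * κ := by fun_prop
      exact hcont.continuousAt.eventually_lt_const (by simpa using hc)
    exact (this.filter_mono nhdsWithin_le_nhds).mono fun κ h => h.le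
  refine Filter.Eventually.and ?_ ?_
  · rw [Filter.eventually_all_finset]
    intro z hz
    have hz' : |z.re| + |z.im| < 1 := hX z hz
    filter_upwards [h1 (1 - |z.re| - |z.im|) (by linarith), self_mem_nhdsWithin] with κ hκ hκ0
    have : 0 < κ := hκ0
    linarith
  · rw [Filter.eventually_all_finset]
    intro z _
    rw [Filter.eventually_all_finset]
    intro z' _
    by_cases h : z = z'
    · exact Eventually.of_forall fun κ h' => absurd h h'
    · filter_upwards [h1 _ (abs_pos_of_ne h)] with κ hκ _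
      exact hκ

theorem Mac.sep {X : Finset ℂ} {κ : ℝ} (h : Mac X κ) (hκ : 0 < κ) {a : ℝ} (ha : 0 < a)
    (haκ : a ≤ κ / 8) : Sep X κ a := by
  have h8 : 8 ≤ κ / a := by rw [le_div_iff₀ ha]; linarith
  have hfl := Nat.floor_le (show 0 ≤ κ / a by positivity)
  have hfl2 := Nat.lt_floor_add_one (κ / a)
  refine ⟨Nat.le_floor (by push_cast; linarith), ?_, ?_, ?_⟩
  · have e : κ / (2 * a) = κ / a / 2 := by field_simp
    rw [e]
    linarith
  · intro z hz w hw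
    rw [disc_Dia ha, mem_dia]
    have h1 := fl_box ha z
    have h2 := h.1 z hz
    have h3 : (|w.1| + |w.2| : ℤ) ≤ d1 w (fl a z) + (|(fl a z).1| + |(fl a z).2|) := by
      unfold d1
      have a1 := abs_sub_abs_le_abs_sub w.1 (fl a z).1
      have a2 := abs_sub_abs_le_abs_sub w.2 (fl a z).2
      linarith
    have h4 : ((|w.1| + |w.2| : ℤ) : ℝ) ≤ κ / a + ((|z.re| + |z.im|) / a + 2) := by
      have b1 : ((|w.1| + |w.2| : ℤ) : ℝ)
          ≤ ((d1 w (fl a z) + (|(fl a z).1| + |(fl a z).2|) : ℤ) : ℝ) := by exact_mod_cast h3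
      have b2 : ((d1 w (fl a z) : ℤ) : ℝ) ≤ (⌊κ / a⌋₊ : ℝ) := by exact_mod_cast hw
      push_cast at b1 h1 ⊢
      linarith
    have h5 : ((|w.1| + |w.2| : ℤ) : ℝ) + 1 < 1 / a := by
      have e : (1:ℝ) / a = (|z.re| + |z.im|) / a + κ / a + (1 - |z.re| - |z.im| - κ) / a := by
        field_simp; ring
      have h6 : 8 ≤ (1 - |z.re| - |z.im| - κ) / a := by
        rw [le_div_iff₀ ha]; linarith
      rw [e]
      linarith
    have h7 : 1 / a ≤ (⌈1 / a⌉₊ : ℝ) := Nat.le_ceil _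
    have h8 : ((|w.1| + |w.2| : ℤ) : ℝ) + 1 < (⌈1 / a⌉₊ : ℝ) := lt_of_lt_of_le h5 h7
    have h9 : (|w.1| + |w.2| : ℤ) + 1 < (⌈1 / a⌉₊ : ℤ) := by exact_mod_cast h8
    omega
  · intro z hz z' hz' hzz
    have h1 := fl_dist ha z z'
    have h2 := h.2 z hz z' hz' hzz
    have h3 : 2 * (⌊κ / a⌋₊ : ℝ) < (d1 (fl a z) (fl a z') : ℤ) := by
      have : 4 * κ / a ≤ (|z.re - z'.re| + |z.im - z'.im|) / a :=
        div_le_div_of_nonneg_right h2 ha.le
      have e : 4 * κ / a = 4 * (κ / a) := by ring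
      linarith
    exact_mod_cast h3

theorem ev_sep {X : Finset ℂ} {κ : ℝ} (h : Mac X κ) (hκ : 0 < κ) :
    ∀ᶠ a in 𝓝[>] (0:ℝ), Sep X κ a := by
  have h1 : ∀ᶠ a in 𝓝[>] (0:ℝ), a ≤ κ / 8 :=
    (eventually_le_nhds (by positivity : (0:ℝ) < κ / 8)).filter_mono nhdsWithin_le_nhds
  filter_upwards [h1, self_mem_nhdsWithin] with a h1 h2
  exact h.sep hκ h2 h1

theorem Sep.inj {X : Finset ℂ} {κ a : ℝ} (h : Sep X κ a) : Set.InjOn (fl a) X := by
  intro z hz z' hz' e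
  by_contra hne
  have := h.apart z hz z' hz' hne
  rw [e] at this
  have h0 : d1 (fl a z') (fl a z') = 0 := by simp [d1]
  rw [h0] at this
  have := h.two
  omega

theorem Sep.mem {X : Finset ℂ} {κ a : ℝ} (h : Sep X κ a) {z : ℂ} (hz : z ∈ X) :
    fl a z ∈ disc Dia a := by
  refine h.inside z hz _ ?_
  have h0 : d1 (fl a z) (fl a z) = 0 := by simp [d1]
  rw [h0]
  positivity

/-! ### upper bounds -/

theorem Mn_insert {a : ℝ} {z : ℂ} {X : Finset ℂ} (hz : z ∉ X) :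
    Mn a (insert z X) = MM (disc Dia a) (fl a z ::ₘ X.val.map (fl a)) := by
  unfold Mn
  rw [Finset.insert_val_of_notMem hz, Multiset.map_cons]

theorem Mn_pair {a : ℝ} {z w : ℂ} (h : z ≠ w) :
    Mn a {z, w} = MM (disc Dia a) (fl a z ::ₘ fl a w ::ₘ 0) := by
  rw [Mn_insert (by simpa using h)]
  rfl

theorem Sn_pair {J a : ℝ} (z w : ℂ) :
    Sn J a {z, w} = fcor J (disc Dia a) {fl a z, fl a w} := by
  unfold Sn
  rw [Finset.image_insert, Finset.image_singleton]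

theorem MM_le_one (Λ : Finset Site) (R : Multiset Site) : MM Λ R ≤ 1 := by
  refine (MM_anti (empty_subset Λ) R).trans (le_of_eq ?_)
  unfold MM AL.QQ NG WW
  have h1 : hor ∅ = ∅ := rfl
  have h2 : ver ∅ = ∅ := rfl
  simp [h1, h2, spn_zero]

theorem mem_dia_tr {L : ℕ} {v w : Site} : w ∈ (dia L).map (tr v).toEmbedding ↔ d1 w v ≤ L := by
  rw [Finset.mem_map]
  constructor
  · rintro ⟨y, hy, rfl⟩
    rw [mem_dia] at hy
    show |(y + v).1 - v.1| + |(y + v).2 - v.2| ≤ _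
    simpa using hy
  · intro h
    refine ⟨w - v, ?_, sub_add_cancel w v⟩
    rw [mem_dia]
    exact h

theorem MM_one_tr (L : ℕ) (v : Site) :
    MM ((dia L).map (tr v).toEmbedding) {v} = MM (dia L) {0} := by
  rw [← MM_tr v (dia L) {0}]
  congr 1
  show {v} = Multiset.map (tr v) {0}
  rw [Multiset.map_singleton]
  congr 1
  exact (zero_add v).symm

theorem fcor_diag_le {J : ℝ} (hJ : 0 < J) {Λ : Finset Site} {k : ℕ} (hk : 1 ≤ k)
    (h0 : ((0 : ℤ), (0 : ℤ)) ∈ Λ) (h1 : ((k : ℤ), (k : ℤ)) ∈ Λ) :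
    fcor J Λ {(0, 0), ((k : ℤ), (k : ℤ))} ≤ Dg k := by
  refine ge_of_tendsto (fcor_box_diag hJ hk) ?_
  filter_upwards [subset_box Λ] with M hM
  refine fcor_mono hJ hM ?_
  intro x hx
  rw [Finset.mem_insert, Finset.mem_singleton] at hx
  rcases hx with rfl | rfl <;> assumption

/-- The merging hypothesis. -/
def Merge (J : ℝ) : Prop := ∀ z ∈ Dia, ∀ ε > 0, ∃ t₀ > 0, ∀ t : ℝ, 0 < t → t < t₀ →
  ∀ᶠ a in 𝓝[>] (0:ℝ), (1 - ε) * Mn a {z, z + ⟨t, t⟩} ≤ Sn J a {z, z + ⟨t, t⟩}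

theorem fl_zero (a : ℝ) : fl a 0 = (0, 0) := by
  unfold fl; simp

theorem fl_diag {a t : ℝ} (ha : 0 < a) (ht : 0 < t) :
    fl a (0 + ⟨t, t⟩) = ((⌊t / a⌋₊ : ℤ), (⌊t / a⌋₊ : ℤ)) := by
  have h : ((⌊t / a⌋₊ : ℕ) : ℤ) = ⌊t / a⌋ := Int.natCast_floor_eq_floor (by positivity)
  unfold fl
  simp [h]

theorem ne_diag {t : ℝ} (ht : 0 < t) (z : ℂ) : z ≠ z + ⟨t, t⟩ := by
  intro h
  have := congrArg Complex.re h
  simp at this
  linarith

/-- One disorder in a diamond. -/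
theorem M1_bound {J : ℝ} (hJ : 0 < J) (hm : Merge J) : ∃ C : ℝ, 0 < C ∧ ∃ L₀ : ℕ, ∀ L ≥ L₀,
    MM (dia L) {0} ≤ C * (L : ℝ) ^ (-(1 / 8) : ℝ) := by
  obtain ⟨t₀, ht₀, h1⟩ := hm 0 Dia_zero (1 / 2) (by norm_num)
  obtain ⟨B, hB, hDg⟩ := Dg_bound Dg_asymp
  set t : ℝ := min t₀ (1 / 4) / 2 with ht
  have ht0 : 0 < t := by positivity
  have htt : t < t₀ := by
    have := min_le_left t₀ (1 / 4); rw [ht]; linarith
  have ht4 : t ≤ 1 / 8 := by
    have := min_le_right t₀ (1 / 4); rw [ht]; linarith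
  have h2 := h1 t ht0 htt
  have htend : Tendsto (fun n : ℕ => 1 / ((n : ℝ) + 1)) atTop (𝓝[>] 0) := by
    refine tendsto_nhdsWithin_iff.2 ⟨tendsto_one_div_add_atTop_nhds_zero_nat, ?_⟩
    exact Eventually.of_forall fun n => by
      show (0:ℝ) < 1 / (n + 1); positivity
  have h3 := htend.eventually h2
  obtain ⟨N₀, hN₀⟩ := eventually_atTop.1 h3
  obtain ⟨N₁, hN₁⟩ := exists_nat_gt (4 / t)
  -- the bound for `dia (2 N)`
  have key : ∀ N : ℕ, N₀ ≤ N → N₁ ≤ N →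
      MM (dia (2 * N)) {0} ^ 2 ≤ 2 * B * (t * N / 2) ^ (-(1 / 4) : ℝ) := by
    intro N hN hN'
    have h4 := hN₀ N hN
    set a : ℝ := 1 / ((N : ℝ) + 1) with ha
    have ha0 : 0 < a := by positivity
    have hdisc : disc Dia a = dia N := by
      rw [disc_Dia ha0]
      congr 1
      have : 1 / a = ((N + 1 : ℕ) : ℝ) := by rw [ha]; push_cast; field_simp
      rw [this, Nat.ceil_natCast]
      omega
    rw [Mn_pair (ne_diag ht0 0), Sn_pair, fl_zero, fl_diag ha0 ht0, hdisc] at h4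
    set k : ℕ := ⌊t / a⌋₊ with hk
    have hta : t / a = t * (N + 1) := by rw [ha]; field_simp
    have hNr : 4 / t < N := lt_of_lt_of_le hN₁ (by exact_mod_cast hN')
    have hNt : 4 < t * N := by rw [div_lt_iff₀ ht0] at hNr; linarith
    have hk1 : t * N / 2 ≤ k := by
      have := Nat.lt_floor_add_one (t / a)
      rw [← hk, hta] at this
      linarith
    have hk2 : (k : ℝ) ≤ (N + 1) / 8 := by
      have := Nat.floor_le (show 0 ≤ t / a by positivity)
      rw [← hk, hta] at this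
      have h5 : t * (N + 1) ≤ 1 / 8 * (N + 1) := mul_le_mul_of_nonneg_right ht4 (by positivity)
      linarith
    have hk0 : 1 ≤ k := by
      have : (0:ℝ) < k := by linarith
      exact_mod_cast this
    have hN8 : (1:ℝ) ≤ N := by
      have h5 : (32:ℝ) ≤ 4 / t := by rw [le_div_iff₀ ht0]; linarith
      linarith
    have hkN : 2 * k ≤ N := by
      have : (2 * k : ℝ) ≤ N := by linarith
      exact_mod_cast this
    have hkmem : ((k : ℤ), (k : ℤ)) ∈ dia N := by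
      rw [mem_dia]
      simp only [Nat.abs_cast]
      omega
    have h0mem : ((0 : ℤ), (0 : ℤ)) ∈ dia N := by rw [mem_dia]; simp
    have h5 := fcor_diag_le hJ hk0 h0mem hkmem
    have h6 := hDg k hk0
    have h7 : MM (dia N) (((0 : ℤ), (0 : ℤ)) ::ₘ ((k : ℤ), (k : ℤ)) ::ₘ 0)
        ≤ 2 * B * (k : ℝ) ^ (-(1 / 4) : ℝ) := by linarith
    have h8 : (k : ℝ) ^ (-(1 / 4) : ℝ) ≤ (t * N / 2) ^ (-(1 / 4) : ℝ) :=
      Real.rpow_le_rpow_of_nonpos (by positivity) hk1 (by norm_num)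
    have h9 := MM_gks (dia N) {((0 : ℤ), (0 : ℤ))} {((k : ℤ), (k : ℤ))}
    have e9 : ({((0 : ℤ), (0 : ℤ))} : Multiset Site) + {((k : ℤ), (k : ℤ))}
        = ((0 : ℤ), (0 : ℤ)) ::ₘ ((k : ℤ), (k : ℤ)) ::ₘ 0 := by
      rw [Multiset.singleton_add]; rfl
    rw [e9] at h9
    have h10 : MM (dia (2 * N)) {0} ≤ MM (dia N) {((0 : ℤ), (0 : ℤ))} := by
      refine MM_anti ?_ _
      intro x hx
      rw [mem_dia] at hx ⊢
      push_cast; linarith
    have h11 : MM (dia (2 * N)) {0} ≤ MM (dia N) {((k : ℤ), (k : ℤ))} := by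
      rw [← MM_one_tr (2 * N) ((k : ℤ), (k : ℤ))]
      refine MM_anti ?_ _
      intro x hx
      rw [mem_dia] at hx
      rw [mem_dia_tr]
      unfold d1
      have a1 := abs_sub x.1 (k : ℤ)
      have a2 := abs_sub x.2 (k : ℤ)
      rw [Nat.abs_cast] at a1 a2
      push_cast
      omega
    have h12 := MM_pos (dia (2 * N)) {0}
    have h13 : MM (dia (2 * N)) {0} ^ 2 ≤ MM (dia N) {((0 : ℤ), (0 : ℤ))}
        * MM (dia N) {((k : ℤ), (k : ℤ))} := by
      rw [sq]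
      exact mul_le_mul h10 h11 h12.le (h12.le.trans h10)
    have h14 : 2 * B * (k : ℝ) ^ (-(1 / 4) : ℝ) ≤ 2 * B * (t * N / 2) ^ (-(1 / 4) : ℝ) :=
      mul_le_mul_of_nonneg_left h8 (by positivity)
    linarith
  refine ⟨√(2 * B) * (t / 6) ^ (-(1 / 8) : ℝ), by positivity, 2 * (N₀ + N₁) + 2, ?_⟩
  intro L hL
  obtain ⟨N, hN⟩ : ∃ N, N = L / 2 := ⟨_, rfl⟩
  have hN0 : N₀ ≤ N := by omega
  have hN1 : N₁ ≤ N := by omega
  have hN2 : 2 * N ≤ L := by omega
  have hN3 : L ≤ 3 * N := by omega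
  have hNpos : 1 ≤ N := by omega
  have h1 := key N hN0 hN1
  have h2 : MM (dia L) {0} ≤ MM (dia (2 * N)) {0} := by
    refine MM_anti ?_ _
    intro x hx
    rw [mem_dia] at hx ⊢
    have : ((2 * N : ℕ) : ℤ) ≤ L := by exact_mod_cast hN2
    linarith
  refine h2.trans ?_
  have hNr : (0:ℝ) < N := by exact_mod_cast hNpos
  have hLr : (0:ℝ) < L := by
    have : 0 < L := by omega
    exact_mod_cast this
  have h3 : (t * N / 2) ^ (-(1 / 4) : ℝ) = ((t * N / 2) ^ (-(1 / 8) : ℝ)) ^ 2 := by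
    rw [← Real.rpow_natCast, ← Real.rpow_mul (by positivity)]
    norm_num
  rw [h3] at h1
  have h4 : MM (dia (2 * N)) {0} ≤ √(2 * B) * (t * N / 2) ^ (-(1 / 8) : ℝ) := by
    refine abs_le_of_sq_le_sq' ?_ (by positivity) |>.2
    rw [mul_pow, Real.sq_sqrt (by positivity)]
    exact h1
  refine h4.trans ?_
  rw [mul_assoc]
  refine mul_le_mul_of_nonneg_left ?_ (by positivity)
  rw [← Real.mul_rpow (by positivity) hLr.le]
  refine Real.rpow_le_rpow_of_nonpos (by positivity) ?_ (by norm_num)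
  have : (L : ℝ) ≤ 3 * N := by exact_mod_cast hN3
  have := mul_le_mul_of_nonneg_left this ht0.le
  linarith

theorem MM_out_all {Λ : Finset Site} {R' : Multiset Site}
    (h : ∀ f ∈ R', (∀ x ∈ hor Λ, x.1 = f.1 → x.2 ≤ f.2) ∨ ∀ x ∈ hor Λ, x.1 = f.1 → f.2 < x.2)
    (R : Multiset Site) : MM Λ (R' + R) = MM Λ R := by
  induction R' using Multiset.induction_on with
  | empty => rw [zero_add]
  | cons f R' ih =>
    rw [Multiset.cons_add, MM_out (h f (Multiset.mem_cons_self f R')),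
      ih fun g hg => h g (Multiset.mem_cons_of_mem hg)]

/-- a site outside of a diamond is above or below it -/
theorem out_dia {L : ℕ} {v f : Site} (h : (L : ℤ) < d1 f v) :
    (∀ x ∈ hor ((dia L).map (tr v).toEmbedding), x.1 = f.1 → x.2 ≤ f.2) ∨
      ∀ x ∈ hor ((dia L).map (tr v).toEmbedding), x.1 = f.1 → f.2 < x.2 := by
  unfold d1 at h
  rcases le_total v.2 f.2 with hv | hv
  · left
    intro x hx hx1
    have h1 := mem_dia_tr.1 (mem_hor.1 hx).1
    unfold d1 at h1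
    rw [hx1] at h1
    rw [abs_of_nonneg (by omega : 0 ≤ f.2 - v.2)] at h
    have := le_abs_self (x.2 - v.2)
    omega
  · right
    intro x hx hx1
    have h1 := mem_dia_tr.1 (mem_hor.1 hx).1
    unfold d1 at h1
    rw [hx1] at h1
    rw [abs_of_nonpos (by omega : f.2 - v.2 ≤ 0)] at h
    have := neg_abs_le (x.2 - v.2)
    omega

/-- Upper bound for the correlations of disorders. -/
theorem Mn_upper {J : ℝ} (hJ : 0 < J) (hm : Merge J) (X : Finset ℂ) (hX : ∀ z ∈ X, z ∈ Dia) :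
    ∃ C : ℝ, 0 < C ∧ ∀ᶠ a in 𝓝[>] (0:ℝ), a ^ (-(X.card : ℝ) / 8) * Mn a X ≤ C := by
  classical
  obtain ⟨C, hC, L₀, hL₀⟩ := M1_bound hJ hm
  obtain ⟨κ, hκ, hκ0⟩ := ((ev_mac hX).and self_mem_nhdsWithin).exists
  have hκ0 : 0 < κ := hκ0
  refine ⟨(C * (κ / 2) ^ (-(1 / 8) : ℝ)) ^ X.card, by positivity, ?_⟩
  have hsmall : ∀ᶠ a in 𝓝[>] (0:ℝ), a ≤ κ / (2 * (L₀ + 1)) :=
    (eventually_le_nhds (by positivity : (0:ℝ) < κ / (2 * (L₀ + 1)))).filter_mono
      nhdsWithin_le_nhds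
  filter_upwards [ev_sep hκ hκ0, self_mem_nhdsWithin, hsmall] with a hs ha hsm
  have ha : 0 < a := ha
  set L := ⌊κ / a⌋₊ with hL
  have hLL : L₀ ≤ L := by
    have h1 : ((L₀ : ℝ) + 1) ≤ κ / (2 * a) := by
      rw [le_div_iff₀ (by positivity)]
      rw [le_div_iff₀ (by positivity)] at hsm
      linarith
    have h2 := hs.lower
    have h3 : (L₀ : ℝ) ≤ L := by linarith
    exact_mod_cast h3
  have h1 : Mn a X ≤ ∏ z ∈ X, MM ((dia L).map (tr (fl a z)).toEmbedding) (X.val.map (fl a)) := by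
    refine MM_le_prod X (fun z => (dia L).map (tr (fl a z)).toEmbedding) ?_ ?_ _
    · intro z hz w hw
      exact hs.inside z hz w (mem_dia_tr.1 hw)
    · intro z hz z' hz' hne
      rw [Finset.disjoint_left]
      intro w h1 h2
      rw [mem_dia_tr] at h1 h2
      have h3 := hs.apart z hz z' hz' hne
      unfold d1 at h1 h2 h3
      have a1 := abs_sub_le (fl a z).1 w.1 (fl a z').1
      have a2 := abs_sub_le (fl a z).2 w.2 (fl a z').2
      rw [abs_sub_comm (fl a z).1 w.1] at a1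
      rw [abs_sub_comm (fl a z).2 w.2] at a2
      omega
  have h2 : ∀ z ∈ X, MM ((dia L).map (tr (fl a z)).toEmbedding) (X.val.map (fl a))
      = MM (dia L) {0} := by
    intro z hz
    have e : X.val.map (fl a) = (X.erase z).val.map (fl a) + {fl a z} := by
      conv_lhs => rw [← Finset.insert_erase hz]
      rw [Finset.insert_val_of_notMem (Finset.notMem_erase z X), Multiset.map_cons, add_comm,
        Multiset.singleton_add]
    rw [e, MM_out_all, MM_one_tr]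
    intro f hf
    rw [Multiset.mem_map] at hf
    obtain ⟨z', hz', rfl⟩ := hf
    have hz'' : z' ≠ z ∧ z' ∈ X := Finset.mem_erase.1 hz'
    refine out_dia ?_
    have h3 := hs.apart z' hz''.2 z hz hz''.1
    have : (0:ℤ) ≤ L := by positivity
    omega
  rw [prod_congr rfl h2, prod_const] at h1
  have h3 := hL₀ L hLL
  have h4 : (L : ℝ) ^ (-(1 / 8) : ℝ) ≤ (κ / 2) ^ (-(1 / 8) : ℝ) * a ^ (1 / 8 : ℝ) := by
    have h5 : (L : ℝ) ^ (-(1 / 8) : ℝ) ≤ (κ / (2 * a)) ^ (-(1 / 8) : ℝ) :=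
      Real.rpow_le_rpow_of_nonpos (by positivity) hs.lower (by norm_num)
    refine h5.trans (le_of_eq ?_)
    have e : κ / (2 * a) = κ / 2 * a⁻¹ := by field_simp
    rw [e, Real.mul_rpow (by positivity) (by positivity), Real.inv_rpow ha.le,
      ← Real.rpow_neg ha.le, neg_neg]
  have h5 : MM (dia L) {0} ≤ C * (κ / 2) ^ (-(1 / 8) : ℝ) * a ^ (1 / 8 : ℝ) := by
    refine h3.trans ?_
    rw [mul_assoc]
    exact mul_le_mul_of_nonneg_left h4 hC.le
  have h6 : Mn a X ≤ (C * (κ / 2) ^ (-(1 / 8) : ℝ) * a ^ (1 / 8 : ℝ)) ^ X.card :=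
    h1.trans (pow_le_pow_left₀ (MM_pos _ _).le h5 _)
  have h7 : (a ^ (1 / 8 : ℝ)) ^ X.card = a ^ ((X.card : ℝ) / 8) := by
    rw [← Real.rpow_natCast, ← Real.rpow_mul ha.le]
    congr 1
    ring
  rw [mul_pow, h7] at h6
  calc a ^ (-(X.card : ℝ) / 8) * Mn a X
      ≤ a ^ (-(X.card : ℝ) / 8) * ((C * (κ / 2) ^ (-(1 / 8) : ℝ)) ^ X.card
        * a ^ ((X.card : ℝ) / 8)) := mul_le_mul_of_nonneg_left h6 (by positivity)
    _ = (C * (κ / 2) ^ (-(1 / 8) : ℝ)) ^ X.card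
        * (a ^ (-(X.card : ℝ) / 8) * a ^ ((X.card : ℝ) / 8)) := by ring
    _ = _ := by
      rw [← Real.rpow_add ha]
      have : -(X.card : ℝ) / 8 + (X.card : ℝ) / 8 = 0 := by ring
      rw [this, Real.rpow_zero, mul_one]

/-- Upper bound for the correlations of spins. -/
theorem Sn_upper {J : ℝ} (hJ : 0 < J) (X : Finset ℂ) (hX : ∀ z ∈ X, z ∈ Dia) :
    ∃ C : ℝ, 0 < C ∧ ∀ᶠ a in 𝓝[>] (0:ℝ), a ^ (-(X.card : ℝ) / 8) * Sn J a X ≤ C := by
  classical
  obtain ⟨C, hC, hup⟩ := fcor_upper hJ (fun k hk => fcor_box_diag hJ hk) Dg_asymp X.card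
  obtain ⟨κ, hκ, hκ0⟩ := ((ev_mac hX).and self_mem_nhdsWithin).exists
  have hκ0 : 0 < κ := hκ0
  refine ⟨(C + 1) * (κ / 2) ^ (-(X.card : ℝ) / 8), by positivity, ?_⟩
  filter_upwards [ev_sep hκ hκ0, self_mem_nhdsWithin] with a hs ha
  have ha : 0 < a := ha
  set L := ⌊κ / a⌋₊ with hL
  have h1 : Sn J a X ≤ C * (L : ℝ) ^ (-(X.card : ℝ) / 8) := by
    refine hup _ _ L ?_ (Finset.card_image_of_injOn hs.inj) hs.two ?_
    · intro w hw
      rw [Finset.mem_image] at hw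
      obtain ⟨z, hz, rfl⟩ := hw
      exact hs.mem hz
    · intro u hu v hv huv
      rw [Finset.mem_image] at hu hv
      obtain ⟨z, hz, rfl⟩ := hu
      obtain ⟨z', hz', rfl⟩ := hv
      have h3 := hs.apart z hz z' hz' (fun h => huv (by rw [h]))
      unfold d1 at h3
      omega
  have h4 : (L : ℝ) ^ (-(X.card : ℝ) / 8)
      ≤ (κ / 2) ^ (-(X.card : ℝ) / 8) * a ^ ((X.card : ℝ) / 8) := by
    have h0 : (-(X.card : ℝ) / 8) ≤ 0 := by
      have : (0:ℝ) ≤ X.card := by positivity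
      linarith
    have h5 : (L : ℝ) ^ (-(X.card : ℝ) / 8) ≤ (κ / (2 * a)) ^ (-(X.card : ℝ) / 8) :=
      Real.rpow_le_rpow_of_nonpos (by positivity) hs.lower h0
    refine h5.trans (le_of_eq ?_)
    have e : κ / (2 * a) = κ / 2 * a⁻¹ := by field_simp
    rw [e, Real.mul_rpow (by positivity) (by positivity), Real.inv_rpow ha.le,
      ← Real.rpow_neg ha.le]
    congr 2
    ring
  calc a ^ (-(X.card : ℝ) / 8) * Sn J a X
      ≤ a ^ (-(X.card : ℝ) / 8) * ((C + 1) * ((κ / 2) ^ (-(X.card : ℝ) / 8)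
        * a ^ ((X.card : ℝ) / 8))) := by
        refine mul_le_mul_of_nonneg_left (h1.trans ?_) (by positivity)
        exact mul_le_mul (by linarith) h4 (by positivity) (by linarith)
    _ = (C + 1) * (κ / 2) ^ (-(X.card : ℝ) / 8)
        * (a ^ (-(X.card : ℝ) / 8) * a ^ ((X.card : ℝ) / 8)) := by ring
    _ = _ := by
      rw [← Real.rpow_add ha]
      have : -(X.card : ℝ) / 8 + (X.card : ℝ) / 8 = 0 := by ring
      rw [this, Real.rpow_zero, mul_one]

end Vale.Agent.P144.H436
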