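import Vale.Agent.P144.H436.Path2
import Mathlib.Analysis.Normed.Module.Connected
import Mathlib.LinearAlgebra.Complex.FiniteDimensional

/-!
Ratios of disorder correlations converge.
-/

namespace Vale.Agent.P144.H436

open Finset Vale.Agent.P144 Vale.Agent.P144.AL Filter Topology

section rel

variable {n : ℕ} {ρ : Fin n → ℂ}

/-- the ratio of the disorder correlations when one point moves from `z` to `w` -/
noncomputable def qr (ρ : Fin n → ℂ) (z w : ℂ) (a : ℝ) : ℝ :=
  AL.QQ (dia (nn a)) (fl a w ::ₘ fam fun p => fl a (ρ p)) 0 /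
    AL.QQ (dia (nn a)) (fl a z ::ₘ fam fun p => fl a (ρ p)) 0

/-- the ratio has a positive limit -/
def Rl (ρ : Fin n → ℂ) (z w : ℂ) : Prop := ∃ q > 0, Tendsto (qr ρ z w) (𝓝[>] 0) (𝓝 q)

theorem Rl.symm {z w : ℂ} (h : Rl ρ z w) : Rl ρ w z := by
  obtain ⟨q, hq, h⟩ := h
  refine ⟨q⁻¹, inv_pos.2 hq, (h.inv₀ hq.ne').congr fun a => ?_⟩
  unfold qr
  rw [inv_div]

theorem Rl.trans {z w v : ℂ} (h : Rl ρ z w) (h' : Rl ρ w v) : Rl ρ z v := by
  obtain ⟨q, hq, h⟩ := h
  obtain ⟨q', hq', h'⟩ := h'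
  refine ⟨q * q', mul_pos hq hq', (h.mul h').congr fun a => ?_⟩
  unfold qr
  have h1 := (QQ_pos (dia (nn a)) (fl a w ::ₘ fam fun p => fl a (ρ p))).ne'
  have h2 := (QQ_pos (dia (nn a)) (fl a z ::ₘ fam fun p => fl a (ρ p))).ne'
  field_simp

theorem floor_diff (x y k : ℝ) (m : ℕ) (d : ℤ) (hm : |(m : ℝ) - k| ≤ 1)
    (h : y = x + k * d) : |(⌊y⌋ - (⌊x⌋ + m • d) : ℤ)| ≤ |d| + 2 := by
  have h1 := floor_near x
  have h2 := floor_near y
  have h3 : |((⌊y⌋ - (⌊x⌋ + m • d) : ℤ) : ℝ)| ≤ |(d : ℝ)| + 2 := by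
    have e : ((⌊y⌋ - (⌊x⌋ + m • d) : ℤ) : ℝ) = (⌊y⌋ - y) - (⌊x⌋ - x) - ((m : ℝ) - k) * d := by
      push_cast
      rw [nsmul_eq_mul, h]
      push_cast
      ring
    rw [e]
    calc _ ≤ |(⌊y⌋ - y) - (⌊x⌋ - x)| + |((m : ℝ) - k) * d| := abs_sub _ _
      _ ≤ (|(⌊y⌋ : ℝ) - y| + |(⌊x⌋ : ℝ) - x|) + |(m : ℝ) - k| * |(d : ℝ)| := by
        rw [abs_mul]
        exact add_le_add (abs_sub _ _) le_rfl
      _ ≤ (1 + 1) + 1 * |(d : ℝ)| :=
        add_le_add (add_le_add h2 h1) (mul_le_mul_of_nonneg_right hm (abs_nonneg _))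
      _ = _ := by ring
  exact_mod_cast h3

/-- Moving along a segment. -/
theorem seg_rel (h0 : ∀ e, T0 n e) {d : Site} (h5 : T5 n d) {z : ℂ} {s : ℝ} (hs0 : 0 ≤ s)
    (hs : ∀ τ ∈ Set.Icc 0 s, Cf ρ (z + τ * cx d)) : Rl ρ z (z + s * cx d) := by
  obtain ⟨L, hL⟩ := seg_lim h5 hs0 hs
  refine ⟨Real.exp L, Real.exp_pos _, ?_⟩
  have hend : Cf ρ (z + s * cx d) := hs s ⟨hs0, le_rfl⟩
  set w : ℂ := z + s * cx d with hw
  have hfl : ∀ a : ℝ, 0 < a → |((⌊s / a⌋₊ : ℕ) : ℝ) - s / a| ≤ 1 := by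
    intro a ha
    have h1 := Nat.floor_le (div_nonneg hs0 ha.le)
    have h2 := Nat.lt_floor_add_one (s / a)
    rw [abs_le]; constructor <;> linarith
  have h1 : Tendsto (fun a : ℝ =>
      AL.QQ (dia (nn a)) (fl a w ::ₘ fam fun p => fl a (ρ p)) 0 /
      AL.QQ (dia (nn a)) ((fl a z + ⌊s / a⌋₊ • d) ::ₘ fam fun p => fl a (ρ p)) 0)
      (𝓝[>] 0) (𝓝 1) := by
    rw [tendsto_iff_ultrafilter]
    intro U hU
    have hpos : ∀ᶠ a in (U : Filter ℝ), 0 < a := hU self_mem_nhdsWithin
    have hfin : (Set.Icc (-(|d.1| + 2), -(|d.2| + 2)) (|d.1| + 2, |d.2| + 2) : Set Site).Finite :=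
      Set.finite_Icc _ _
    have hev : ∀ᶠ a in (U : Filter ℝ),
        ∃ e ∈ (Set.Icc (-(|d.1| + 2), -(|d.2| + 2)) (|d.1| + 2, |d.2| + 2) : Set Site),
          fl a w = (fl a z + ⌊s / a⌋₊ • d) + e := by
      filter_upwards [hpos] with a ha
      refine ⟨fl a w - (fl a z + ⌊s / a⌋₊ • d), ?_, by abel⟩
      have e1 := floor_diff (z.re / a) (w.re / a) (s / a) ⌊s / a⌋₊ d.1 (hfl a ha) (by
        rw [hw]; simp [cx]; ring)
      have e2 := floor_diff (z.im / a) (w.im / a) (s / a) ⌊s / a⌋₊ d.2 (hfl a ha) (by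
        rw [hw]; simp [cx]; ring)
      rw [abs_le] at e1 e2
      exact ⟨⟨e1.1, e2.1⟩, ⟨e1.2, e2.2⟩⟩
    obtain ⟨e, _, he⟩ := (Ultrafilter.eventually_exists_mem_iff hfin).1 hev
    have ha : Tendsto (fun a : ℝ => a) U (𝓝[>] 0) := hU
    have hs1 : Tendsto (fun a : ℝ => a * ((⌊s / a⌋₊ : ℕ) : ℝ)) U (𝓝 s) :=
      near_lim (B := 1) ha tendsto_const_nhds (hpos.mono fun a h => hfl a h)
    have hz := Tc_fl (l := (U : Filter ℝ)) ha z
    have hf : FD (U : Filter ℝ) (fun a => a) (fun a => nn a) (fun a p => fl a (ρ p))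
        (fun a => fl a z + ⌊s / a⌋₊ • d) ρ w := by
      refine ⟨ha, nn_lim ha, fun p => Tc_fl ha _, ?_, ?_⟩
      · have := hz.1.add (hs1.mul_const (d.1 : ℝ))
        have e : w.re = z.re + s * (d.1 : ℝ) := by rw [hw]; simp [cx]
        rw [e]
        refine this.congr fun x => ?_
        simp; ring
      · have := hz.2.add (hs1.mul_const (d.2 : ℝ))
        have e : w.im = z.im + s * (d.2 : ℝ) := by rw [hw]; simp [cx]
        rw [e]
        refine this.congr fun x => ?_
        simp; ring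
    have h2 := h0 e ρ w hend ℝ U _ _ _ _ hf
    refine h2.congr' (he.mono fun a h => ?_)
    unfold rat
    rw [← h]
  have h2 := h1.mul hL
  rw [one_mul] at h2
  refine h2.congr fun a => ?_
  unfold qr
  have h3 := (QQ_pos (dia (nn a)) ((fl a z + ⌊s / a⌋₊ • d) ::ₘ fam fun p => fl a (ρ p))).ne'
  have h4 := (QQ_pos (dia (nn a)) (fl a z ::ₘ fam fun p => fl a (ρ p))).ne'
  field_simp

theorem isOpen_Dia' : IsOpen Dia := by
  have : Dia = (fun z : ℂ => |z.re| + |z.im|) ⁻¹' Set.Iio 1 := rfl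
  rw [this]
  exact isOpen_Iio.preimage (by fun_prop)

theorem ball_of_sq {p z : ℂ} {r : ℝ} (hr : 0 < r) (h : (p - z).re ^ 2 + (p - z).im ^ 2 < r ^ 2) :
    p ∈ Metric.ball z r := by
  rw [Metric.mem_ball, dist_eq_norm]
  refine lt_of_pow_lt_pow_left₀ 2 hr.le ?_
  rw [Complex.sq_norm, Complex.normSq_apply]
  nlinarith [h]

/-- Nearby points are related. -/
theorem loc_rel (h0 : ∀ e, T0 n e) (h5 : ∀ d ∈ ({(1, 1), (-1, -1), (-1, 1), (1, -1)} : Set Site),
    T5 n d) (hr : ∀ p, ρ p ∈ Dia) (hi : Function.Injective ρ) {z : ℂ}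
    (hz : z ∈ Dia \ Set.range ρ) : ∀ᶠ w in 𝓝[Dia \ Set.range ρ] z, Rl ρ z w := by
  have hopen : IsOpen (Dia \ Set.range ρ) :=
    isOpen_Dia'.sdiff (Set.finite_range ρ).isClosed
  obtain ⟨r, hr0, hball⟩ := Metric.isOpen_iff.1 hopen z hz
  refine mem_nhdsWithin_of_mem_nhds (Filter.mem_of_superset (Metric.ball_mem_nhds z hr0) ?_)
  intro w hw
  have hcf : ∀ p ∈ Metric.ball z r, Cf ρ p := fun p hp =>
    ⟨hr, hi, (hball hp).1, fun q hq => (hball hp).2 ⟨q, hq⟩⟩
  have hwn : (w - z).re ^ 2 + (w - z).im ^ 2 < r ^ 2 := by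
    rw [Metric.mem_ball, dist_eq_norm] at hw
    have := pow_lt_pow_left₀ hw (norm_nonneg _) two_ne_zero
    rw [Complex.sq_norm, Complex.normSq_apply] at this
    nlinarith [this]
  set x := (w - z).re with hx
  set y := (w - z).im with hy
  set α := (x + y) / 2 with hα
  set β := (y - x) / 2 with hβ
  have hsum : 2 * α ^ 2 + 2 * β ^ 2 = x ^ 2 + y ^ 2 := by rw [hα, hβ]; ring
  have hw' : w = z + α * cx (1, 1) + β * cx (-1, 1) := by
    apply Complex.ext
    · simp only [Complex.add_re, Complex.mul_re, Complex.ofReal_re, Complex.ofReal_im, cx]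
      push_cast
      have : w.re = z.re + x := by rw [hx]; simp
      rw [this, hα, hβ]; ring
    · simp only [Complex.add_im, Complex.mul_im, Complex.ofReal_re, Complex.ofReal_im, cx]
      push_cast
      have : w.im = z.im + y := by rw [hy]; simp
      rw [this, hα, hβ]; ring
  have hp : ∀ s t : ℝ, s ^ 2 ≤ α ^ 2 → t ^ 2 ≤ β ^ 2 →
      Cf ρ (z + s * cx (1, 1) + t * cx (-1, 1)) := by
    intro s t hs ht
    refine hcf _ (ball_of_sq hr0 ?_)
    have e1 : (z + s * cx (1, 1) + t * cx (-1, 1) - z).re = s - t := by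
      simp only [Complex.add_re, Complex.sub_re, Complex.mul_re, Complex.ofReal_re,
        Complex.ofReal_im, cx]
      push_cast; ring
    have e2 : (z + s * cx (1, 1) + t * cx (-1, 1) - z).im = s + t := by
      simp only [Complex.add_im, Complex.sub_im, Complex.mul_im, Complex.ofReal_re,
        Complex.ofReal_im, cx]
      push_cast; ring
    rw [e1, e2]
    nlinarith
  have hc1 : cx (-1, -1) = -cx (1, 1) := by unfold cx; apply Complex.ext <;> simp
  have hc2 : cx (1, -1) = -cx (-1, 1) := by unfold cx; apply Complex.ext <;> simp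
  have r1 : Rl ρ z (z + α * cx (1, 1)) := by
    rcases le_total 0 α with h | h
    · refine seg_rel h0 (h5 (1, 1) (by simp)) h fun τ hτ => ?_
      have := hp τ 0 (by nlinarith [hτ.1, hτ.2]) (by nlinarith [sq_nonneg β])
      simpa using this
    · have h1 := seg_rel (ρ := ρ) (z := z) h0 (h5 (-1, -1) (by simp)) (neg_nonneg.2 h)
        fun τ hτ => by
          have := hp (-τ) 0 (by nlinarith [hτ.1, hτ.2]) (by nlinarith [sq_nonneg β])
          rw [hc1]
          simpa using this
      rw [hc1] at h1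
      simpa using h1
  have r2 : Rl ρ (z + α * cx (1, 1)) w := by
    rw [hw']
    rcases le_total 0 β with h | h
    · refine seg_rel h0 (h5 (-1, 1) (by simp)) h fun τ hτ => ?_
      exact hp α τ le_rfl (by nlinarith [hτ.1, hτ.2])
    · have h1 := seg_rel (ρ := ρ) (z := z + α * cx (1, 1)) h0 (h5 (1, -1) (by simp))
        (neg_nonneg.2 h) fun τ hτ => by
          have := hp α (-τ) le_rfl (by nlinarith [hτ.1, hτ.2])
          rw [hc2]
          simpa using this
      rw [hc2] at h1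
      simpa using h1
  exact r1.trans r2

end rel

/-! ### connectedness -/

/-- a homeomorphism of the plane onto the square -/
noncomputable def sq (z : ℂ) : ℂ := z / ((1 + |z.re| + |z.im| : ℝ) : ℂ)

theorem sq_re (z : ℂ) : (sq z).re = z.re / (1 + |z.re| + |z.im|) := by
  unfold sq; rw [Complex.div_ofReal_re]

theorem sq_im (z : ℂ) : (sq z).im = z.im / (1 + |z.re| + |z.im|) := by
  unfold sq; rw [Complex.div_ofReal_im]

theorem sq_pos (z : ℂ) : 0 < 1 + |z.re| + |z.im| := by positivity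

theorem sq_norm (z : ℂ) : |(sq z).re| + |(sq z).im| = 1 - 1 / (1 + |z.re| + |z.im|) := by
  have h := sq_pos z
  rw [sq_re, sq_im, abs_div, abs_div, abs_of_pos h]
  field_simp
  ring

theorem sq_mem (z : ℂ) : sq z ∈ Dia := by
  change |(sq z).re| + |(sq z).im| < 1
  rw [sq_norm]
  have := sq_pos z
  have : 0 < 1 / (1 + |z.re| + |z.im|) := by positivity
  linarith

theorem sq_inj : Function.Injective sq := by
  intro z w h
  have h1 := sq_norm z
  rw [h, sq_norm w] at h1
  have hz := sq_pos z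
  have hw := sq_pos w
  have h2 : 1 / (1 + |w.re| + |w.im|) = 1 / (1 + |z.re| + |z.im|) := by linarith
  have h3 : (1 + |w.re| + |w.im|) = (1 + |z.re| + |z.im|) := by
    rw [one_div, one_div] at h2
    exact inv_injective h2
  apply Complex.ext
  · have := congrArg Complex.re h
    rw [sq_re, sq_re, h3] at this
    exact (div_left_inj' hz.ne').1 this
  · have := congrArg Complex.im h
    rw [sq_im, sq_im, h3] at this
    exact (div_left_inj' hz.ne').1 this

theorem sq_surj {w : ℂ} (hw : w ∈ Dia) : ∃ z, sq z = w := by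
  have h0 : |w.re| + |w.im| < 1 := hw
  set c := 1 - (|w.re| + |w.im|) with hc
  have hc0 : 0 < c := by rw [hc]; linarith
  refine ⟨w / (c : ℂ), ?_⟩
  have e1 : (w / (c : ℂ)).re = w.re / c := Complex.div_ofReal_re _ _
  have e2 : (w / (c : ℂ)).im = w.im / c := Complex.div_ofReal_im _ _
  have e3 : 1 + |(w / (c : ℂ)).re| + |(w / (c : ℂ)).im| = 1 / c := by
    rw [e1, e2, abs_div, abs_div, abs_of_pos hc0]
    field_simp
    rw [hc]; ring
  apply Complex.ext
  · rw [sq_re, e3, e1]
    field_simp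
  · rw [sq_im, e3, e2]
    field_simp

theorem sq_cont : Continuous sq := by
  unfold sq
  refine continuous_id.div (by fun_prop) fun z => ?_
  exact_mod_cast (sq_pos z).ne'

theorem conn_Dia {F : Set ℂ} (hF : F.Finite) : IsPreconnected (Dia \ F) := by
  have h1 : (sq ⁻¹' F).Finite := hF.preimage sq_inj.injOn
  have h2 : IsPreconnected (sq ⁻¹' F)ᶜ :=
    (h1.countable.isPathConnected_compl_of_one_lt_rank (by
      rw [Complex.rank_real_complex]; exact_mod_cast one_lt_two)).isConnected.isPreconnected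
  have h3 : sq '' (sq ⁻¹' F)ᶜ = Dia \ F := by
    ext w
    constructor
    · rintro ⟨z, hz, rfl⟩
      exact ⟨sq_mem z, hz⟩
    · rintro ⟨h, h'⟩
      obtain ⟨z, rfl⟩ := sq_surj h
      exact ⟨z, h', rfl⟩
  rw [← h3]
  exact h2.image _ sq_cont.continuousOn

/-! ### all pairs of sets -/

theorem all_rel {n : ℕ} {ρ : Fin n → ℂ} (h5 : T5 n (-1, -1)) (h0 : T0 n (1, 0))
    (hr : ∀ p, ρ p ∈ Dia) (hi : Function.Injective ρ) {z w : ℂ} (hz : z ∈ Dia \ Set.range ρ)
    (hw : w ∈ Dia \ Set.range ρ) : Rl ρ z w := by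
  have h0' := T0_all h5 h0
  have a1 : T5 n (1, 1) := by simpa using h5.neg
  have a2 : T5 n (-1, 1) := by simpa [rs] using a1.refl
  have a3 : T5 n (1, -1) := by simpa using a2.neg
  have h5' : ∀ d ∈ ({(1, 1), (-1, -1), (-1, 1), (1, -1)} : Set Site), T5 n d := by
    intro d hd
    simp only [Set.mem_insert_iff, Set.mem_singleton_iff] at hd
    rcases hd with rfl | rfl | rfl | rfl
    · exact a1
    · exact h5
    · exact a2
    · exact a3
  exact (conn_Dia (Set.finite_range ρ)).induction₂ (Rl ρ)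
    (fun x hx => loc_rel h0' h5' hr hi hx) (fun x y z _ _ _ => Rl.trans)
    (fun x y _ _ => Rl.symm) hz hw

/-- PATH: the ratios of disorder correlations converge. -/
theorem ratioM_of_grad (h5 : ∀ n, Odd n → T5 n (-1, -1)) (h0 : ∀ n, Odd n → T0 n (1, 0)) :
    RatioM := by
  intro X X' hX hX' hc he
  have key : ∀ (k : ℕ) (X : Finset ℂ), (∀ z ∈ X, z ∈ Dia) → X.card = X'.card → Even X.card →
      (X' \ X).card = k →
      ∃ q > 0, Tendsto (fun a => Mn a X / Mn a X') (𝓝[>] 0) (𝓝 q) := by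
    intro k
    induction k with
    | zero =>
      intro X _ hc _ hk
      have h1 : X' ⊆ X := by
        rw [← sdiff_eq_empty_iff_subset]; exact card_eq_zero.1 hk
      have h2 : X' = X := eq_of_subset_of_card_le h1 hc.le
      subst h2
      refine ⟨1, one_pos, ?_⟩
      have : (fun a => Mn a X' / Mn a X') = fun _ => 1 := by
        funext a; exact div_self (Mn_pos a X').ne'
      rw [this]
      exact tendsto_const_nhds
    | succ k ih =>
      intro X hX hc he hk
      obtain ⟨w, hw⟩ : (X' \ X).Nonempty := card_pos.1 (by omega)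
      rw [Finset.mem_sdiff] at hw
      have hk2 : (X \ X').card = k + 1 := by
        rw [← hk]
        exact card_sdiff_comm hc
      obtain ⟨z, hz⟩ : (X \ X').Nonempty := card_pos.1 (by omega)
      rw [Finset.mem_sdiff] at hz
      set Y := X.erase z with hY
      have hzY : z ∉ Y := notMem_erase z X
      have hXY : X = insert z Y := (insert_erase hz.1).symm
      have hwY : w ∉ Y := fun h => hw.2 (erase_subset _ _ h)
      have hYc : Y.card + 1 = X.card := by rw [hXY, card_insert_of_notMem hzY]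
      have hodd : Odd Y.card := by
        rw [← Nat.not_even_iff_odd]
        intro h
        rw [← hYc] at he
        exact (Nat.even_add_one.1 he) h
      let ρ : Fin Y.card → ℂ := fun p => (Y.equivFin.symm p : ℂ)
      have hρ : univ.val.map ρ = Y.val := by
        have h1 : (univ : Finset (Fin Y.card)).val.map ρ =
            ((univ : Finset (Fin Y.card)).map ⟨ρ, fun p q h =>
              Y.equivFin.symm.injective (Subtype.ext h)⟩).val := rfl
        rw [h1]
        congr 1
        ext x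
        rw [Finset.mem_map]
        constructor
        · rintro ⟨p, _, rfl⟩
          exact (Y.equivFin.symm p).2
        · intro h
          exact ⟨Y.equivFin ⟨x, h⟩, mem_univ _, by
            change ((Y.equivFin.symm (Y.equivFin ⟨x, h⟩) : Y) : ℂ) = x
            rw [Equiv.symm_apply_apply]⟩
      have hfam : ∀ a : ℝ, fam (fun p => fl a (ρ p)) = Y.val.map (fl a) := by
        intro a
        unfold fam
        rw [← hρ, Multiset.map_map]
        rfl
      have hrange : Set.range ρ = (Y : Set ℂ) := by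
        ext x
        constructor
        · rintro ⟨p, rfl⟩
          exact (Y.equivFin.symm p).2
        · intro h
          exact ⟨Y.equivFin ⟨x, h⟩, by simp [ρ]⟩
      have hYD : ∀ x ∈ Y, x ∈ Dia := fun x hx => hX x (erase_subset _ _ hx)
      obtain ⟨q, hq, hlim⟩ := all_rel (ρ := ρ) (z := w) (w := z) (h5 _ hodd) (h0 _ hodd)
        (fun p => hYD _ (Y.equivFin.symm p).2)
        (fun p q h => Y.equivFin.symm.injective (Subtype.ext h))
        ⟨hX' w hw.1, by rw [hrange]; exact hwY⟩ ⟨hX z hz.1, by rw [hrange]; exact hzY⟩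
      obtain ⟨q', hq', hlim'⟩ := ih (insert w Y) (fun x hx => by
        rcases mem_insert.1 hx with rfl | h
        · exact hX' _ hw.1
        · exact hYD x h) (by rw [card_insert_of_notMem hwY, hYc, hc])
        (by rw [card_insert_of_notMem hwY, hYc]; exact he) (by
          have h1 : X' \ insert w Y = (X' \ X).erase w := by
            ext x
            simp only [Finset.mem_sdiff, mem_insert, mem_erase, hXY, not_or]
            constructor
            · rintro ⟨h1, h2, h3⟩
              refine ⟨h2, h1, ?_, h3⟩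
              rintro rfl; exact hz.2 h1
            · rintro ⟨h1, h2, h3, h4⟩
              exact ⟨h2, h1, h4⟩
          rw [h1, card_erase_of_mem (Finset.mem_sdiff.2 hw), hk]
          rfl)
      refine ⟨q * q', mul_pos hq hq', (hlim.mul hlim').congr' ?_⟩
      have hpos : ∀ᶠ a in 𝓝[>] (0:ℝ), 0 < a := self_mem_nhdsWithin
      filter_upwards [hpos] with a ha
      have e1 : ∀ v, v ∉ Y → Mn a (insert v Y) =
          AL.QQ (dia (nn a)) (fl a v ::ₘ fam fun p => fl a (ρ p)) 0 / AL.QQ (dia (nn a)) 0 0 := by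
        intro v hv
        rw [Mn_insert hv, hfam, disc_Dia ha]
        rfl
      rw [hXY, e1 z hzY, e1 w hwY]
      unfold qr
      have h1 := (QQ_pos (dia (nn a)) 0).ne'
      have h2 := (QQ_pos (dia (nn a)) (fl a w ::ₘ fam fun p => fl a (ρ p))).ne'
      have h3 := (Mn_pos a X').ne'
      field_simp
  exact key _ X hX hc he rfl

end Vale.Agent.P144.H436
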