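import Vale.Agent.P144.H436.Compare

/-!
The open square `Dia`, its discretizations, and the vanishing of its critical one-point function
with the boundary condition `alt`.
-/

namespace Vale.Agent.P144.H436

open Finset Vale.Agent.P144 Filter Topology

theorem Dia_bounded : Bornology.IsBounded Dia := by
  refine (Metric.isBounded_closedBall (x := (0:ℂ)) (r := 1)).subset ?_
  intro z hz
  have hz' : |z.re| + |z.im| < 1 := hz
  rw [mem_closedBall_zero_iff]
  exact (Complex.norm_le_abs_re_add_abs_im z).trans hz'.le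

theorem Dia_open : IsOpen Dia :=
  isOpen_lt (Complex.continuous_re.abs.add Complex.continuous_im.abs) continuous_const

theorem Dia_zero : (0:ℂ) ∈ Dia := by
  show |(0:ℂ).re| + |(0:ℂ).im| < 1
  simp

theorem Dia_connected : IsConnected Dia := by
  have hconv : Convex ℝ Dia := by
    intro z hz w hw s t hs ht hst
    have hz' : |z.re| + |z.im| < 1 := hz
    have hw' : |w.re| + |w.im| < 1 := hw
    show |(s • z + t • w).re| + |(s • z + t • w).im| < 1
    simp only [Complex.add_re, Complex.add_im, Complex.real_smul, Complex.mul_re,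
      Complex.mul_im, Complex.ofReal_re, Complex.ofReal_im, zero_mul, sub_zero, add_zero]
    have h1 : |s * z.re + t * w.re| ≤ s * |z.re| + t * |w.re| := by
      refine (abs_add_le _ _).trans ?_
      rw [abs_mul, abs_mul, abs_of_nonneg hs, abs_of_nonneg ht]
    have h2 : |s * z.im + t * w.im| ≤ s * |z.im| + t * |w.im| := by
      refine (abs_add_le _ _).trans ?_
      rw [abs_mul, abs_mul, abs_of_nonneg hs, abs_of_nonneg ht]
    rcases hs.eq_or_lt with h | h
    · subst h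
      have : t = 1 := by linarith only [hst]
      subst this
      linarith
    · nlinarith only [h1, h2, h, hz', ht, hw', hst]
  exact ⟨⟨0, Dia_zero⟩, hconv.isPreconnected⟩

/-- Block D3. -/
theorem disc_Dia {a : ℝ} (ha : 0 < a) : disc Dia a = dia (⌈1 / a⌉₊ - 1) := by
  ext x
  rw [mem_disc Dia_bounded ha, mem_dia]
  show |a * (x.1 : ℝ)| + |a * (x.2 : ℝ)| < 1 ↔ _
  rw [abs_mul, abs_mul, abs_of_pos ha, ← mul_add]
  have hN : 1 ≤ ⌈1 / a⌉₊ := Nat.one_le_iff_ne_zero.2 (Nat.ceil_pos.2 (by positivity)).ne'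
  have hM : 0 ≤ |x.1| + |x.2| := by positivity
  obtain ⟨m, hm⟩ := Int.eq_ofNat_of_zero_le hM
  have hm' : |(x.1 : ℝ)| + |(x.2 : ℝ)| = (m : ℝ) := by exact_mod_cast hm
  rw [hm', hm]
  have e1 : a * (m : ℝ) < 1 ↔ (m : ℝ) < 1 / a := by
    rw [lt_div_iff₀ ha, mul_comm]
  rw [e1, ← Nat.lt_ceil]
  push_cast [Nat.cast_sub hN]
  omega

/-- the diagonal function decays like `k ^ (-1/4)` -/
theorem Dg_bound (hA : ∃ A > 0, Tendsto (fun n : ℕ => (n : ℝ) ^ (1 / 4 : ℝ) * Dg n) atTop (𝓝 A)) :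
    ∃ B : ℝ, 0 < B ∧ ∀ n : ℕ, 1 ≤ n → Dg n ≤ B * (n : ℝ) ^ (-(1 / 4) : ℝ) := by
  obtain ⟨A, _, h⟩ := hA
  obtain ⟨B, hB⟩ := h.bddAbove_range
  refine ⟨max B 1, by positivity, fun n hn => ?_⟩
  have h1 : (n : ℝ) ^ (1 / 4 : ℝ) * Dg n ≤ max B 1 :=
    (hB ⟨n, rfl⟩).trans (le_max_left _ _)
  have hn' : (0:ℝ) < n := by exact_mod_cast hn
  rw [Real.rpow_neg hn'.le, ← div_eq_mul_inv, le_div_iff₀ (by positivity), mul_comm]
  exact h1

/-- distance of the sites near an interior point to the corners -/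
theorem far_corner {z : ℂ} {a : ℝ} (ha : 0 < a) {N : ℕ} (hN : 1 / a ≤ N + 1)
    {c : Site} (hc : c ∈ corners N) :
    (1 - |z.re| - |z.im|) / a - 3 ≤ (|(fl a z).1 - c.1| + |(fl a z).2 - c.2| : ℤ) := by
  have h1 := Int.floor_le (z.re / a)
  have h2 := Int.lt_floor_add_one (z.re / a)
  have h3 := Int.floor_le (z.im / a)
  have h4 := Int.lt_floor_add_one (z.im / a)
  have b1 : |((fl a z).1 : ℝ)| ≤ |z.re| / a + 1 := by
    have : |(⌊z.re / a⌋ : ℝ)| ≤ |z.re / a| + 1 := by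
      have g1 := le_abs_self (z.re / a)
      have g2 := neg_abs_le (z.re / a)
      rw [abs_le]; constructor <;> linarith
    rwa [abs_div, abs_of_pos ha] at this
  have b2 : |((fl a z).2 : ℝ)| ≤ |z.im| / a + 1 := by
    have : |(⌊z.im / a⌋ : ℝ)| ≤ |z.im / a| + 1 := by
      have g1 := le_abs_self (z.im / a)
      have g2 := neg_abs_le (z.im / a)
      rw [abs_le]; constructor <;> linarith
    rwa [abs_div, abs_of_pos ha] at this
  have hcN : |(c.1 : ℝ)| + |(c.2 : ℝ)| = N := by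
    simp only [corners, Finset.mem_insert, Finset.mem_singleton] at hc
    rcases hc with rfl | rfl | rfl | rfl <;> simp
  push_cast
  have g1 := abs_sub_abs_le_abs_sub (c.1 : ℝ) ((fl a z).1 : ℝ)
  have g2 := abs_sub_abs_le_abs_sub (c.2 : ℝ) ((fl a z).2 : ℝ)
  rw [abs_sub_comm] at g1 g2
  have e : (1 - |z.re| - |z.im|) / a = 1 / a - |z.re| / a - |z.im| / a := by
    rw [sub_div, sub_div]
  rw [e]
  linarith

/-- The critical one-point function of `Dia` with the boundary condition `alt` vanishes at every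
point. -/
theorem alt_one_point {J : ℝ} (hJ : 0 < J)
    (hE : ∀ k : ℕ, 1 ≤ k → Tendsto (fun M : ℕ => fcor J (box M) {(0, 0), ((k : ℤ), (k : ℤ))}) atTop
      (𝓝 (Dg k)))
    (hA : ∃ A > 0, Tendsto (fun n : ℕ => (n : ℝ) ^ (1 / 4 : ℝ) * Dg n) atTop (𝓝 A))
    {z : ℂ} (hz : z ∈ Dia) :
    Tendsto (fun a : ℝ => a ^ (-(1 / 8) : ℝ) * gibbs J 0 (fun _ => 0) (Kc / J)
      (some (alt (⌈1 / a⌉₊ - 1))) (disc Dia a) (fun σ => sp (σ (fl a z)))) (𝓝[>] 0) (𝓝 0) := by
  obtain ⟨B, hB0, hB⟩ := Dg_bound hA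
  have hz' : |z.re| + |z.im| < 1 := hz
  set δ := 1 - |z.re| - |z.im| with hδ
  have hδ0 : 0 < δ := by linarith
  have ht := tanh_kc_pos
  have hkc := kc_pos
  set C := 3 * Kc * (4 * ((Real.tanh Kc)⁻¹ * (B * (δ / 8) ^ (-(1 / 4) : ℝ)))) with hC
  have hlim : Tendsto (fun a : ℝ => C * a ^ (1 / 8 : ℝ)) (𝓝[>] 0) (𝓝 0) := by
    have h1 : Tendsto (fun a : ℝ => a ^ (1 / 8 : ℝ)) (𝓝 0) (𝓝 (0 ^ (1 / 8 : ℝ))) :=
      (Real.continuousAt_rpow_const 0 (1 / 8) (Or.inr (by norm_num))).tendsto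
    rw [Real.zero_rpow (by norm_num)] at h1
    have h2 := (h1.mono_left (nhdsWithin_le_nhds (s := Set.Ioi 0))).const_mul C
    rwa [mul_zero] at h2
  refine squeeze_zero_norm' ?_ hlim
  have h1 : ∀ᶠ a in 𝓝[>] (0:ℝ), a < δ / 16 :=
    eventually_nhdsWithin_of_eventually_nhds (gt_mem_nhds (by positivity))
  have h1' : ∀ᶠ a in 𝓝[>] (0:ℝ), a < 1 / 4 :=
    eventually_nhdsWithin_of_eventually_nhds (gt_mem_nhds (by positivity))
  have h2 := eventually_mem_disc' Dia_bounded Dia_open hz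
  filter_upwards [h1, h1', h2, self_mem_nhdsWithin] with a ha1 ha1' hmem ha
  have ha : 0 < a := ha
  set N := ⌈1 / a⌉₊ - 1 with hNdef
  have hceil : 1 ≤ ⌈1 / a⌉₊ := Nat.one_le_iff_ne_zero.2 (Nat.ceil_pos.2 (by positivity)).ne'
  have hN : 1 / a ≤ N + 1 := by
    have := Nat.le_ceil (1 / a)
    rw [hNdef, Nat.cast_sub hceil]
    push_cast
    linarith
  have hN1 : 1 ≤ N := by
    have : (4:ℝ) < 1 / a := by rw [lt_div_iff₀ ha]; linarith
    have : (1:ℝ) ≤ N := by linarith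
    exact_mod_cast this
  rw [disc_Dia ha] at hmem ⊢
  have hfar : ∀ c ∈ corners N, δ / (4 * a)
      ≤ ((|(fl a z).1 - c.1| + |(fl a z).2 - c.2| : ℤ) : ℝ) / 2 - 1 := by
    intro c hc
    have := far_corner (z := z) ha hN hc
    rw [← hδ] at this
    have e : δ / (4 * a) = δ / a / 4 := by rw [mul_comm, div_div]
    have : 16 < δ / a := by rw [lt_div_iff₀ ha]; linarith
    rw [e]
    linarith
  have hcorner : ∀ c ∈ corners N, fcor J (dia N) {fl a z, c}
      ≤ (Real.tanh Kc)⁻¹ * (B * (δ / 8) ^ (-(1 / 4) : ℝ)) * a ^ (1 / 4 : ℝ) := by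
    intro c hc
    have hf := hfar c hc
    obtain ⟨s, hs⟩ := Int.eq_ofNat_of_zero_le
      (show 0 ≤ |(fl a z).1 - c.1| + |(fl a z).2 - c.2| by positivity)
    rw [hs] at hf
    have h4 : 4 < δ / (4 * a) := by rw [lt_div_iff₀ (by positivity)]; linarith
    have hk : δ / (4 * a) ≤ ((s / 2 : ℕ) : ℝ) := by
      have : (s : ℝ) ≤ 2 * ((s / 2 : ℕ) : ℝ) + 1 := by
        have : s ≤ 2 * (s / 2) + 1 := by omega
        exact_mod_cast this
      have hf' : δ / (4 * a) ≤ (s : ℝ) / 2 - 1 := hf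
      linarith
    have hk1 : 1 ≤ s / 2 := by
      have : (1:ℝ) ≤ ((s / 2 : ℕ) : ℝ) := by linarith
      exact_mod_cast this
    have g1 := fcor_le hJ hE (dia N) hmem (corners_sub N hc) hk1 (by rw [hs]; push_cast; rfl)
    refine g1.trans ?_
    have g2 := hB (s / 2) hk1
    have g3 : ((s / 2 : ℕ) : ℝ) ^ (-(1 / 4) : ℝ) ≤ (δ / 8) ^ (-(1 / 4) : ℝ) * a ^ (1 / 4 : ℝ) := by
      have e1 : (δ / 8) ^ (-(1 / 4) : ℝ) * a ^ (1 / 4 : ℝ) = (δ / 8 / a) ^ (-(1 / 4) : ℝ) := by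
        rw [Real.div_rpow (by positivity) ha.le, Real.rpow_neg ha.le, div_inv_eq_mul]
      rw [e1]
      refine Real.rpow_le_rpow_of_nonpos (by positivity) ?_ (by norm_num)
      refine le_trans ?_ hk
      rw [div_div]
      exact div_le_div_of_nonneg_left hδ0.le (by positivity) (by linarith)
    have g4 := mul_le_mul_of_nonneg_left g3 hB0.le
    have g5 := mul_le_mul_of_nonneg_left (g2.trans g4) (inv_pos.2 ht).le
    refine g5.trans (le_of_eq ?_)
    ring
  have hxc : fl a z ∉ corners N := by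
    intro hc
    have := hfar _ hc
    have h4 : 0 < δ / (4 * a) := by positivity
    simp only [sub_self, abs_zero, add_zero, Int.cast_zero, zero_div, zero_sub] at this
    linarith
  have hz1 := alt_zero hJ hN1 hmem hxc
  have hsum : ∑ c ∈ corners N, fcor J (dia N) {fl a z, c}
      ≤ 4 * ((Real.tanh Kc)⁻¹ * (B * (δ / 8) ^ (-(1 / 4) : ℝ)) * a ^ (1 / 4 : ℝ)) := by
    refine (Finset.sum_le_sum hcorner).trans ?_
    rw [Finset.sum_const, nsmul_eq_mul]
    have hcard : ((corners N).card : ℝ) ≤ 4 := by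
      exact_mod_cast Finset.card_le_four
    refine mul_le_mul_of_nonneg_right hcard ?_
    have := inv_pos.2 ht
    positivity
  rw [norm_mul, Real.norm_eq_abs, Real.norm_eq_abs, abs_of_pos (Real.rpow_pos_of_pos ha _)]
  have g := mul_le_mul_of_nonneg_left (hz1.trans (mul_le_mul_of_nonneg_left hsum (by positivity)))
    (Real.rpow_pos_of_pos ha (-(1 / 8))).le
  refine g.trans (le_of_eq ?_)
  have e : a ^ (1 / 8 : ℝ) = a ^ (-(1 / 8) : ℝ) * a ^ (1 / 4 : ℝ) := by
    rw [← Real.rpow_add ha]; norm_num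
  rw [hC, e]
  ring

end Vale.Agent.P144.H436
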