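import Vale.Agent.P144.U.Final
import Vale.Agent.P144.H436.DiaDisc

namespace Vale.Agent.P144

open Filter Topology MeasureTheory H436

theorem crit_zero' {J : ℝ} (hJ : 0 < J) {z : ℂ} (hz : z ∈ Dia) :
    Lim (crit J Dia (some altb)) ⟨1, 0, ![z], ![], ![]⟩ 0 := by
  have h := alt_one_point hJ (fun k hk => fcor_box_diag hJ hk) Dg_asymp hz
  refine h.congr fun a => ?_
  exact (one_point _ _ _ _ _ _ _ _).symm

theorem plus_nonneg {J lam β : ℝ} (hJ : 0 < J) (hl : 0 < lam) (hβ : 0 < β) (N : ℕ) :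
    0 ≤ gibbs J lam Vk β (some bcp) (dia N) (fun σ => sp (σ (0, 0))) := by
  have h0 : ((0, 0) : Site) ∈ dia N := by rw [mem_dia]; simp
  rw [gibbs_knight J lam β (window_win (dia N))]
  simp only [exs_mem h0]
  rw [← ev_odd (KK β J lam (dia N)) (⟨(0, 0), h0⟩ : dia N)]
  refine ev_mono_field (KK_nonneg hβ.le hJ.le hl.le _) (sg_mono _) fun i => ?_
  refine mul_nonneg hβ.le (Finset.sum_nonneg fun v _ => ?_)
  split_ifs
  · simp only [bcp, sp_true, mul_one]
    exact cpl_nonneg hJ.le hl.le _ _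
  · exact le_rfl

theorem comp_ev {J : ℝ} (hJ : 0 < J) : ∀ lam > 0, ∀ β > 0, ∃ C, ∀ᶠ N : ℕ in atTop,
    0 ≤ gibbs J lam Vk β (some bcp) (dia N) (fun σ => sp (σ (0, 0))) ∧
    gibbs J lam Vk β (some bcp) (dia N) (fun σ => sp (σ (0, 0))) ≤
      C * gibbs J lam Vk β (some (alt N)) (dia N) (fun σ => sp (σ (0, 0))) := by
  intro lam hl β hβ
  obtain ⟨C, _, h⟩ := compare_Dia hJ hl hβ
  refine ⟨C, ?_⟩
  filter_upwards [eventually_ge_atTop 4] with N hN
  exact ⟨plus_nonneg hJ hl hβ N, h N hN⟩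

/-- No data exist, in the reading by numbers of points. -/
theorem noNM {J lam : ℝ} (hJ : 0 < J) (hl : 0 < lam) : ¬ HasDataNM J Vk lam := by
  rintro ⟨β, hβ, Zσ, hσ, Zε, _, ⟨E, hE, hId⟩, hD⟩
  have hlim : NLim Dia (crit J Dia (some altb)) 1 0 ![] := by
    intro x y hg
    refine ⟨0, ?_⟩
    rw [pts_one]
    exact crit_zero' hJ (hg.2.1 0)
  have h1 := hD Dia Dia_open Dia_connected Dia_bounded (some altb) 1 0 ![] hlim ![0] ![]
    (good_x1 zero_mem_Dia _ _) 0 (crit_zero' hJ zero_mem_Dia)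
  rw [mul_zero] at h1
  exact core (Zε := Zε) hJ hl hβ (comp_ev hJ lam hl β hβ) (fun a ha => disc_Dia ha) hE hσ
    (fun E₀ hE₀ c hc => hId E₀ hE₀ p2 good_p2 c hc) h1

/-- No data exist, in the strict reading, if all critical limits exist for the square. -/
theorem noData {J lam : ℝ} (hJ : 0 < J) (hall : AllLim Dia (crit J Dia (some altb)))
    (hl : 0 < lam) : ¬ HasData J Vk lam := by
  rintro ⟨β, hβ, Zσ, hσ, Zε, _, ⟨E, hE, hId⟩, hD⟩
  have h1 := hD Dia Dia_open Dia_connected Dia_bounded (some altb) hall ⟨1, 0, ![0], ![], ![]⟩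
    (good_x1 zero_mem_Dia _ _) 0 (crit_zero' hJ zero_mem_Dia)
  rw [mul_zero] at h1
  exact core (Zε := Zε) hJ hl hβ (comp_ev hJ lam hl β hβ) (fun a ha => disc_Dia ha) hE hσ
    (fun E₀ hE₀ c hc => hId E₀ hE₀ p2 good_p2 c hc) h1

theorem not_Q1nm : ¬ Q1nm := by
  intro h
  obtain ⟨l0, hl0, h1⟩ := h 1 one_pos Vk Vk_potential
  exact noNM one_pos (by positivity : 0 < l0 / 2) (h1 _ (by rw [abs_of_pos (by positivity)]; linarith))

end Vale.Agent.P144
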