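import Vale.Agent.P144.H436.Diamond

/-!
The comparison of plus and `alt N` in `dia N` for the perturbed model.
-/

namespace Vale.Agent.P144.H436

open Finset Vale.Agent.P144 Filter Topology

/-- one step outwards -/
def st (x : Site) : Site :=
  if 0 < x.1 ∧ 0 ≤ x.2 then (x.1 + 1, x.2) else if x.1 ≤ 0 ∧ 0 < x.2 then (x.1, x.2 + 1)
  else if x.1 < 0 ∧ x.2 ≤ 0 then (x.1 - 1, x.2) else (x.1, x.2 - 1)

theorem st_dsq (x : Site) : dsq (st x) x = 1 := by
  unfold st dsq
  split_ifs <;> simp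

theorem st_layer {x : Site} (_h : ¬ (x.1 = 0 ∧ x.2 = 0)) :
    |(st x).1| + |(st x).2| = |x.1| + |x.2| + 1 := by
  unfold st
  split_ifs <;> simp only [abs_eq_max_neg] <;> omega

theorem st_inj {x y : Site} (_hx : ¬ (x.1 = 0 ∧ x.2 = 0)) (_hy : ¬ (y.1 = 0 ∧ y.2 = 0))
    (h : st x = st y) : x = y := by
  have h1 := congrArg Prod.fst h
  have h2 := congrArg Prod.snd h
  unfold st at h1 h2
  apply Prod.ext
  · split_ifs at h1 h2 <;> simp only at h1 h2 <;> omega
  · split_ifs at h1 h2 <;> simp only at h1 h2 <;> omega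

theorem i01 (p : Prop) [Decidable p] : (0:ℝ) ≤ if p then 1 else 0 := by
  split_ifs <;> norm_num

/-- plus is below the large field -/
theorem plus_field {J lam β : ℝ} (hJ : 0 < J) (hl : 0 < lam) (hβ : 0 < β) {N : ℕ} (hN : 4 ≤ N)
    {u : Site} (hu : u ∈ dia N) :
    β * fld J lam (dia N) (win (dia N)) (fun _ => True) bcp u
      ≤ 2 * (β * (4 * J + 8 * lam) / 2 * (if |u.1| + |u.2| = N then 1 else 0)
        + β * (2 * lam) * (if |u.1| + |u.2| = N - 1 then 1 else 0)
        + β * (2 * lam) * (if |u.1| + |u.2| = N - 2 then 1 else 0)) := by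
  have hW := window_win (dia N)
  have hi := mem_dia.1 hu
  have hε0 : 0 ≤ β * (2 * lam) := by positivity
  have hL0 : 0 ≤ β * (4 * J + 8 * lam) / 2 := by positivity
  have b2 := mul_nonneg hε0 (i01 (|u.1| + |u.2| = (N : ℤ) - 1))
  have b3 := mul_nonneg hε0 (i01 (|u.1| + |u.2| = (N : ℤ) - 2))
  by_cases h1 : |u.1| + |u.2| = N
  · have b1 := mul_le_mul_of_nonneg_left (fld_le hJ.le hl.le hW (fun _ => True) bcp hu) hβ.le
    rw [if_pos h1, mul_one]
    linarith
  · have hi' : |u.1| + |u.2| ≤ N - 1 := by omega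
    have e1 : S1 (gP N) u.1 u.2 = 0 := p1 hi'
    rw [fld_plus J lam hW hu, e1, if_neg h1]
    by_cases h3 : |u.1| + |u.2| ≤ N - 3
    · rw [p2 h3]
      simp only [Int.cast_zero, mul_zero, add_zero, zero_add]
      positivity
    · have e2 : S2 (gP N) u.1 u.2 ≤ 4 := S2_plus (by omega) hi'
      have e2' : (S2 (gP N) u.1 u.2 : ℝ) ≤ 4 := by exact_mod_cast e2
      have b4 : β * (J * ((0:ℤ) : ℝ) + lam * (S2 (gP N) u.1 u.2 : ℝ))
          ≤ 2 * (β * (2 * lam)) := by
        have : lam * (S2 (gP N) u.1 u.2 : ℝ) ≤ lam * 4 :=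
          mul_le_mul_of_nonneg_left e2' hl.le
        have := mul_le_mul_of_nonneg_left this hβ.le
        simp only [Int.cast_zero, mul_zero, zero_add]
        linarith
      refine b4.trans ?_
      by_cases h2 : |u.1| + |u.2| = (N : ℤ) - 1
      · rw [if_pos h2]
        linarith
      · rw [if_pos (show |u.1| + |u.2| = (N : ℤ) - 2 by omega)]
        linarith

/-- `alt N` is above the small field -/
theorem alt_field {J lam β : ℝ} (hJ : 0 < J) (hl : 0 < lam) (hβ : 0 < β) {N : ℕ} (hN : 4 ≤ N)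
    {u : Site} (hu : u ∈ dia N) :
    β * (2 * lam) * (if |u.1| + |u.2| = N then 1 else 0)
      + β * (2 * lam) * (if |u.1| + |u.2| = N - 1 then 1 else 0)
      ≤ β * fld J lam (dia N) (win (dia N)) (fun _ => True) (alt N) u := by
  have hW := window_win (dia N)
  have hi := mem_dia.1 hu
  rw [fld_alt J lam hW hu]
  have e1 := (S1_alt (show 1 ≤ N by omega) hi).1
  have e2 := S2_alt hN hi
  have e1' : (0:ℝ) ≤ (S1 (gA N) u.1 u.2 : ℝ) := by exact_mod_cast e1
  have e2' : (0:ℝ) ≤ (S2 (gA N) u.1 u.2 : ℝ) := by exact_mod_cast e2.1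
  by_cases hs : (N : ℤ) ≤ |u.1| + |u.2| + 1
  · have e3 : (2:ℝ) ≤ (S2 (gA N) u.1 u.2 : ℝ) := by exact_mod_cast e2.2 hs
    have b1 : β * (2 * lam) ≤ β * (J * (S1 (gA N) u.1 u.2 : ℝ)
        + lam * (S2 (gA N) u.1 u.2 : ℝ)) := by
      refine mul_le_mul_of_nonneg_left ?_ hβ.le
      have := mul_le_mul_of_nonneg_left e3 hl.le
      have := mul_nonneg hJ.le e1'
      linarith
    refine le_trans ?_ b1
    by_cases g1 : |u.1| + |u.2| = N
    · rw [if_pos g1, if_neg (by omega)]; simp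
    · rw [if_neg g1, if_pos (by omega)]; simp
  · rw [if_neg (by omega), if_neg (by omega), mul_zero, add_zero]
    positivity

/-- the comparison lemma without a common field, with a factor two -/
theorem compare_two {ι : Type*} [Fintype ι] [DecidableEq ι] {K : ι → ι → ℝ}
    (hK : ∀ i j, 0 ≤ K i j) {R1 R2 R3 : Finset ι} (h12 : Disjoint R1 R2) (h23 : Disjoint R2 R3)
    {ε L κ X : ℝ} (hε : 0 < ε) (hL : 0 ≤ L) (hκ : 0 < κ) {z : ι} {ρ : ι → ι}
    (hρ : ∀ u ∈ R3, ρ u ∈ R2 ∧ κ ≤ K (ρ u) u + K u (ρ u) ∧ z ≠ ρ u)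
    (hinj : Set.InjOn ρ R3)
    (hX : ∀ v, ε + ∑ j ∈ univ.erase v, (K v j + K j v) ≤ X) :
    tpar ε L κ X * ev K (fun i => 2 * (L * (if i ∈ R1 then 1 else 0)
        + ε * (if i ∈ R2 then 1 else 0) + ε * (if i ∈ R3 then 1 else 0))) (sg z)
      ≤ 2 * ev K (fun i => ε * (if i ∈ R1 then 1 else 0) + ε * (if i ∈ R2 then 1 else 0)) (sg z) := by
  have ht0 : 0 < tpar ε L κ X := tpar_pos hε hL hκ X
  have key := compare hK (k := fun _ => 0) (fun _ => le_rfl) h12 h23 hε hL hκ hρ hinj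
    (fun v => by simpa using hX v)
  simp only [zero_add, ev_odd, sub_zero] at key
  have hw : ∀ i : ι, 0 ≤ 2 * (L * (if i ∈ R1 then 1 else 0) + ε * (if i ∈ R2 then 1 else 0)
        + ε * (if i ∈ R3 then (1:ℝ) else 0)) := fun i => by
    have b1 := mul_nonneg hL (i01 (i ∈ R1))
    have b2 := mul_nonneg hε.le (i01 (i ∈ R2))
    have b3 := mul_nonneg hε.le (i01 (i ∈ R3))
    linarith
  have hconc := ev_concave hK (h := fun _ => 0) (fun _ => le_rfl) hw z (t := 1 / 2)
    (by norm_num) (by norm_num)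
  simp only [zero_add, ev_odd, mul_zero] at hconc
  have ehalf : (fun i : ι => (1:ℝ) / 2 * (2 * (L * (if i ∈ R1 then 1 else 0)
        + ε * (if i ∈ R2 then 1 else 0) + ε * (if i ∈ R3 then (1:ℝ) else 0))))
      = fun i => L * (if i ∈ R1 then 1 else 0)
        + ε * (if i ∈ R2 then 1 else 0) + ε * (if i ∈ R3 then (1:ℝ) else 0) := by
    funext i; ring
  rw [ehalf] at hconc
  have := mul_le_mul_of_nonneg_left hconc ht0.le
  linarith

theorem K_sum {J lam β : ℝ} (hJ : 0 < J) (hl : 0 < lam) (hβ : 0 < β) (Λ : Finset Site) (v : Λ) :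
    ∑ j ∈ univ.erase v, (KK β J lam Λ v j + KK β J lam Λ j v) ≤ β * (4 * J + 8 * lam) := by
  have hW := window_win Λ
  have hK0 : ∀ i j, 0 ≤ KK β J lam Λ i j := KK_nonneg hβ.le hJ.le hl.le Λ
  calc ∑ j ∈ univ.erase v, (KK β J lam Λ v j + KK β J lam Λ j v)
      ≤ ∑ j, (KK β J lam Λ v j + KK β J lam Λ j v) :=
        Finset.sum_le_sum_of_subset_of_nonneg (Finset.erase_subset _ _)
          fun i _ _ => add_nonneg (hK0 _ _) (hK0 _ _)
    _ = β * ∑ j : Λ, cpl J lam (v : Site) (j : Site) := by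
        rw [Finset.mul_sum]
        refine Finset.sum_congr rfl fun j _ => ?_
        simp only [KK]
        rw [cpl_comm J lam (j : Site) (v : Site)]
        ring
    _ = β * ∑ j ∈ Λ, cpl J lam (v : Site) j := by
        rw [Finset.sum_coe_sort Λ (fun j => cpl J lam (v : Site) j)]
    _ ≤ β * ∑ j ∈ win Λ, cpl J lam (v : Site) j := by
        refine mul_le_mul_of_nonneg_left (Finset.sum_le_sum_of_subset_of_nonneg hW.1
          fun i _ _ => cpl_nonneg hJ.le hl.le _ _) hβ.le
    _ = β * (4 * J + 8 * lam) := by rw [cpl_sum_le J lam hW v.2]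

/-- Block D2. -/
theorem compare_Dia {J lam β : ℝ} (hJ : 0 < J) (hl : 0 < lam) (hβ : 0 < β) :
    ∃ C : ℝ, 0 < C ∧ ∀ N : ℕ, 4 ≤ N →
      gibbs J lam Vk β (some bcp) (dia N) (fun σ => sp (σ (0, 0)))
        ≤ C * gibbs J lam Vk β (some (alt N)) (dia N) (fun σ => sp (σ (0, 0))) := by
  set ε := β * (2 * lam) with hε
  set L := β * (4 * J + 8 * lam) / 2 with hL
  set κ := β * J with hκ
  set X := ε + β * (4 * J + 8 * lam) with hX
  have hε0 : 0 < ε := by positivity
  have hL0 : 0 ≤ L := by positivity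
  have hκ0 : 0 < κ := by positivity
  have ht0 : 0 < tpar ε L κ X := tpar_pos hε0 hL0 hκ0 X
  refine ⟨2 / tpar ε L κ X, by positivity, fun N hN => ?_⟩
  have h0 : ((0, 0) : Site) ∈ dia N := by rw [mem_dia]; simp
  rw [gibbs_knight J lam β (window_win (dia N)), gibbs_knight J lam β (window_win (dia N))]
  simp only [exs_mem h0]
  have hN' : (4 : ℤ) ≤ N := by exact_mod_cast hN
  have hK0 : ∀ i j, 0 ≤ KK β J lam (dia N) i j := KK_nonneg hβ.le hJ.le hl.le _
  set R1 : Finset (dia N) := univ.filter fun i : dia N => |(i : Site).1| + |(i : Site).2| = N with hR1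
  set R2 : Finset (dia N) :=
    univ.filter fun i : dia N => |(i : Site).1| + |(i : Site).2| = N - 1 with hR2
  set R3 : Finset (dia N) :=
    univ.filter fun i : dia N => |(i : Site).1| + |(i : Site).2| = N - 2 with hR3
  have m1 : ∀ i : dia N, i ∈ R1 ↔ |(i : Site).1| + |(i : Site).2| = N := fun i => by
    simp only [hR1, univ_eq_attach, mem_filter, mem_attach, true_and]
  have m2 : ∀ i : dia N, i ∈ R2 ↔ |(i : Site).1| + |(i : Site).2| = N - 1 := fun i => by
    simp only [hR2, univ_eq_attach, mem_filter, mem_attach, true_and]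
  have m3 : ∀ i : dia N, i ∈ R3 ↔ |(i : Site).1| + |(i : Site).2| = N - 2 := fun i => by
    simp only [hR3, univ_eq_attach, mem_filter, mem_attach, true_and]
  clear_value R1 R2 R3
  have h12 : Disjoint R1 R2 := Finset.disjoint_left.2 fun i h h' => by
    rw [m1] at h; rw [m2] at h'; omega
  have h23 : Disjoint R2 R3 := Finset.disjoint_left.2 fun i h h' => by
    rw [m2] at h; rw [m3] at h'; omega
  have hne : ∀ i : dia N, i ∈ R3 → ¬ ((i : Site).1 = 0 ∧ (i : Site).2 = 0) := by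
    rintro i hi ⟨g1, g2⟩
    rw [m3, g1, g2] at hi
    simp only [abs_zero] at hi
    omega
  have hstep : ∀ i : dia N, i ∈ R3 → st i ∈ dia N := by
    intro i hi
    have h1 := st_layer (hne i hi)
    rw [m3] at hi
    refine mem_dia.2 ?_
    rw [h1, hi]
    omega
  obtain ⟨ρ, hρv⟩ : ∃ ρ : dia N → dia N, ∀ i : dia N, i ∈ R3 → (ρ i : Site) = st i := by
    classical
    refine ⟨fun i => if h : st i ∈ dia N then ⟨_, h⟩ else i, fun i hi => ?_⟩
    simp only [dif_pos (hstep i hi)]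
  have hρ : ∀ u ∈ R3, ρ u ∈ R2 ∧ κ ≤ KK β J lam (dia N) (ρ u) u + KK β J lam (dia N) u (ρ u)
      ∧ (⟨(0, 0), h0⟩ : dia N) ≠ ρ u := by
    intro u hu
    have hv := hρv u hu
    have hu' := (m3 u).1 hu
    have h1 := st_layer (hne u hu)
    have hr2 : |(ρ u : Site).1| + |(ρ u : Site).2| = N - 1 := by rw [hv, h1, hu']; ring
    refine ⟨(m2 _).2 hr2, ?_, ?_⟩
    · have hc : cpl J lam (ρ u : Site) (u : Site) = J := by
        unfold cpl
        rw [if_pos]
        rw [hv, st_dsq]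
      have hc' : cpl J lam (u : Site) (ρ u : Site) = J := by rw [cpl_comm, hc]
      simp only [KK, hc, hc', hκ]
      linarith only []
    · intro h
      rw [← h] at hr2
      simp only [abs_zero] at hr2
      omega
  have hinj : Set.InjOn ρ R3 := by
    intro u hu v hv h
    have h' : (ρ u : Site) = (ρ v : Site) := congrArg Subtype.val h
    rw [hρv u hu, hρv v hv] at h'
    exact Subtype.ext (st_inj (hne u hu) (hne v hv) h')
  have key := compare_two hK0 h12 h23 hε0 hL0 hκ0 hρ hinj (X := X) (fun v => by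
    have := K_sum hJ hl hβ (dia N) v
    simp only [hX]
    linarith only [this])
  have hplus : ev (KK β J lam (dia N))
        (fun i : dia N => β * fld J lam (dia N) (win (dia N)) (fun _ => True) bcp i)
        (sg (⟨(0, 0), h0⟩ : dia N))
      ≤ ev (KK β J lam (dia N)) (fun i => 2 * (L * (if i ∈ R1 then 1 else 0)
        + ε * (if i ∈ R2 then 1 else 0)
        + ε * (if i ∈ R3 then 1 else 0))) (sg (⟨(0, 0), h0⟩ : dia N)) := by
    refine ev_mono_field hK0 (sg_mono _) fun i => ?_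
    simp only [m1, m2, m3]
    exact plus_field hJ hl hβ hN i.2
  have halt : ev (KK β J lam (dia N)) (fun i => ε * (if i ∈ R1 then 1 else 0)
        + ε * (if i ∈ R2 then (1:ℝ) else 0)) (sg (⟨(0, 0), h0⟩ : dia N))
      ≤ ev (KK β J lam (dia N))
        (fun i : dia N => β * fld J lam (dia N) (win (dia N)) (fun _ => True) (alt N) i)
        (sg (⟨(0, 0), h0⟩ : dia N)) := by
    refine ev_mono_field hK0 (sg_mono _) fun i => ?_
    simp only [m1, m2]
    exact alt_field hJ hl hβ hN i.2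
  have h1 := mul_le_mul_of_nonneg_left hplus ht0.le
  rw [div_mul_eq_mul_div, le_div_iff₀ ht0, mul_comm]
  refine (h1.trans key).trans ?_
  exact mul_le_mul_of_nonneg_left halt (by norm_num)

end Vale.Agent.P144.H436
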