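import Vale.Agent.P144.H436.Fields

/-!
The one-point functions in `dia N` with the boundary condition `alt N`.
-/

namespace Vale.Agent.P144.H436

open Finset Vale.Agent.P144 Filter Topology

theorem gA_zero {N p q : ℤ} (h : |p| + |q| ≤ N) : gA N p q = 0 := by
  unfold gA; rw [if_pos h]

theorem sp_odd (n : ℤ) : sp (decide (Odd n)) = ((2 * (n % 2) - 1 : ℤ) : ℝ) := by
  by_cases h : Odd n
  · rw [decide_eq_true h, Int.odd_iff.1 h]; norm_num [sp]
  · rw [decide_eq_false h, Int.even_iff.1 (Int.not_odd_iff_even.1 h)]; norm_num [sp]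

theorem gA_out {N : ℕ} {v : Site} (hv : v ∉ dia N) : sp (alt N v) = (gA N v.1 v.2 : ℝ) := by
  rw [mem_dia] at hv
  unfold alt gA
  rw [if_neg hv]
  split_ifs <;> first | exact sp_odd _ | norm_num [sp]

theorem gP_out {N : ℕ} {v : Site} (hv : v ∉ dia N) : sp (bcp v) = (gP N v.1 v.2 : ℝ) := by
  rw [mem_dia] at hv
  unfold bcp gP
  rw [if_neg hv]
  norm_num [sp]

theorem fld_sum (J lam : ℝ) {N : ℕ} {W : Finset Site} (hW : Window (dia N) W) {η : Config}
    {g : ℤ → ℤ → ℤ} (h1 : ∀ v ∉ dia N, sp (η v) = (g v.1 v.2 : ℝ))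
    (h0 : ∀ v ∈ dia N, g v.1 v.2 = 0) {u : Site} (hu : u ∈ dia N) :
    fld J lam (dia N) W (fun _ => True) η u = J * (S1 g u.1 u.2 : ℝ) + lam * (S2 g u.1 u.2 : ℝ) := by
  have e : fld J lam (dia N) W (fun _ => True) η u
      = ∑ v ∈ W, cpl J lam u v * ((g v.1 v.2 : ℤ) : ℝ) := by
    unfold fld
    refine Finset.sum_congr rfl fun v _ => ?_
    by_cases hv : v ∈ dia N
    · rw [if_neg (fun h => h.1 hv), h0 v hv]; simp
    · rw [if_pos ⟨hv, trivial⟩, h1 v hv]
  rw [e, nb_sum J lam hW hu (fun v => ((g v.1 v.2 : ℤ) : ℝ))]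
  simp only [S1, S2, Prod.fst_add, Prod.snd_add, add_zero]
  push_cast
  ring

theorem fld_alt (J lam : ℝ) {N : ℕ} {W : Finset Site} (hW : Window (dia N) W) {u : Site}
    (hu : u ∈ dia N) : fld J lam (dia N) W (fun _ => True) (alt N) u
      = J * (S1 (gA N) u.1 u.2 : ℝ) + lam * (S2 (gA N) u.1 u.2 : ℝ) :=
  fld_sum J lam hW (fun _ hv => gA_out hv) (fun _ hv => gA_zero (mem_dia.1 hv)) hu

theorem fld_plus (J lam : ℝ) {N : ℕ} {W : Finset Site} (hW : Window (dia N) W) {u : Site}
    (hu : u ∈ dia N) : fld J lam (dia N) W (fun _ => True) bcp u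
      = J * (S1 (gP N) u.1 u.2 : ℝ) + lam * (S2 (gP N) u.1 u.2 : ℝ) :=
  fld_sum J lam hW (fun _ hv => gP_out hv) (fun _ hv => gP_zero (mem_dia.1 hv)) hu

/-- the four corners of `dia N` -/
def corners (N : ℕ) : Finset Site := {((N : ℤ), 0), (0, (N : ℤ)), (-(N : ℤ), 0), (0, -(N : ℤ))}

/-- nearest-neighbour field of `alt N` -/
theorem S1_alt {N : ℕ} (hN : 1 ≤ N) {x y : ℤ} (h : |x| + |y| ≤ N) :
    0 ≤ S1 (gA N) x y ∧ S1 (gA N) x y ≤ 3 ∧ ((x, y) ∉ corners N → S1 (gA N) x y = 0) := by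
  by_cases h0 : x = 0 ∧ y = 0
  · obtain ⟨rfl, rfl⟩ := h0
    have : S1 (gA N) 0 0 = 0 := by
      unfold S1
      rw [gA_zero (by simpa using by exact_mod_cast hN), gA_zero (by simpa using by exact_mod_cast hN),
        gA_zero (by simpa using by exact_mod_cast hN), gA_zero (by simpa using by exact_mod_cast hN)]
      rfl
    rw [this]
    exact ⟨le_rfl, by norm_num, fun _ => rfl⟩
  · revert h
    refine quadrant (P := fun x y => |x| + |y| ≤ N → 0 ≤ S1 (gA N) x y ∧ S1 (gA N) x y ≤ 3 ∧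
      ((x, y) ∉ corners N → S1 (gA N) x y = 0)) ?_ ?_ x y h0
    · intro x y hxy h
      rw [abs_neg, add_comm] at h
      have h' := hxy h
      rw [S1_rot (gA_rot N)]
      refine ⟨h'.1, h'.2.1, fun hc => h'.2.2 fun hc' => hc ?_⟩
      simp only [corners, Finset.mem_insert, Finset.mem_singleton, Prod.mk.injEq] at hc' ⊢
      omega
    · intro x y hx hy h
      rw [abs_of_pos hx, abs_of_nonneg hy] at h
      rcases hy.eq_or_lt with rfl | hy
      · obtain ⟨h1, h2, h3⟩ := a1_y0 (N := (N : ℤ)) (by omega) hx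
        refine ⟨h2, h3, fun hc => h1 ?_⟩
        have : x ≠ N := by
          rintro rfl
          exact hc (by simp [corners])
        omega
      · rw [a1_in h hx hy]
        exact ⟨le_rfl, by norm_num, fun _ => rfl⟩

/-- knight field of `alt N` -/
theorem S2_alt {N : ℕ} (hN : 4 ≤ N) {x y : ℤ} (h : |x| + |y| ≤ N) :
    0 ≤ S2 (gA N) x y ∧ (N ≤ |x| + |y| + 1 → 2 ≤ S2 (gA N) x y) := by
  by_cases h0 : x = 0 ∧ y = 0
  · obtain ⟨rfl, rfl⟩ := h0
    have e : ∀ a b : ℤ, |a| + |b| ≤ 3 → gA N (0 + a) (0 + b) = 0 := by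
      intro a b hab
      refine gA_zero ?_
      rw [zero_add, zero_add]
      omega
    have : S2 (gA N) 0 0 = 0 := by
      unfold S2
      rw [e _ _ (by decide), e _ _ (by decide), e _ _ (by decide), e _ _ (by decide),
        e _ _ (by decide), e _ _ (by decide), e _ _ (by decide), e _ _ (by decide)]
      rfl
    rw [this]
    refine ⟨le_rfl, fun h => ?_⟩
    simp only [abs_zero] at h
    omega
  · revert h
    refine quadrant (P := fun x y => |x| + |y| ≤ N → 0 ≤ S2 (gA N) x y ∧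
      (N ≤ |x| + |y| + 1 → 2 ≤ S2 (gA N) x y)) ?_ ?_ x y h0
    · intro x y hxy h
      rw [abs_neg, add_comm] at h
      have h' := hxy h
      rw [S2_rot (gA_rot N), abs_neg, add_comm |y|]
      exact h'
    · intro x y hx hy h
      rw [abs_of_pos hx, abs_of_nonneg hy] at h ⊢
      have hN' : (4 : ℤ) ≤ N := by exact_mod_cast hN
      by_cases hs : (N : ℤ) - 1 ≤ x + y
      · have : 2 ≤ S2 (gA N) x y := by
          rcases hy.eq_or_lt with rfl | hy
          · exact a2_y0 (by omega) (by omega) (by omega)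
          · rcases (show 1 ≤ y from hy).eq_or_lt with rfl | hy
            · exact a2_y1 (by omega) (by omega) (by omega)
            · rcases (show 1 ≤ x from hx).eq_or_lt with rfl | hx
              · exact a2_x1 h hy hs
              · exact a2_in h hx hy hs
        exact ⟨by omega, fun _ => this⟩
      · have : S2 (gA N) x y = 0 := by
          rcases hy.eq_or_lt with rfl | hy
          · exact a2_y0' hx (by omega)
          · rcases (show 1 ≤ y from hy).eq_or_lt with rfl | hy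
            · exact a2_y1' hx (by omega)
            · rcases (show 1 ≤ x from hx).eq_or_lt with rfl | hx
              · exact a2_x1' hy (by omega)
              · exact a2_in' hx hy (by omega)
        rw [this]
        exact ⟨le_rfl, fun h => by omega⟩

/-- knight field of plus -/
theorem S2_plus {N : ℕ} (hN : 3 ≤ N) {x y : ℤ} (h : |x| + |y| ≤ N - 1) :
    S2 (gP N) x y ≤ 4 := by
  by_cases h0 : x = 0 ∧ y = 0
  · obtain ⟨rfl, rfl⟩ := h0
    rw [p2 (by simpa using by exact_mod_cast hN)]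
    norm_num
  · revert h
    refine quadrant (P := fun x y => |x| + |y| ≤ N - 1 → S2 (gP N) x y ≤ 4) ?_ ?_ x y h0
    · intro x y hxy h
      rw [abs_neg, add_comm] at h
      rw [S2_rot (gP_rot N)]
      exact hxy h
    · intro x y hx hy h
      rw [abs_of_pos hx, abs_of_nonneg hy] at h
      exact p2' hx hy h

/-! ### vanishing one-point function at `λ = 0` -/

section general

variable {ι : Type*} [Fintype ι] [DecidableEq ι]

/-- spin-flip symmetry -/
theorem ev_odd (K : ι → ι → ℝ) (z : ι) : ev K (fun _ => 0) (sg z) = 0 := by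
  have h : ∑ s, sg z s * wt K (fun _ => 0) s = -∑ s, sg z s * wt K (fun _ => 0) s := by
    rw [← Finset.sum_neg_distrib]
    refine Finset.sum_equiv (⟨fun s i => !(s i), fun s i => !(s i), fun s => by simp,
      fun s => by simp⟩ : (ι → Bool) ≃ (ι → Bool)) (by simp) fun s _ => ?_
    have : wt K (fun _ => 0) s = wt K (fun _ => 0) (fun i => !(s i)) := by
      unfold wt ex
      simp only [sp_not, neg_mul_neg, zero_mul]
    simp only [Equiv.coe_fn_mk, ← this, sg, sp_not, neg_mul, neg_neg]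
  unfold ev
  rw [div_eq_zero_iff]
  left
  linarith

/-- the one-point function is at most its derivative at zero field -/
theorem ev_le_deriv {K : ι → ι → ℝ} {h : ι → ℝ} (hK : ∀ i j, 0 ≤ K i j) (hh : ∀ i, 0 ≤ h i)
    (z : ι) : ev K h (sg z) ≤ ∑ i, h i * ev K (fun _ => 0) (fun s => sg z s * sg i s) := by
  have hd := hasDerivAt_ev K (fun _ => 0) h (sg z) 0
  rw [cov_linear] at hd
  simp only [zero_mul, add_zero, cov, ev_odd, sub_zero] at hd
  have hs := hd.tendsto_slope_zero_right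
  refine ge_of_tendsto hs ?_
  have h1 : ∀ᶠ t in 𝓝[>] (0:ℝ), t < 1 :=
    eventually_nhdsWithin_of_eventually_nhds (gt_mem_nhds one_pos)
  filter_upwards [h1, self_mem_nhdsWithin] with t ht1 ht
  have ht : 0 < t := ht
  have hc := ev_concave hK (h := fun _ => 0) (fun _ => le_rfl) hh z ht.le ht1.le
  simp only [zero_add, ev_odd, mul_zero, zero_mul, sub_zero, smul_eq_mul] at hc ⊢
  rw [inv_mul_eq_div, le_div_iff₀ ht, mul_comm]
  exact hc

end general

theorem corners_sub (N : ℕ) : corners N ⊆ dia N := by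
  intro x hx
  simp only [corners, Finset.mem_insert, Finset.mem_singleton] at hx
  rw [mem_dia]
  rcases hx with rfl | rfl | rfl | rfl <;> simp

/-- Block D1, at every site. -/
theorem alt_zero {J : ℝ} (hJ : 0 < J) {N : ℕ} (hN : 1 ≤ N) {x : Site} (hx : x ∈ dia N)
    (hxc : x ∉ corners N) :
    |gibbs J 0 (fun _ => 0) (Kc / J) (some (alt N)) (dia N) (fun σ => sp (σ x))|
      ≤ 3 * Kc * ∑ c ∈ corners N, fcor J (dia N) {x, c} := by
  have hβ : 0 ≤ Kc / J := (div_pos kc_pos hJ).le
  have hβJ : Kc / J * J = Kc := div_mul_cancel₀ _ hJ.ne'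
  have hW := window_win (dia N)
  rw [gibbs_zero J _ hW]
  have hf : (fun i : dia N => Kc / J * fld J 0 (dia N) (win (dia N)) (fun _ => True) (alt N) i)
      = fun i : dia N => Kc * (S1 (gA N) (i : Site).1 (i : Site).2 : ℝ) := by
    funext i
    rw [fld_alt J 0 hW i.2, zero_mul, add_zero, ← mul_assoc, hβJ]
  rw [hf]
  simp only [exs_mem hx]
  set K := KK (Kc / J) J 0 (dia N) with hKdef
  have hK : ∀ i j, 0 ≤ K i j := KK_nonneg hβ hJ.le le_rfl _
  have hh : ∀ i : dia N, 0 ≤ Kc * (S1 (gA N) (i : Site).1 (i : Site).2 : ℝ) := fun i => by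
    have := (S1_alt hN (mem_dia.1 i.2)).1
    have h' : (0:ℝ) ≤ (S1 (gA N) (i : Site).1 (i : Site).2 : ℝ) := by exact_mod_cast this
    exact mul_nonneg kc_pos.le h'
  rw [abs_of_nonneg]
  swap
  · rw [← ev_odd K (⟨x, hx⟩ : dia N)]
    exact ev_mono_field hK (sg_mono (⟨x, hx⟩ : dia N)) hh
  refine (ev_le_deriv hK hh (⟨x, hx⟩ : dia N)).trans ?_
  have hcor : ∀ i : dia N, x ≠ i → ev K (fun _ => 0) (fun s => sg (⟨x, hx⟩ : dia N) s * sg i s)
      = fcor J (dia N) {x, (i : Site)} := by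
    intro i hi
    rw [fcor_eq, cor_pair _ _ _ _ hi]
    simp only [exs_mem hx, exs_mem i.2]
    rfl
  have hterm : ∀ i : dia N, Kc * (S1 (gA N) (i : Site).1 (i : Site).2 : ℝ)
      * ev K (fun _ => 0) (fun s => sg (⟨x, hx⟩ : dia N) s * sg i s)
      ≤ if (i : Site) ∈ corners N then 3 * Kc * fcor J (dia N) {x, (i : Site)} else 0 := by
    intro i
    have h1 := S1_alt hN (mem_dia.1 i.2)
    by_cases hi : (i : Site) ∈ corners N
    · rw [if_pos hi, hcor i (fun h => hxc (h ▸ hi))]
      have h2 : (S1 (gA N) (i : Site).1 (i : Site).2 : ℝ) ≤ 3 := by exact_mod_cast h1.2.1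
      have h3 : 0 ≤ fcor J (dia N) {x, (i : Site)} := by
        rw [fcor_eq]; exact cor_nonneg hβ hJ.le le_rfl _ _
      have h4 := kc_pos
      refine mul_le_mul_of_nonneg_right ?_ h3
      nlinarith
    · rw [if_neg hi, h1.2.2 hi]
      simp
  refine (Finset.sum_le_sum fun i _ => hterm i).trans (le_of_eq ?_)
  rw [Finset.mul_sum, Finset.sum_coe_sort (dia N) (fun c => if c ∈ corners N then
    3 * Kc * fcor J (dia N) {x, c} else 0), Finset.sum_ite_mem,
    Finset.inter_eq_right.2 (corners_sub N)]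

end Vale.Agent.P144.H436
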