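import Vale.Agent.P144.H436.Gks

/-!
An upper bound for truncated correlations of ferromagnets in zero field (Lebowitz, Ellis–Monroe).
-/

namespace Vale.Agent.P144.H436

open Finset Vale.Agent.P144

variable {ι : Type*} [Fintype ι] [DecidableEq ι]

/-- unnormalised expectation -/
noncomputable def um (K : ι → ι → ℝ) (h : ι → ℝ) (f : (ι → Bool) → ℝ) : ℝ := ∑ s, f s * wt K h s

theorem rep4 (K : ι → ι → ℝ) (h : ι → ℝ) (g0 g1 g2 g3 : (ι → Bool) → ℝ) :
    ∑ p : ι → Fin 4 → Bool, g0 (fun l => p l 0) * g1 (fun l => p l 1) * g2 (fun l => p l 2)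
      * g3 (fun l => p l 3) * ∏ u : Fin 4, wt K h (fun l => p l u)
      = um K h g0 * um K h g1 * um K h g2 * um K h g3 := by
  have := replica_factor K h ![g0, g1, g2, g3]
  simp only [Fin.prod_univ_four, Matrix.cons_val_zero, Matrix.cons_val_one, Matrix.cons_val] at this
  unfold um
  rw [← this]
  refine Finset.sum_congr rfl fun p _ => ?_
  rw [Fin.prod_univ_four]
  ring

theorem rep8 (K : ι → ι → ℝ) (h : ι → ℝ) (f g : (ι → Bool) → ℝ) (i j : ι) :
    ∑ p : ι → Fin 4 → Bool, f (fun l => p l 0) * g (fun l => p l 1)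
      * ((sp (p i 2) - sp (p i 3)) * (sp (p j 2) - sp (p j 3))
        - (sp (p i 0) - sp (p i 1)) * (sp (p j 0) - sp (p j 1)))
      * ∏ u : Fin 4, wt K h (fun l => p l u)
      = um K h f * um K h g * (2 * um K h (fun s => sg i s * sg j s) * um K h (fun _ => 1)
          - 2 * um K h (sg i) * um K h (sg j))
        - um K h (fun s => f s * (sg i s * sg j s)) * um K h g * um K h (fun _ => 1) ^ 2
        - um K h f * um K h (fun s => g s * (sg i s * sg j s)) * um K h (fun _ => 1) ^ 2
        + um K h (fun s => f s * sg i s) * um K h (fun s => g s * sg j s) * um K h (fun _ => 1) ^ 2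
        + um K h (fun s => f s * sg j s) * um K h (fun s => g s * sg i s)
          * um K h (fun _ => 1) ^ 2 := by
  have e1 := rep4 K h f g (fun s => sg i s * sg j s) (fun _ => 1)
  have e2 := rep4 K h f g (fun _ => 1) (fun s => sg i s * sg j s)
  have e3 := rep4 K h f g (sg i) (sg j)
  have e4 := rep4 K h f g (sg j) (sg i)
  have e5 := rep4 K h (fun s => f s * (sg i s * sg j s)) g (fun _ => 1) (fun _ => 1)
  have e6 := rep4 K h f (fun s => g s * (sg i s * sg j s)) (fun _ => 1) (fun _ => 1)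
  have e7 := rep4 K h (fun s => f s * sg i s) (fun s => g s * sg j s) (fun _ => 1) (fun _ => 1)
  have e8 := rep4 K h (fun s => f s * sg j s) (fun s => g s * sg i s) (fun _ => 1) (fun _ => 1)
  have key : ∑ p : ι → Fin 4 → Bool, f (fun l => p l 0) * g (fun l => p l 1)
      * ((sp (p i 2) - sp (p i 3)) * (sp (p j 2) - sp (p j 3))
        - (sp (p i 0) - sp (p i 1)) * (sp (p j 0) - sp (p j 1)))
      * ∏ u : Fin 4, wt K h (fun l => p l u)
      = um K h f * um K h g * um K h (fun s => sg i s * sg j s) * um K h (fun _ => 1)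
        + um K h f * um K h g * um K h (fun _ => 1) * um K h (fun s => sg i s * sg j s)
        - um K h f * um K h g * um K h (sg i) * um K h (sg j)
        - um K h f * um K h g * um K h (sg j) * um K h (sg i)
        - um K h (fun s => f s * (sg i s * sg j s)) * um K h g * um K h (fun _ => 1)
          * um K h (fun _ => 1)
        - um K h f * um K h (fun s => g s * (sg i s * sg j s)) * um K h (fun _ => 1)
          * um K h (fun _ => 1)
        + um K h (fun s => f s * sg i s) * um K h (fun s => g s * sg j s) * um K h (fun _ => 1)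
          * um K h (fun _ => 1)
        + um K h (fun s => f s * sg j s) * um K h (fun s => g s * sg i s) * um K h (fun _ => 1)
          * um K h (fun _ => 1) := by
    rw [← e1, ← e2, ← e3, ← e4, ← e5, ← e6, ← e7, ← e8]
    simp only [← Finset.sum_add_distrib, ← Finset.sum_sub_distrib]
    refine Finset.sum_congr rfl fun p _ => ?_
    simp only [sg]
    ring
  rw [key]
  ring

/-- spin-flip symmetry -/
theorem ev_odd' (K : ι → ι → ℝ) (z : ι) : ev K (fun _ => 0) (sg z) = 0 := by
  have h : ∑ s, sg z s * wt K (fun _ => 0) s = -∑ s, sg z s * wt K (fun _ => 0) s := by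
    rw [← Finset.sum_neg_distrib]
    refine Finset.sum_equiv (⟨fun s i => !(s i), fun s i => !(s i), fun s => by simp,
      fun s => by simp⟩ : (ι → Bool) ≃ (ι → Bool)) (by simp) fun s _ => ?_
    have : wt K (fun _ => 0) s = wt K (fun _ => 0) (fun i => !(s i)) := by
      unfold wt ex
      simp only [sp_not, neg_mul_neg, zero_mul]
    simp only [Equiv.coe_fn_mk, ← this, sg, sp_not, neg_mul, neg_neg]
  unfold ev
  rw [div_eq_zero_iff]
  left
  linarith

/-- positivity in the rotated variables -/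
theorem rep_nonneg {K : ι → ι → ℝ} {h : ι → ℝ} (hK : ∀ i j, 0 ≤ K i j) (hh : ∀ i, 0 ≤ h i)
    (B : Finset ι) (i j : ι) :
    0 ≤ ∑ p : ι → Fin 4 → Bool, (∏ b ∈ B, (sp (p b 0) + sp (p b 1)))
      * ((sp (p i 2) - sp (p i 3)) * (sp (p j 2) - sp (p j 3))
        - (sp (p i 0) - sp (p i 1)) * (sp (p j 0) - sp (p j 1)))
      * ∏ u : Fin 4, wt K h (fun l => p l u) := by
  have hprod : Vale.Agent.P144.MP (fun p : ι → Fin 4 → Bool => ∏ b ∈ B, (vv (p b) 0 + vv (p b) 1)) := by
    classical
    induction B using Finset.induction_on with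
    | empty => simpa using MP_const (ι := ι) (zero_le_one (α := ℝ))
    | insert a T ha ih =>
      simp only [Finset.prod_insert ha]
      exact MP_mul (MP_add (MP_var a 0) (MP_var a 1)) ih
  have hq : Vale.Agent.P144.MP (fun p : ι → Fin 4 → Bool =>
      (2:ℝ) * (vv (p i) 2 * vv (p j) 3 + vv (p i) 3 * vv (p j) 2)) :=
    MP_mul (MP_const (by norm_num)) (MP_add (MP_mul (MP_var i 2) (MP_var j 3))
      (MP_mul (MP_var i 3) (MP_var j 2)))
  have h1 := MP_mul (MP_mul hprod hq) (MP_exp (MP_rotE hK hh)) _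
    Vale.Agent.P144.PosF_one (fun _ _ => 0)
  refine h1.trans (le_of_eq ?_)
  refine Finset.sum_congr rfl fun p _ => ?_
  simp only [mono_zero, rotE_eq, Real.exp_sum, one_mul, mul_one]
  have e1 : ∀ b, vv (p b) 0 + vv (p b) 1 = sp (p b 0) + sp (p b 1) := by
    intro b; rw [vv0, vv1]; ring
  have e2 : 2 * (vv (p i) 2 * vv (p j) 3 + vv (p i) 3 * vv (p j) 2)
      = (sp (p i 2) - sp (p i 3)) * (sp (p j 2) - sp (p j 3))
        - (sp (p i 0) - sp (p i 1)) * (sp (p j 0) - sp (p j 1)) := by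
    rw [vv2, vv3, vv2, vv3]; ring
  simp only [e1, e2]
  rfl

/-- The upper bound for truncated correlations. -/
theorem lebowitz {K : ι → ι → ℝ} (hK : ∀ i j, 0 ≤ K i j) (B : Finset ι) (i j : ι) :
    ev K (fun _ => 0) (fun s => (∏ b ∈ B, sg b s) * (sg i s * sg j s))
      - ev K (fun _ => 0) (fun s => ∏ b ∈ B, sg b s)
        * ev K (fun _ => 0) (fun s => sg i s * sg j s)
      ≤ ∑ C ∈ B.powerset, ev K (fun _ => 0) (fun s => (∏ b ∈ C, sg b s) * sg i s)
        * ev K (fun _ => 0) (fun s => (∏ b ∈ B \ C, sg b s) * sg j s) := by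
  classical
  have h1 := rep_nonneg hK (h := fun _ => 0) (fun _ => le_rfl) B i j
  have h2 : ∀ p : ι → Fin 4 → Bool, (∏ b ∈ B, (sp (p b 0) + sp (p b 1)))
      = ∑ C ∈ B.powerset, (∏ b ∈ C, sg b (fun l => p l 0)) * ∏ b ∈ B \ C, sg b (fun l => p l 1) := by
    intro p
    rw [Finset.prod_add]
    rfl
  simp only [h2, Finset.sum_mul] at h1
  rw [Finset.sum_comm] at h1
  simp only [fun C : Finset ι => rep8 K (fun _ => 0) (fun s => ∏ b ∈ C, sg b s)
    (fun s => ∏ b ∈ B \ C, sg b s) i j] at h1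
  set Z := um K (fun _ => 0) (fun _ => 1) with hZdef
  have hZ : 0 < Z := by
    have := Z_pos K (fun _ => (0:ℝ))
    rw [hZdef]; unfold um; simpa using this
  have hev : ∀ f : (ι → Bool) → ℝ, um K (fun _ => 0) f = Z * ev K (fun _ => 0) f := by
    intro f
    have : Z = ∑ s, wt K (fun _ => 0) s := by rw [hZdef]; unfold um; simp
    unfold ev
    rw [← this, mul_div_cancel₀ _ hZ.ne']
    rfl
  have hodd : ∀ k, um K (fun _ => 0) (sg k) = 0 := by
    intro k
    rw [hev, ev_odd', mul_zero]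
  set e : ((ι → Bool) → ℝ) → ℝ := ev K (fun _ => 0) with he
  simp only [hodd, mul_zero, sub_zero, hev] at h1
  -- divide by `Z ^ 4`
  have h3 : 0 ≤ ∑ C ∈ B.powerset, (2 * (e (fun s => ∏ b ∈ C, sg b s)
        * e (fun s => ∏ b ∈ B \ C, sg b s) * e (fun s => sg i s * sg j s))
      - e (fun s => (∏ b ∈ C, sg b s) * (sg i s * sg j s)) * e (fun s => ∏ b ∈ B \ C, sg b s)
      - e (fun s => ∏ b ∈ C, sg b s) * e (fun s => (∏ b ∈ B \ C, sg b s) * (sg i s * sg j s))
      + e (fun s => (∏ b ∈ C, sg b s) * sg i s) * e (fun s => (∏ b ∈ B \ C, sg b s) * sg j s)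
      + e (fun s => (∏ b ∈ C, sg b s) * sg j s) * e (fun s => (∏ b ∈ B \ C, sg b s) * sg i s)) := by
    have h4 : 0 < Z ^ 4 := by positivity
    refine (mul_nonneg_iff_of_pos_left h4).1 ?_
    refine h1.trans (le_of_eq ?_)
    rw [Finset.mul_sum]
    refine Finset.sum_congr rfl fun C _ => ?_
    ring
  -- the involution `C ↦ B \ C`
  have hinv : ∀ G : Finset ι → Finset ι → ℝ,
      ∑ C ∈ B.powerset, G C (B \ C) = ∑ C ∈ B.powerset, G (B \ C) C := by
    intro G
    refine Finset.sum_bij' (fun C _ => B \ C) (fun C _ => B \ C) ?_ ?_ ?_ ?_ ?_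
    · intro C _; exact Finset.mem_powerset.2 Finset.sdiff_subset
    · intro C _; exact Finset.mem_powerset.2 Finset.sdiff_subset
    · intro C hC; exact Finset.sdiff_sdiff_eq_self (Finset.mem_powerset.1 hC)
    · intro C hC; exact Finset.sdiff_sdiff_eq_self (Finset.mem_powerset.1 hC)
    · intro C hC
      simp only [Finset.sdiff_sdiff_eq_self (Finset.mem_powerset.1 hC)]
  have i1 := hinv (fun C D => e (fun s => ∏ b ∈ C, sg b s)
    * e (fun s => (∏ b ∈ D, sg b s) * (sg i s * sg j s)))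
  have i2 := hinv (fun C D => e (fun s => (∏ b ∈ C, sg b s) * sg j s)
    * e (fun s => (∏ b ∈ D, sg b s) * sg i s))
  simp only [Finset.sum_add_distrib, Finset.sum_sub_distrib] at h3
  rw [i1, i2] at h3
  -- keep the term `C = B` only
  have hG : ∀ C : Finset ι, Gin (fun s : ι → Bool => ∏ b ∈ C, sg b s) := fun C =>
    Gin.prod _ fun b _ => Gin.spin b
  have hpos : ∀ C ∈ B.powerset, 0 ≤ (e (fun s => (∏ b ∈ C, sg b s) * (sg i s * sg j s))
      - e (fun s => ∏ b ∈ C, sg b s) * e (fun s => sg i s * sg j s))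
        * e (fun s => ∏ b ∈ B \ C, sg b s) := by
    intro C _
    refine mul_nonneg (sub_nonneg.2 ?_) (gks1 hK (fun _ => le_rfl) (hG _))
    exact gks2 hK (fun _ => le_rfl) (hG C) ((Gin.spin i).mul (Gin.spin j))
  have hsingle := Finset.single_le_sum hpos (Finset.mem_powerset.2 (Finset.Subset.refl B))
  have hB : e (fun s => ∏ b ∈ B \ B, sg b s) = 1 := by
    have h5 : B \ B = ∅ := by simp
    rw [h5]
    simp only [Finset.prod_empty]
    exact ev_const _ _ 1
  rw [hB, mul_one] at hsingle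
  refine hsingle.trans ?_
  have hexp : ∑ C ∈ B.powerset, (e (fun s => (∏ b ∈ C, sg b s) * (sg i s * sg j s))
      - e (fun s => ∏ b ∈ C, sg b s) * e (fun s => sg i s * sg j s))
        * e (fun s => ∏ b ∈ B \ C, sg b s)
      = ∑ C ∈ B.powerset, e (fun s => (∏ b ∈ C, sg b s) * (sg i s * sg j s))
          * e (fun s => ∏ b ∈ B \ C, sg b s)
        - ∑ C ∈ B.powerset, e (fun s => ∏ b ∈ C, sg b s) * e (fun s => ∏ b ∈ B \ C, sg b s)
          * e (fun s => sg i s * sg j s) := by
    rw [← Finset.sum_sub_distrib]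
    exact Finset.sum_congr rfl fun C _ => by ring
  rw [hexp]
  have c1 : ∑ C ∈ B.powerset, e (fun s => ∏ b ∈ B \ C, sg b s)
      * e (fun s => (∏ b ∈ C, sg b s) * (sg i s * sg j s))
      = ∑ C ∈ B.powerset, e (fun s => (∏ b ∈ C, sg b s) * (sg i s * sg j s))
          * e (fun s => ∏ b ∈ B \ C, sg b s) := Finset.sum_congr rfl fun C _ => mul_comm _ _
  have c2 : ∑ C ∈ B.powerset, e (fun s => (∏ b ∈ B \ C, sg b s) * sg j s)
      * e (fun s => (∏ b ∈ C, sg b s) * sg i s)
      = ∑ C ∈ B.powerset, e (fun s => (∏ b ∈ C, sg b s) * sg i s)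
        * e (fun s => (∏ b ∈ B \ C, sg b s) * sg j s) := Finset.sum_congr rfl fun C _ => mul_comm _ _
  rw [c1, c2, ← Finset.mul_sum] at h3
  linarith

end Vale.Agent.P144.H436
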