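import Vale.Agent.P144.H436.DiaDisc
import Vale.Agent.P144.H436.Leb

/-!
Upper bounds for the `n`-point functions, and the existence of the limits of the spin correlations
from the existence of the limits of ratios.
-/

namespace Vale.Agent.P144.H436

open Finset Vale.Agent.P144 Filter Topology

section leb

variable {β J lam : ℝ}

/-- the correlation of sites of `Λ` as an expectation -/
theorem cor_sub (Λ : Finset Site) (C : Finset Λ) :
    cor β J lam Λ (C.map (Function.Embedding.subtype _))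
      = ev (KK β J lam Λ) (fun _ => 0) (fun s => ∏ b ∈ C, sg b s) := by
  unfold cor
  congr 1
  funext s
  rw [Finset.prod_map]
  refine Finset.prod_congr rfl fun b _ => ?_
  show sp (exs Λ (fun _ => true) s b.1) = _
  rw [exs_mem b.2]
  rfl

theorem sum_powerset_map {α β' : Type*} [DecidableEq β'] (e : α ↪ β') (B : Finset α)
    (f : Finset β' → ℝ) :
    ∑ C ∈ B.powerset, f (C.map e) = ∑ D ∈ (B.map e).powerset, f D := by
  classical
  refine Finset.sum_nbij (fun C => C.map e) ?_ ?_ ?_ ?_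
  · intro C hC
    rw [Finset.mem_powerset] at hC ⊢
    exact Finset.map_subset_map.2 hC
  · intro C _ D _ h
    exact Finset.map_injective e h
  · intro D hD
    rw [Finset.mem_coe, Finset.mem_powerset] at hD
    obtain ⟨C, hC, rfl⟩ := Finset.subset_map_iff.1 hD
    exact ⟨C, by rw [Finset.mem_coe, Finset.mem_powerset]; exact hC, rfl⟩
  · intro C _; rfl

/-- The inequality of Lebowitz type for free correlations. -/
theorem cor_leb (hβ : 0 ≤ β) (hJ : 0 ≤ J) (hl : 0 ≤ lam) {Λ B : Finset Site} (hB : B ⊆ Λ)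
    {i j : Site} (hi : i ∈ Λ) (hj : j ∈ Λ) (hij : i ≠ j) (hiB : i ∉ B) (hjB : j ∉ B) :
    cor β J lam Λ (insert i (insert j B)) ≤ cor β J lam Λ B * cor β J lam Λ {i, j}
      + ∑ C ∈ B.powerset, cor β J lam Λ (insert i C) * cor β J lam Λ (insert j (B \ C)) := by
  set e : Λ ↪ Site := Function.Embedding.subtype _ with he
  obtain ⟨B', rfl⟩ : ∃ B' : Finset Λ, B = B'.map e := by
    refine ⟨B.subtype (· ∈ Λ), ?_⟩
    rw [he, Finset.subtype_map, Finset.filter_true_of_mem hB]
  set i' : Λ := ⟨i, hi⟩ with hi'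
  set j' : Λ := ⟨j, hj⟩ with hj'
  have hi2 : i' ∉ B' := fun h => hiB (Finset.mem_map.2 ⟨i', h, rfl⟩)
  have hj2 : j' ∉ B' := fun h => hjB (Finset.mem_map.2 ⟨j', h, rfl⟩)
  have hij2 : i' ≠ j' := fun h => hij (congrArg Subtype.val h)
  have h := lebowitz (KK_nonneg hβ hJ hl Λ) B' i' j'
  have e1 : cor β J lam Λ (insert i (insert j (B'.map e)))
      = ev (KK β J lam Λ) (fun _ => 0) (fun s => (∏ b ∈ B', sg b s) * (sg i' s * sg j' s)) := by
    have : insert i (insert j (B'.map e)) = (insert i' (insert j' B')).map e := by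
      rw [Finset.map_insert, Finset.map_insert]; rfl
    rw [this, cor_sub]
    congr 1
    funext s
    rw [Finset.prod_insert, Finset.prod_insert hj2]
    · ring
    · rw [Finset.mem_insert]
      rintro (h | h)
      · exact hij2 h
      · exact hi2 h
  have e2 : cor β J lam Λ {i, j} = ev (KK β J lam Λ) (fun _ => 0) (fun s => sg i' s * sg j' s) := by
    rw [cor_pair _ _ _ _ hij]
    congr 1
    funext s
    rw [exs_mem hi, exs_mem hj]
    rfl
  have e3 : ∑ C ∈ (B'.map e).powerset, cor β J lam Λ (insert i C)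
        * cor β J lam Λ (insert j (B'.map e \ C))
      = ∑ C ∈ B'.powerset, ev (KK β J lam Λ) (fun _ => 0) (fun s => (∏ b ∈ C, sg b s) * sg i' s)
        * ev (KK β J lam Λ) (fun _ => 0) (fun s => (∏ b ∈ B' \ C, sg b s) * sg j' s) := by
    rw [← sum_powerset_map e B' (fun C => cor β J lam Λ (insert i C)
        * cor β J lam Λ (insert j (B'.map e \ C)))]
    refine Finset.sum_congr rfl fun C hC => ?_
    rw [Finset.mem_powerset] at hC
    congr 1
    · have : insert i (C.map e) = (insert i' C).map e := by rw [Finset.map_insert]; rfl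
      rw [this, cor_sub]
      congr 1
      funext s
      rw [Finset.prod_insert (fun h => hi2 (hC h)), mul_comm]
    · have : insert j (B'.map e \ C.map e) = (insert j' (B' \ C)).map e := by
        rw [Finset.map_insert, Finset.map_sdiff]; rfl
      rw [this, cor_sub]
      congr 1
      funext s
      rw [Finset.prod_insert (fun h => hj2 (Finset.sdiff_subset h)), mul_comm]
  rw [e1, e2, e3, cor_sub]
  linarith

/-- spin-flip symmetry -/
theorem ev_flip {ι : Type*} [Fintype ι] [DecidableEq ι] (K : ι → ι → ℝ) (F : (ι → Bool) → ℝ) :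
    ev K (fun _ => 0) F = ev K (fun _ => 0) (fun s => F (fun i => !(s i))) := by
  unfold ev
  congr 1
  refine Finset.sum_equiv (⟨fun s i => !(s i), fun s i => !(s i), fun s => by simp,
      fun s => by simp⟩ : (ι → Bool) ≃ (ι → Bool)) (by simp) fun s _ => ?_
  have : wt K (fun _ => 0) s = wt K (fun _ => 0) (fun i => !(s i)) := by
    unfold wt ex
    simp only [sp_not, neg_mul_neg, zero_mul]
  simp only [Equiv.coe_fn_mk, Bool.not_not, ← this]

/-- odd correlations vanish -/
theorem cor_odd {Λ A : Finset Site} (hA : A ⊆ Λ) (ho : Odd A.card) : cor β J lam Λ A = 0 := by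
  obtain ⟨A', rfl⟩ : ∃ A' : Finset Λ, A = A'.map (Function.Embedding.subtype _) := by
    refine ⟨A.subtype (· ∈ Λ), ?_⟩
    rw [Finset.subtype_map, Finset.filter_true_of_mem hA]
  rw [cor_sub]
  rw [Finset.card_map] at ho
  have h := ev_flip (KK β J lam Λ) (fun s => ∏ b ∈ A', sg b s)
  have hflip : ∀ s : Λ → Bool, ∏ b ∈ A', sg b (fun i => !(s i)) = (-1) * ∏ b ∈ A', sg b s := by
    intro s
    have : ∀ b : Λ, sg b (fun i => !(s i)) = -sg b s := fun b => by
      unfold sg; rw [sp_not]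
    simp only [this]
    rw [Finset.prod_neg, ho.neg_one_pow]
  simp only [hflip] at h
  rw [ev_const_mul] at h
  linarith

end leb

section upper

theorem fcor_two {J : ℝ} (hJ : 0 < J)
    (hE : ∀ k : ℕ, 1 ≤ k → Tendsto (fun M : ℕ => fcor J (box M) {(0, 0), ((k : ℤ), (k : ℤ))}) atTop
      (𝓝 (Dg k)))
    (hA : ∃ A > 0, Tendsto (fun n : ℕ => (n : ℝ) ^ (1 / 4 : ℝ) * Dg n) atTop (𝓝 A)) :
    ∃ C : ℝ, 0 ≤ C ∧ ∀ (Λ : Finset Site) (L : ℕ) (u v : Site), u ∈ Λ → v ∈ Λ → 2 ≤ L →
      (L : ℤ) ≤ |u.1 - v.1| + |u.2 - v.2| → fcor J Λ {u, v} ≤ C * (L : ℝ) ^ (-(1 / 4) : ℝ) := by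
  obtain ⟨B, hB, hDg⟩ := Dg_bound hA
  refine ⟨(Real.tanh Kc)⁻¹ * B * 4, by have := tanh_kc_pos; positivity, ?_⟩
  intro Λ L u v hu hv hL huv
  obtain ⟨k, hk⟩ : ∃ k : ℕ, (k : ℤ) = (|u.1 - v.1| + |u.2 - v.2|) / 2 :=
    ⟨((|u.1 - v.1| + |u.2 - v.2|) / 2).toNat, Int.toNat_of_nonneg (by positivity)⟩
  have hk1 : 1 ≤ k := by omega
  have hkL : (L : ℝ) ≤ 4 * k := by
    have : (L : ℤ) ≤ 4 * k := by omega
    exact_mod_cast this
  refine (fcor_le hJ hE Λ hu hv hk1 hk).trans ?_
  have h1 := hDg k hk1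
  have hLpos : (0:ℝ) < L := by positivity
  have hkpos : (0:ℝ) < k := by positivity
  have h2 : (k : ℝ) ^ (-(1 / 4) : ℝ) ≤ 4 * (L : ℝ) ^ (-(1 / 4) : ℝ) := by
    have h3 : (k : ℝ) ^ (-(1 / 4) : ℝ) ≤ ((L : ℝ) / 4) ^ (-(1 / 4) : ℝ) :=
      Real.rpow_le_rpow_of_nonpos (by positivity) (by linarith) (by norm_num)
    refine h3.trans ?_
    rw [Real.div_rpow hLpos.le (by norm_num), Real.rpow_neg (by norm_num : (0:ℝ) ≤ 4), div_inv_eq_mul,
      mul_comm]
    refine mul_le_mul_of_nonneg_right ?_ (by positivity)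
    calc (4:ℝ) ^ (1 / 4 : ℝ) ≤ (4:ℝ) ^ (1 : ℝ) :=
          Real.rpow_le_rpow_of_exponent_le (by norm_num) (by norm_num)
      _ = 4 := Real.rpow_one 4
  have h4 : 0 < (Real.tanh Kc)⁻¹ := inv_pos.2 tanh_kc_pos
  calc (Real.tanh Kc)⁻¹ * Dg k ≤ (Real.tanh Kc)⁻¹ * (B * (4 * (L : ℝ) ^ (-(1 / 4) : ℝ))) :=
        mul_le_mul_of_nonneg_left (h1.trans (mul_le_mul_of_nonneg_left h2 hB.le)) h4.le
    _ = _ := by ring

/-- Upper bound for the `n`-point functions of points at mutual distance at least `L`. -/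
theorem fcor_upper {J : ℝ} (hJ : 0 < J)
    (hE : ∀ k : ℕ, 1 ≤ k → Tendsto (fun M : ℕ => fcor J (box M) {(0, 0), ((k : ℤ), (k : ℤ))}) atTop
      (𝓝 (Dg k)))
    (hA : ∃ A > 0, Tendsto (fun n : ℕ => (n : ℝ) ^ (1 / 4 : ℝ) * Dg n) atTop (𝓝 A)) (n : ℕ) :
    ∃ C : ℝ, 0 ≤ C ∧ ∀ (Λ A : Finset Site) (L : ℕ), A ⊆ Λ → A.card = n → 2 ≤ L →
      (∀ u ∈ A, ∀ v ∈ A, u ≠ v → (L : ℤ) ≤ |u.1 - v.1| + |u.2 - v.2|) →
      fcor J Λ A ≤ C * (L : ℝ) ^ (-(n : ℝ) / 8) := by
  have hβ : 0 ≤ Kc / J := (div_pos kc_pos hJ).le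
  obtain ⟨C₂, hC₂, hfc⟩ := fcor_two hJ hE hA
  induction n using Nat.strong_induction_on with
  | _ n ih =>
  rcases Nat.lt_or_ge n 3 with hn | hn
  · refine ⟨1 + C₂, by positivity, ?_⟩
    intro Λ A L hAΛ hcard hL hdist
    have hLpos : (0:ℝ) < L := by positivity
    interval_cases n
    · rw [Finset.card_eq_zero] at hcard
      subst hcard
      rw [fcor_eq]
      refine (cor_le_one _ _).trans ?_
      simp
      exact hC₂
    · rw [fcor_eq, cor_odd hAΛ (by rw [hcard]; exact odd_one)]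
      positivity
    · obtain ⟨u, v, huv, rfl⟩ := Finset.card_eq_two.1 hcard
      have hu : u ∈ ({u, v} : Finset Site) := by simp
      have hv : v ∈ ({u, v} : Finset Site) := by simp
      refine (hfc Λ L u v (hAΛ hu) (hAΛ hv) hL (hdist u hu v hv huv)).trans ?_
      have e : (-((2:ℕ):ℝ) / 8) = (-(1 / 4) : ℝ) := by norm_num
      rw [e]
      exact mul_le_mul_of_nonneg_right (by linarith) (by positivity)
  · choose! C hC0 hC using ih
    set M : ℝ := ∑ m ∈ Finset.range n, C m with hM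
    have hCM : ∀ m < n, C m ≤ M := fun m hm =>
      Finset.single_le_sum (f := C) (fun i hi => hC0 i (Finset.mem_range.1 hi))
        (Finset.mem_range.2 hm)
    have hM0 : 0 ≤ M := Finset.sum_nonneg fun i hi => hC0 i (Finset.mem_range.1 hi)
    refine ⟨M * C₂ + 2 ^ (n - 2) * M ^ 2, by positivity, ?_⟩
    intro Λ A L hAΛ hcard hL hdist
    have hLpos : (0:ℝ) < L := by positivity
    obtain ⟨i, hi, j, hj, hij⟩ := Finset.one_lt_card.1 (by omega : 1 < A.card)
    set B : Finset Site := (A.erase i).erase j with hBdef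
    have hiB : i ∉ B := by simp [hBdef]
    have hjB : j ∉ B := by simp [hBdef]
    have hBA : B ⊆ A := (Finset.erase_subset _ _).trans (Finset.erase_subset _ _)
    have hAB : A = insert i (insert j B) := by
      rw [hBdef, Finset.insert_erase (Finset.mem_erase.2 ⟨hij.symm, hj⟩), Finset.insert_erase hi]
    have hBc : B.card = n - 2 := by
      rw [hBdef, Finset.card_erase_of_mem (Finset.mem_erase.2 ⟨hij.symm, hj⟩),
        Finset.card_erase_of_mem hi, hcard]
      omega
    have hup : ∀ D : Finset Site, D ⊆ A → D.card < n →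
        cor (Kc / J) J 0 Λ D ≤ M * (L : ℝ) ^ (-(D.card : ℝ) / 8) := by
      intro D hD hDn
      rw [← fcor_eq]
      refine (hC D.card hDn Λ D L (hD.trans hAΛ) rfl hL
        fun u hu v hv huv => hdist u (hD hu) v (hD hv) huv).trans ?_
      exact mul_le_mul_of_nonneg_right (hCM _ hDn) (by positivity)
    have h1 := cor_leb (β := Kc / J) (J := J) (lam := 0) hβ hJ.le le_rfl
      (hBA.trans hAΛ) (hAΛ hi) (hAΛ hj) hij hiB hjB
    rw [← hAB, ← fcor_eq] at h1
    refine h1.trans ?_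
    have h2 : cor (Kc / J) J 0 Λ B * cor (Kc / J) J 0 Λ {i, j}
        ≤ M * C₂ * (L : ℝ) ^ (-(n : ℝ) / 8) := by
      have a1 := hup B hBA (by omega)
      have a2 := hfc Λ L i j (hAΛ hi) (hAΛ hj) hL (hdist i hi j hj hij)
      rw [fcor_eq] at a2
      refine (mul_le_mul a1 a2 (cor_nonneg hβ hJ.le le_rfl _ _) (by positivity)).trans
        (le_of_eq ?_)
      have e : (L : ℝ) ^ (-(n : ℝ) / 8)
          = (L : ℝ) ^ (-(B.card : ℝ) / 8) * (L : ℝ) ^ (-(1 / 4) : ℝ) := by
        rw [← Real.rpow_add hLpos, hBc, Nat.cast_sub (by omega)]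
        congr 1
        push_cast
        ring
      rw [e]; ring
    have h3 : ∑ D ∈ B.powerset, cor (Kc / J) J 0 Λ (insert i D)
          * cor (Kc / J) J 0 Λ (insert j (B \ D))
        ≤ 2 ^ (n - 2) * M ^ 2 * (L : ℝ) ^ (-(n : ℝ) / 8) := by
      have hterm : ∀ D ∈ B.powerset, cor (Kc / J) J 0 Λ (insert i D)
          * cor (Kc / J) J 0 Λ (insert j (B \ D)) ≤ M ^ 2 * (L : ℝ) ^ (-(n : ℝ) / 8) := by
        intro D hD
        rw [Finset.mem_powerset] at hD
        have hc1 : (insert i D).card = D.card + 1 :=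
          Finset.card_insert_of_notMem fun h => hiB (hD h)
        have hc2 : (insert j (B \ D)).card = n - 2 - D.card + 1 := by
          rw [Finset.card_insert_of_notMem fun h => hjB (Finset.sdiff_subset h),
            Finset.card_sdiff_of_subset hD, hBc]
        have hDc : D.card ≤ n - 2 := hBc ▸ Finset.card_le_card hD
        have a1 := hup (insert i D) (Finset.insert_subset hi (hD.trans hBA)) (by omega)
        have a2 := hup (insert j (B \ D))
          (Finset.insert_subset hj (Finset.sdiff_subset.trans hBA)) (by omega)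
        refine (mul_le_mul a1 a2 (cor_nonneg hβ hJ.le le_rfl _ _) (by positivity)).trans
          (le_of_eq ?_)
        have e : (L : ℝ) ^ (-(n : ℝ) / 8) = (L : ℝ) ^ (-((insert i D).card : ℝ) / 8)
            * (L : ℝ) ^ (-((insert j (B \ D)).card : ℝ) / 8) := by
          rw [← Real.rpow_add hLpos, hc1, hc2, Nat.cast_add, Nat.cast_add, Nat.cast_sub hDc,
            Nat.cast_sub (by omega)]
          congr 1
          push_cast
          ring
        rw [e]; ring
      refine (Finset.sum_le_card_nsmul _ _ _ hterm).trans (le_of_eq ?_)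
      rw [Finset.card_powerset, hBc, nsmul_eq_mul]
      push_cast
      ring
    linarith

end upper

end Vale.Agent.P144.H436
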