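import Vale.Agent.P144.U.AL.Fin1
import Vale.Agent.P144.U.Link
import Vale.Agent.P144.H436.Norm

/-!
Correlation inequalities for disorders: the analogue of the second Griffiths inequality, and
monotonicity in the volume.
-/

set_option linter.unusedSectionVars false

namespace Vale.Agent.P144.H436

open Finset Vale.Agent.P144 Vale.Agent.P144.AL Filter Topology

section chars

/-- characters of the group of subsets of `Λ` -/
def IsChar (Λ : Finset Site) (φ : Finset Site → ℝ) : Prop :=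
  ∃ ψ : Finset Site → ℝ, (∀ S, ψ S = 1 ∨ ψ S = -1) ∧ (∀ T S, φ (symmDiff T S) = ψ S * φ T) ∧
    ∀ T ∈ Λ.powerset, φ T = ψ (Λ \ T)

theorem IsChar.one (Λ : Finset Site) : IsChar Λ fun _ => 1 :=
  ⟨fun _ => 1, fun _ => Or.inl rfl, fun _ _ => (one_mul 1).symm, fun _ _ => rfl⟩

theorem IsChar.mul {Λ : Finset Site} {φ φ' : Finset Site → ℝ} (h : IsChar Λ φ)
    (h' : IsChar Λ φ') : IsChar Λ fun T => φ T * φ' T := by
  obtain ⟨ψ, h1, h2, h3⟩ := h
  obtain ⟨ψ', h1', h2', h3'⟩ := h'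
  refine ⟨fun S => ψ S * ψ' S, fun S => ?_, fun T S => ?_, fun T hT => ?_⟩
  · rcases h1 S with h | h <;> rcases h1' S with h' | h' <;> simp [h, h']
  · simp only [h2, h2']; ring
  · simp only [h3 T hT, h3' T hT]

theorem tv_symmDiff' (T S : Finset Site) (x : Site) :
    tv (symmDiff T S) x = (if x ∈ S then -1 else 1) * tv T x := by
  unfold tv
  by_cases h1 : x ∈ T <;> by_cases h2 : x ∈ S <;> simp [Finset.mem_symmDiff, h1, h2]

theorem IsChar.tv {Λ : Finset Site} {x : Site} (hx : x ∈ Λ) : IsChar Λ fun T => tv T x := by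
  refine ⟨fun S => if x ∈ S then -1 else 1, fun S => ?_, fun T S => tv_symmDiff' T S x,
    fun T _ => ?_⟩
  · show (if x ∈ S then (-1:ℝ) else 1) = 1 ∨ (if x ∈ S then (-1:ℝ) else 1) = -1
    split_ifs <;> simp
  · unfold Vale.Agent.P144.tv
    by_cases h : x ∈ T <;> simp [h, hx]

theorem IsChar.spn {Λ : Finset Site} {A : Multiset Site} (hA : ∀ v ∈ A, v ∈ Λ) :
    IsChar Λ fun T => spn A T := by
  induction A using Multiset.induction_on with
  | empty => 
    have : (fun T => AL.spn 0 T) = fun _ => (1:ℝ) := funext fun T => spn_zero T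
    rw [this]
    exact IsChar.one Λ
  | cons v A ih =>
    have : (fun T => AL.spn (v ::ₘ A) T) = fun T => Vale.Agent.P144.tv T v * AL.spn A T :=
      funext fun T => spn_cons v A T
    rw [this]
    exact (IsChar.tv (hA v (Multiset.mem_cons_self v A))).mul
      (ih fun w hw => hA w (Multiset.mem_cons_of_mem hw))

theorem IsChar.prod {Λ : Finset Site} {ε : Type*} (F : Finset ε) {f : ε → Finset Site → ℝ}
    (hf : ∀ e ∈ F, IsChar Λ (f e)) : IsChar Λ fun T => ∏ e ∈ F, f e T := by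
  classical
  induction F using Finset.induction_on with
  | empty => simpa using IsChar.one Λ
  | insert e F he ih =>
    simp only [Finset.prod_insert he]
    exact (hf e (Finset.mem_insert_self e F)).mul
      (ih fun e' he' => hf e' (Finset.mem_insert_of_mem he'))

theorem sum_symmDiff {Λ S : Finset Site} (hS : S ⊆ Λ) (f : Finset Site → ℝ) :
    ∑ T ∈ Λ.powerset, f (symmDiff T S) = ∑ T ∈ Λ.powerset, f T := by
  have hm : ∀ T ∈ Λ.powerset, symmDiff T S ∈ Λ.powerset := by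
    intro T hT
    rw [mem_powerset] at hT ⊢
    intro x hx
    rw [Finset.mem_symmDiff] at hx
    rcases hx with h | h
    · exact hT h.1
    · exact hS h.1
  refine sum_nbij' (fun T => symmDiff T S) (fun T => symmDiff T S) hm hm ?_ ?_ ?_
  · intro T _; simp
  · intro T _; simp
  · intro T _; rfl

/-- A character either sums to zero or is trivial. -/
theorem IsChar.dich {Λ : Finset Site} {φ : Finset Site → ℝ} (h : IsChar Λ φ) :
    (∑ T ∈ Λ.powerset, φ T = 0) ∨ ∀ T ∈ Λ.powerset, φ T = 1 := by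
  obtain ⟨ψ, h1, h2, h3⟩ := h
  by_cases hS : ∃ S ∈ Λ.powerset, ψ S = -1
  · obtain ⟨S, hS, hψ⟩ := hS
    left
    have := sum_symmDiff (mem_powerset.1 hS) φ
    simp only [h2, hψ, ← mul_sum] at this
    linarith
  · right
    push Not at hS
    intro T hT
    rw [h3 T hT]
    have hsub : Λ \ T ∈ Λ.powerset := mem_powerset.2 sdiff_subset
    exact (h1 _).resolve_right (hS _ hsub)

theorem IsChar.sum_nonneg {Λ : Finset Site} {φ : Finset Site → ℝ} (h : IsChar Λ φ) :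
    0 ≤ ∑ T ∈ Λ.powerset, φ T := by
  rcases h.dich with h | h
  · rw [h]
  · exact Finset.sum_nonneg fun T hT => by rw [h T hT]; exact zero_le_one

end chars

section abs

variable {ε : Type*} [DecidableEq ε] (Λ : Finset Site) (p q : ε → Site)

/-- the product of the edge variables of `F` -/
noncomputable def tF (F : Finset ε) (T : Finset Site) : ℝ := ∏ e ∈ F, (tv T (p e) * tv T (q e))

noncomputable def gF (A : Multiset Site) (F : Finset ε) : ℝ :=
  ∑ T ∈ Λ.powerset, spn A T * tF p q F T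

/-- partition functions with edge weights `1 + u e τ_e`, with the spins of `A` inserted -/
noncomputable def Zf (E : Finset ε) (A : Multiset Site) (u : ε → ℝ) : ℝ :=
  ∑ T ∈ Λ.powerset, spn A T * ∏ e ∈ E, (1 + u e * (tv T (p e) * tv T (q e)))

theorem prod_ite_sub {E F : Finset ε} (h : F ⊆ E) (f : ε → ℝ) :
    ∏ e ∈ F, f e = ∏ e ∈ E, (if e ∈ F then f e else 1) := by
  rw [Finset.prod_ite_mem, Finset.inter_eq_right.2 h]

theorem prod_symmDiff_pm {F H : Finset ε} {f : ε → ℝ} (hf : ∀ e, f e * f e = 1) :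
    ∏ e ∈ symmDiff F H, f e = (∏ e ∈ F, f e) * ∏ e ∈ H, f e := by
  have h1 : symmDiff F H ⊆ F ∪ H := by
    intro x hx
    rw [Finset.mem_symmDiff] at hx
    rw [Finset.mem_union]
    tauto
  rw [prod_ite_sub h1, prod_ite_sub (subset_union_left : F ⊆ F ∪ H),
    prod_ite_sub (subset_union_right : H ⊆ F ∪ H), ← prod_mul_distrib]
  refine prod_congr rfl fun e _ => ?_
  by_cases h1 : e ∈ F <;> by_cases h2 : e ∈ H <;> simp [Finset.mem_symmDiff, h1, h2, hf e]

variable {Λ p q}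

theorem tau_sq (T : Finset Site) (e : ε) :
    (tv T (p e) * tv T (q e)) * (tv T (p e) * tv T (q e)) = 1 := by
  linear_combination tv_sq T (p e) * (tv T (q e) * tv T (q e)) + tv_sq T (q e)

theorem tau_abs (T : Finset Site) (x y : Site) : |tv T x * tv T y| = 1 := by
  rcases tv_eq T x with h | h <;> rcases tv_eq T y with h' | h' <;> simp [h, h']

theorem isChar_tF {E F : Finset ε} (hE : ∀ e ∈ E, p e ∈ Λ ∧ q e ∈ Λ) (hF : F ⊆ E) :
    IsChar Λ fun T => tF p q F T :=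
  IsChar.prod F fun e he => (IsChar.tv (hE e (hF he)).1).mul (IsChar.tv (hE e (hF he)).2)

theorem gF_nonneg {E F : Finset ε} (hE : ∀ e ∈ E, p e ∈ Λ ∧ q e ∈ Λ) (hF : F ⊆ E)
    {A : Multiset Site} (hA : ∀ v ∈ A, v ∈ Λ) : 0 ≤ gF Λ p q A F :=
  ((IsChar.spn hA).mul (isChar_tF hE hF)).sum_nonneg

theorem gF_mul {E F H : Finset ε} (hE : ∀ e ∈ E, p e ∈ Λ ∧ q e ∈ Λ) (hF : F ⊆ E)
    (A : Multiset Site) :
    gF Λ p q 0 F * gF Λ p q A (symmDiff F H) = gF Λ p q 0 F * gF Λ p q A H := by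
  rcases (isChar_tF (Λ := Λ) hE hF).dich with h | h
  · have : gF Λ p q 0 F = 0 := by
      unfold gF
      simp only [spn_zero, one_mul]
      exact h
    rw [this, zero_mul, zero_mul]
  · congr 1
    unfold gF
    refine sum_congr rfl fun T hT => ?_
    congr 1
    unfold tF
    rw [prod_symmDiff_pm (tau_sq T)]
    have := h T hT
    unfold tF at this
    rw [this, one_mul]

theorem Zf_expand (E : Finset ε) (A : Multiset Site) (u : ε → ℝ) :
    Zf Λ p q E A u = ∑ F ∈ E.powerset, (∏ e ∈ F, u e) * gF Λ p q A F := by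
  unfold Zf gF
  simp only [Finset.prod_one_add, mul_sum]
  rw [sum_comm]
  refine sum_congr rfl fun F _ => sum_congr rfl fun T _ => ?_
  unfold tF
  rw [prod_mul_distrib]
  ring

theorem Zf_nonneg (E : Finset ε) {u : ε → ℝ} (hu : ∀ e ∈ E, |u e| ≤ 1) : 0 ≤ Zf Λ p q E 0 u := by
  unfold Zf
  refine sum_nonneg fun T _ => ?_
  rw [spn_zero, one_mul]
  refine prod_nonneg fun e he => ?_
  have h1 : |u e * (tv T (p e) * tv T (q e))| ≤ 1 := by
    rw [abs_mul, tau_abs, mul_one]; exact hu e he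
  linarith [(abs_le.1 h1).1]

theorem Zf_pos (E : Finset ε) {u : ε → ℝ} (hu : ∀ e ∈ E, |u e| < 1) : 0 < Zf Λ p q E 0 u := by
  unfold Zf
  refine sum_pos (fun T _ => ?_) ⟨∅, by simp⟩
  rw [spn_zero, one_mul]
  refine prod_pos fun e he => ?_
  have h1 : |u e * (tv T (p e) * tv T (q e))| < 1 := by
    rw [abs_mul, tau_abs, mul_one]; exact hu e he
  linarith [(abs_lt.1 h1).1]

theorem sum_sd {E F : Finset ε} (hF : F ⊆ E) (f : Finset ε → ℝ) :
    ∑ H ∈ E.powerset, f (symmDiff F H) = ∑ H ∈ E.powerset, f H := by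
  have hm : ∀ H ∈ E.powerset, symmDiff F H ∈ E.powerset := by
    intro T hT
    rw [mem_powerset] at hT ⊢
    intro x hx
    rw [Finset.mem_symmDiff] at hx
    rcases hx with h | h
    · exact hF h.1
    · exact hT h.1
  refine sum_nbij' (fun H => symmDiff F H) (fun H => symmDiff F H) hm hm ?_ ?_ ?_
  · intro T _; simp
  · intro T _; simp
  · intro T _; rfl

/-- The positive double sum. -/
theorem main_pos {E : Finset ε} (hE : ∀ e ∈ E, p e ∈ Λ ∧ q e ∈ Λ) {w a : ε → ℝ}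
    (hw0 : ∀ e, 0 ≤ w e) (hw1 : ∀ e, w e ≤ 1) (ha : ∀ e, |a e| ≤ 1) {A : Multiset Site}
    (hA : ∀ v ∈ A, v ∈ Λ) {c : Finset ε → ℝ} (hc : ∀ H ∈ E.powerset, 0 ≤ c H) :
    0 ≤ ∑ F ∈ E.powerset, ∑ H ∈ E.powerset, (∏ e ∈ F, w e) * (∏ e ∈ symmDiff F H, w e)
      * (gF Λ p q 0 F * gF Λ p q A H) * (∏ e ∈ F, a e) * c H := by
  rw [sum_comm]
  refine sum_nonneg fun H hH => ?_
  have hH' := mem_powerset.1 hH
  have key : ∑ F ∈ E.powerset, (∏ e ∈ F, w e) * (∏ e ∈ symmDiff F H, w e)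
      * (gF Λ p q 0 F * gF Λ p q A H) * (∏ e ∈ F, a e) * c H
      = c H * gF Λ p q A H * (∏ e ∈ H, w e)
        * Zf Λ p q E 0 (fun e => a e * (if e ∈ H then 1 else w e ^ 2)) := by
    rw [Zf_expand, mul_sum]
    refine sum_congr rfl fun F hF => ?_
    have hF' := mem_powerset.1 hF
    have h1 : (∏ e ∈ F, w e) * (∏ e ∈ symmDiff F H, w e)
        = (∏ e ∈ H, w e) * ∏ e ∈ F, (if e ∈ H then 1 else w e ^ 2) := by
      have h2 : symmDiff F H ⊆ E := by
        intro x hx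
        rw [Finset.mem_symmDiff] at hx
        rcases hx with h | h
        · exact hF' h.1
        · exact hH' h.1
      rw [prod_ite_sub hF' w, prod_ite_sub h2 w, prod_ite_sub hH' w,
        prod_ite_sub hF' (fun e => if e ∈ H then 1 else w e ^ 2), ← prod_mul_distrib,
        ← prod_mul_distrib]
      refine prod_congr rfl fun e _ => ?_
      by_cases h1 : e ∈ F <;> by_cases h2 : e ∈ H <;> simp [Finset.mem_symmDiff, h1, h2, sq]
    rw [prod_mul_distrib]
    calc _ = ((∏ e ∈ F, w e) * (∏ e ∈ symmDiff F H, w e))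
          * (gF Λ p q 0 F * gF Λ p q A H) * (∏ e ∈ F, a e) * c H := by ring
      _ = _ := by rw [h1]; ring
  rw [key]
  refine mul_nonneg (mul_nonneg (mul_nonneg (hc H hH) (gF_nonneg hE hH' hA))
    (prod_nonneg fun e _ => hw0 e)) (Zf_nonneg E fun e _ => ?_)
  rw [abs_mul]
  refine mul_le_one₀ (ha e) (abs_nonneg _) ?_
  split_ifs
  · simp
  · rw [abs_of_nonneg (by positivity)]
    exact pow_le_one₀ (hw0 e) (hw1 e)

/-- the product of two expansions, with the second index shifted by the first -/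
theorem Zf_mul {E : Finset ε} (hE : ∀ e ∈ E, p e ∈ Λ ∧ q e ∈ Λ) (A : Multiset Site)
    (u v : ε → ℝ) : Zf Λ p q E 0 u * Zf Λ p q E A v = ∑ F ∈ E.powerset, ∑ H ∈ E.powerset,
      (∏ e ∈ F, u e) * (∏ e ∈ symmDiff F H, v e) * (gF Λ p q 0 F * gF Λ p q A H) := by
  rw [Zf_expand, Zf_expand, sum_mul_sum]
  refine sum_congr rfl fun F hF => ?_
  have hF' := mem_powerset.1 hF
  rw [← sum_sd hF']
  refine sum_congr rfl fun H _ => ?_
  have := gF_mul (H := H) hE hF' A
  linear_combination (∏ e ∈ F, u e) * (∏ e ∈ symmDiff F H, v e) * this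

/-- The second Griffiths inequality for disorders. -/
theorem dis_gks {E : Finset ε} (hE : ∀ e ∈ E, p e ∈ Λ ∧ q e ∈ Λ) {w a a' : ε → ℝ}
    (hw0 : ∀ e, 0 ≤ w e) (hw1 : ∀ e, w e ≤ 1) (ha : ∀ e, a e = 1 ∨ a e = -1)
    (ha' : ∀ e, a' e = 1 ∨ a' e = -1) :
    Zf Λ p q E 0 (fun e => w e * a e) * Zf Λ p q E 0 (fun e => w e * a' e)
      ≤ Zf Λ p q E 0 (fun e => w e * (a e * a' e)) * Zf Λ p q E 0 w := by
  have ha2 : ∀ e, a e * a e = 1 := fun e => by rcases ha e with h | h <;> rw [h] <;> norm_num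
  have ha2' : ∀ e, a' e * a' e = 1 := fun e => by rcases ha' e with h | h <;> rw [h] <;> norm_num
  have hprod : ∀ H : Finset ε, (∏ e ∈ H, a' e) = 1 ∨ (∏ e ∈ H, a' e) = -1 := by
    intro H
    refine mul_self_eq_one_iff.1 ?_
    rw [← prod_mul_distrib]
    exact prod_eq_one fun e _ => ha2' e
  have h := main_pos hE hw0 hw1 (a := fun e => a e * a' e) (fun e => by
    rcases ha e with h | h <;> rcases ha' e with h' | h' <;> simp [h, h'])
    (A := 0) (by simp) (c := fun H => 1 - ∏ e ∈ H, a' e) (fun H _ => by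
      rcases hprod H with h | h <;> rw [h] <;> norm_num)
  rw [Zf_mul hE, Zf_mul hE, ← sub_nonneg, ← sum_sub_distrib]
  refine h.trans (le_of_eq (sum_congr rfl fun F _ => ?_))
  rw [← sum_sub_distrib]
  refine sum_congr rfl fun H _ => ?_
  rw [prod_mul_distrib, prod_mul_distrib, prod_mul_distrib, prod_mul_distrib, prod_mul_distrib,
    prod_symmDiff_pm ha2']
  have h3 : (∏ e ∈ F, a' e) * (∏ e ∈ F, a' e) = 1 := by
    rw [← prod_mul_distrib]; exact prod_eq_one fun e _ => ha2' e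
  ring

/-- Comparison of signed and unsigned couplings. -/
theorem dis_cmp {E : Finset ε} (hE : ∀ e ∈ E, p e ∈ Λ ∧ q e ∈ Λ) {w a : ε → ℝ}
    (hw0 : ∀ e, 0 ≤ w e) (hw1 : ∀ e, w e ≤ 1) (ha : ∀ e, a e = 1 ∨ a e = -1)
    {A : Multiset Site} (hA : ∀ v ∈ A, v ∈ Λ) {s : ℝ} (hs : s = 1 ∨ s = -1) :
    s * (Zf Λ p q E A (fun e => w e * a e) * Zf Λ p q E 0 w)
      ≤ Zf Λ p q E 0 (fun e => w e * a e) * Zf Λ p q E A w := by
  have ha2 : ∀ e, a e * a e = 1 := fun e => by rcases ha e with h | h <;> rw [h] <;> norm_num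
  have hprod : ∀ H : Finset ε, (∏ e ∈ H, a e) = 1 ∨ (∏ e ∈ H, a e) = -1 := by
    intro H
    refine mul_self_eq_one_iff.1 ?_
    rw [← prod_mul_distrib]
    exact prod_eq_one fun e _ => ha2 e
  have h := main_pos hE hw0 hw1 (a := a) (fun e => by
    rcases ha e with h | h <;> simp [h]) hA (c := fun H => 1 - s * ∏ e ∈ H, a e) (fun H _ => by
      rcases hprod H with h | h <;> rcases hs with h' | h' <;> rw [h, h'] <;> norm_num)
  rw [mul_comm (Zf Λ p q E A (fun e => w e * a e)), Zf_mul hE, Zf_mul hE, ← sub_nonneg, mul_sum,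
    ← sum_sub_distrib]
  refine h.trans (le_of_eq (sum_congr rfl fun F _ => ?_))
  rw [mul_sum, ← sum_sub_distrib]
  refine sum_congr rfl fun H _ => ?_
  rw [prod_mul_distrib, prod_mul_distrib, prod_symmDiff_pm ha2]
  ring

theorem Zf_insert {E : Finset ε} {e₀ : ε} (he : e₀ ∉ E) (A : Multiset Site) (u : ε → ℝ) :
    Zf Λ p q (insert e₀ E) A u = Zf Λ p q E A u + u e₀ * Zf Λ p q E (p e₀ ::ₘ q e₀ ::ₘ A) u := by
  unfold Zf
  rw [mul_sum, ← sum_add_distrib]
  refine sum_congr rfl fun T _ => ?_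
  rw [prod_insert he, spn_cons, spn_cons]
  ring

/-- Disorder correlations decrease when an edge is added. -/
theorem dis_add {E : Finset ε} {e₀ : ε} (he : e₀ ∉ E) (hE : ∀ e ∈ insert e₀ E, p e ∈ Λ ∧ q e ∈ Λ)
    {w a : ε → ℝ} (hw0 : ∀ e, 0 ≤ w e) (hw1 : ∀ e, w e ≤ 1) (ha : ∀ e, a e = 1 ∨ a e = -1) :
    Zf Λ p q (insert e₀ E) 0 (fun e => w e * a e) * Zf Λ p q E 0 w
      ≤ Zf Λ p q E 0 (fun e => w e * a e) * Zf Λ p q (insert e₀ E) 0 w := by
  have h0 := hE e₀ (mem_insert_self e₀ E)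
  have h := dis_cmp (E := E) (fun e he => hE e (mem_insert_of_mem he)) hw0 hw1 ha
    (A := p e₀ ::ₘ q e₀ ::ₘ 0) (by
      intro v hv
      simp only [Multiset.mem_cons, Multiset.notMem_zero, or_false] at hv
      rcases hv with rfl | rfl
      · exact h0.1
      · exact h0.2) (ha e₀)
  rw [Zf_insert he, Zf_insert he]
  have := mul_le_mul_of_nonneg_left h (hw0 e₀)
  linarith

/-- Disorder correlations decrease with the set of edges. -/
theorem dis_mono {E E' : Finset ε} (hEE : E ⊆ E') (hE : ∀ e ∈ E', p e ∈ Λ ∧ q e ∈ Λ)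
    {w a : ε → ℝ} (hw0 : ∀ e, 0 ≤ w e) (hw1 : ∀ e, w e < 1) (ha : ∀ e, a e = 1 ∨ a e = -1) :
    Zf Λ p q E' 0 (fun e => w e * a e) / Zf Λ p q E' 0 w
      ≤ Zf Λ p q E 0 (fun e => w e * a e) / Zf Λ p q E 0 w := by
  have hpos : ∀ E : Finset ε, 0 < Zf Λ p q E 0 w := fun E => Zf_pos E fun e _ => by
    rw [abs_of_nonneg (hw0 e)]; exact hw1 e
  obtain ⟨D, rfl⟩ : ∃ D, E' = D ∪ E := ⟨E' \ E, by rw [sdiff_union_of_subset hEE]⟩
  clear hEE
  induction D using Finset.induction_on with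
  | empty => simp
  | insert e D _ ih =>
    have hE' : ∀ e ∈ D ∪ E, p e ∈ Λ ∧ q e ∈ Λ := fun e he => hE e (by
      rw [insert_union]; exact mem_insert_of_mem he)
    refine le_trans ?_ (ih hE')
    rw [insert_union]
    by_cases hm : e ∈ D ∪ E
    · rw [insert_eq_of_mem hm]
    · rw [div_le_div_iff₀ (hpos _) (hpos _)]
      refine (dis_add hm (fun e' he' => hE e' (by rw [insert_union]; exact he')) hw0
        (fun e => (hw1 e).le) ha)

/-- Sums over a larger set of vertices. -/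
theorem sum_powerset_inter {Λ Λ' : Finset Site} (h : Λ ⊆ Λ') {φ : Finset Site → ℝ}
    (hφ : ∀ T, φ T = φ (T ∩ Λ)) :
    ∑ T ∈ Λ'.powerset, φ T = 2 ^ (Λ' \ Λ).card * ∑ T ∈ Λ.powerset, φ T := by
  obtain ⟨D, hD, rfl⟩ : ∃ D, Disjoint D Λ ∧ Λ' = D ∪ Λ :=
    ⟨Λ' \ Λ, sdiff_disjoint, by rw [sdiff_union_of_subset h]⟩
  rw [union_sdiff_cancel_right hD]
  clear h
  induction D using Finset.induction_on with
  | empty => simp
  | insert v D hv ih =>
    rw [disjoint_insert_left] at hD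
    have hvD : v ∉ D ∪ Λ := by
      rw [mem_union]; rintro (h | h)
      · exact hv h
      · exact hD.1 h
    rw [insert_union, sum_powerset_insert hvD, card_insert_of_notMem hv]
    have h1 : ∑ T ∈ (D ∪ Λ).powerset, φ (insert v T) = ∑ T ∈ (D ∪ Λ).powerset, φ T := by
      refine sum_congr rfl fun T _ => ?_
      rw [hφ, hφ T, insert_inter_of_notMem hD.1]
    rw [h1, ih hD.2]
    ring

/-- Sums of products of functions of disjoint sets of vertices. -/
theorem sum_mul_disj {Λ Λ₁ Λ₂ : Finset Site} (hd : Disjoint Λ₁ Λ₂)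
    {φ₁ φ₂ : Finset Site → ℝ} (hφ₁ : ∀ T, φ₁ T = φ₁ (T ∩ Λ₁)) (hφ₂ : ∀ T, φ₂ T = φ₂ (T ∩ Λ₂)) :
    (∑ T ∈ Λ.powerset, φ₁ T) * ∑ T ∈ Λ.powerset, φ₂ T
      = 2 ^ Λ.card * ∑ T ∈ Λ.powerset, φ₁ T * φ₂ T := by
  have e1 : (∑ T ∈ Λ.powerset, φ₁ T) * ∑ T ∈ Λ.powerset, φ₂ T
      = ∑ P ∈ Λ.powerset ×ˢ Λ.powerset, φ₁ P.1 * φ₂ P.2 := by
    rw [sum_mul_sum, sum_product]
  have e2 : 2 ^ Λ.card * ∑ T ∈ Λ.powerset, φ₁ T * φ₂ T
      = ∑ P ∈ Λ.powerset ×ˢ Λ.powerset, φ₁ P.1 * φ₂ P.1 := by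
    rw [sum_product]
    simp only [sum_const, card_powerset, nsmul_eq_mul, ← mul_sum]
    push_cast
    ring
  rw [e1, e2]
  set f : Finset Site × Finset Site → Finset Site × Finset Site :=
    fun P => (P.1 ∩ Λ₁ ∪ P.2 \ Λ₁, P.2 ∩ Λ₁ ∪ P.1 \ Λ₁) with hf
  have hinv : ∀ P, f (f P) = P := by
    intro P
    simp only [hf]
    refine Prod.ext ?_ ?_ <;>
      · ext x
        simp only [mem_union, mem_inter, Finset.mem_sdiff]
        tauto
  have hm : ∀ P ∈ Λ.powerset ×ˢ Λ.powerset, f P ∈ Λ.powerset ×ˢ Λ.powerset := by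
    intro P hP
    rw [mem_product, mem_powerset, mem_powerset] at hP ⊢
    constructor
    · intro x hx
      simp only [hf, mem_union, mem_inter, Finset.mem_sdiff] at hx
      rcases hx with h | h
      · exact hP.1 h.1
      · exact hP.2 h.1
    · intro x hx
      simp only [hf, mem_union, mem_inter, Finset.mem_sdiff] at hx
      rcases hx with h | h
      · exact hP.2 h.1
      · exact hP.1 h.1
  refine sum_nbij' f f hm hm (fun P _ => hinv P) (fun P _ => hinv P) ?_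
  intro P _
  have a1 : φ₁ (f P).1 = φ₁ P.1 := by
    rw [hφ₁, hφ₁ P.1]
    congr 1
    ext x
    simp only [hf, mem_union, mem_inter, Finset.mem_sdiff]
    tauto
  have a2 : φ₂ (f P).1 = φ₂ P.2 := by
    rw [hφ₂, hφ₂ P.2]
    congr 1
    ext x
    simp only [hf, mem_union, mem_inter, Finset.mem_sdiff]
    have h3 : x ∈ Λ₁ → x ∉ Λ₂ := fun h => Finset.disjoint_left.1 hd h
    tauto
  rw [a1, a2]

end abs

/-! ### the lattice -/

/-- first end of an edge -/
def eP : Site ⊕ Site → Site := Sum.elim id id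

/-- second end of an edge -/
def eQ : Site ⊕ Site → Site := Sum.elim (fun x => (x.1 + 1, x.2)) fun x => (x.1, x.2 + 1)

/-- the edges of `Λ` -/
def EE (Λ : Finset Site) : Finset (Site ⊕ Site) := (hor Λ).disjSum (ver Λ)

theorem EE_ends {Λ : Finset Site} : ∀ e ∈ EE Λ, eP e ∈ Λ ∧ eQ e ∈ Λ := by
  intro e he
  rcases e with x | x
  · have hx : x ∈ hor Λ := by simpa [EE] using he
    exact mem_hor.1 hx
  · have hx : x ∈ ver Λ := by simpa [EE] using he
    exact mem_ver.1 hx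

theorem EE_mono {Λ Λ' : Finset Site} (h : Λ ⊆ Λ') : EE Λ ⊆ EE Λ' := by
  refine disjSum_mono ?_ ?_
  · intro x hx
    rw [mem_hor] at hx ⊢
    exact ⟨h hx.1, h hx.2⟩
  · intro x hx
    rw [mem_ver] at hx ⊢
    exact ⟨h hx.1, h hx.2⟩

theorem NG_eq_Zf (Λ : Finset Site) (a b : Site → ℝ) (A : Multiset Site) :
    NG Λ a b A = Zf Λ eP eQ (EE Λ) A fun e => tc * Sum.elim a b e := by
  unfold NG Zf
  refine sum_congr rfl fun T _ => ?_
  congr 1
  unfold WW EE
  rw [prod_disjSum]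
  congr 1
  · refine prod_congr rfl fun x _ => ?_
    simp only [Sum.elim_inl, eP, eQ, id]
    ring
  · refine prod_congr rfl fun x _ => ?_
    simp only [Sum.elim_inr, eP, eQ, id]
    ring

/-- the disorder correlation for the signs `a` and the edges `E` -/
noncomputable def Mz (Λ : Finset Site) (E : Finset (Site ⊕ Site)) (a : Site ⊕ Site → ℝ) : ℝ :=
  Zf Λ eP eQ E 0 (fun e => tc * a e) / Zf Λ eP eQ E 0 fun _ => tc

/-- The disorder correlation of the faces `R`. -/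
noncomputable def MM (Λ : Finset Site) (R : Multiset Site) : ℝ := AL.QQ Λ R 0 / AL.QQ Λ 0 0

theorem MM_eq (Λ : Finset Site) (R : Multiset Site) :
    MM Λ R = Mz Λ (EE Λ) (Sum.elim (cutS R) 1) := by
  unfold MM AL.QQ Mz
  rw [NG_eq_Zf, NG_eq_Zf]
  congr 2
  funext e
  rcases e with x | x
  · simp [cutS_zero]
  · simp

theorem pm_elim (R : Multiset Site) (e : Site ⊕ Site) :
    Sum.elim (cutS R) (1 : Site → ℝ) e = 1 ∨ Sum.elim (cutS R) (1 : Site → ℝ) e = -1 := by
  rcases e with x | x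
  · exact cutS_pm R x
  · left; rfl

theorem Zf_tc_pos (Λ : Finset Site) (E : Finset (Site ⊕ Site)) {a : Site ⊕ Site → ℝ}
    (ha : ∀ e, a e = 1 ∨ a e = -1) : 0 < Zf Λ eP eQ E 0 (fun e => tc * a e) := by
  refine Zf_pos E fun e _ => ?_
  have h1 := tc_pos
  have h2 := tc_lt_one
  rcases ha e with h | h <;> rw [h]
  · rw [mul_one, abs_of_pos h1]; exact h2
  · rw [mul_neg_one, abs_neg, abs_of_pos h1]; exact h2

theorem Zf_tc_pos' (Λ : Finset Site) (E : Finset (Site ⊕ Site)) :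
    0 < Zf Λ eP eQ E 0 (fun _ => tc) := by
  have := Zf_tc_pos Λ E (a := fun _ => 1) (fun _ => Or.inl rfl)
  simpa using this

theorem MM_pos (Λ : Finset Site) (R : Multiset Site) : 0 < MM Λ R := by
  rw [MM_eq]
  exact div_pos (Zf_tc_pos Λ _ (pm_elim R)) (Zf_tc_pos' Λ _)

theorem QQ_pos (Λ : Finset Site) (R : Multiset Site) : 0 < AL.QQ Λ R 0 := by
  unfold AL.QQ
  rw [NG_eq_Zf]
  exact Zf_tc_pos Λ _ (pm_elim R)

/-- The second Griffiths inequality for disorders. -/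
theorem MM_gks (Λ : Finset Site) (R R' : Multiset Site) : MM Λ R * MM Λ R' ≤ MM Λ (R + R') := by
  have h := dis_gks (Λ := Λ) (p := eP) (q := eQ) (E := EE Λ) EE_ends (w := fun _ => tc)
    (fun _ => tc_pos.le) (fun _ => tc_lt_one.le) (pm_elim R) (pm_elim R')
  rw [MM_eq, MM_eq, MM_eq]
  unfold Mz
  have hZ := Zf_tc_pos' Λ (EE Λ)
  rw [div_mul_div_comm, div_le_div_iff₀ (by positivity) hZ]
  have e : (fun e => tc * (Sum.elim (cutS R) (1 : Site → ℝ) e * Sum.elim (cutS R') (1 : Site → ℝ) e))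
      = fun e => tc * Sum.elim (cutS (R + R')) (1 : Site → ℝ) e := by
    funext e
    congr 1
    rcases e with x | x
    · simp only [Sum.elim_inl]
      unfold cutS
      rw [Multiset.map_add, Multiset.prod_add]
    · simp
  rw [e] at h
  calc _ ≤ (Zf Λ eP eQ (EE Λ) 0 (fun e => tc * Sum.elim (cutS (R + R')) (1 : Site → ℝ) e)
        * Zf Λ eP eQ (EE Λ) 0 (fun _ => tc)) * Zf Λ eP eQ (EE Λ) 0 (fun _ => tc) :=
        mul_le_mul_of_nonneg_right h hZ.le
    _ = _ := by ring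

theorem prod_dep {Λ : Finset Site} {E : Finset (Site ⊕ Site)} (hE : E ⊆ EE Λ) (u : Site ⊕ Site → ℝ)
    (T : Finset Site) : (∏ e ∈ E, (1 + u e * (tv T (eP e) * tv T (eQ e))))
      = ∏ e ∈ E, (1 + u e * (tv (T ∩ Λ) (eP e) * tv (T ∩ Λ) (eQ e))) := by
  have htv : ∀ x ∈ Λ, tv T x = tv (T ∩ Λ) x := fun x hx => by unfold tv; simp [hx]
  refine prod_congr rfl fun e he => ?_
  have := EE_ends e (hE he)
  rw [htv _ this.1, htv _ this.2]

/-- independence of the set of vertices -/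
theorem Mz_indep {Λ Λ' : Finset Site} (h : Λ ⊆ Λ') (a : Site ⊕ Site → ℝ) :
    Mz Λ' (EE Λ) a = Mz Λ (EE Λ) a := by
  have key : ∀ u : Site ⊕ Site → ℝ, Zf Λ' eP eQ (EE Λ) 0 u
      = 2 ^ (Λ' \ Λ).card * Zf Λ eP eQ (EE Λ) 0 u := by
    intro u
    unfold Zf
    simp only [spn_zero, one_mul]
    exact sum_powerset_inter h fun T => prod_dep Subset.rfl u T
  unfold Mz
  rw [key, key]
  exact mul_div_mul_left _ _ (by positivity)

/-- Disorder correlations decrease with the volume. -/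
theorem MM_anti {Λ Λ' : Finset Site} (h : Λ ⊆ Λ') (R : Multiset Site) : MM Λ' R ≤ MM Λ R := by
  rw [MM_eq, MM_eq, ← Mz_indep h]
  exact dis_mono (EE_mono h) EE_ends (fun _ => tc_pos.le) (fun _ => tc_lt_one) (pm_elim R)

theorem Mz_union {Λ Λ₁ Λ₂ : Finset Site} {E₁ E₂ : Finset (Site ⊕ Site)} (hd : Disjoint Λ₁ Λ₂)
    (hE₁ : E₁ ⊆ EE Λ₁) (hE₂ : E₂ ⊆ EE Λ₂) (a : Site ⊕ Site → ℝ) :
    Mz Λ (E₁ ∪ E₂) a = Mz Λ E₁ a * Mz Λ E₂ a := by
  have hdE : Disjoint E₁ E₂ := by
    rw [Finset.disjoint_left]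
    intro e h1 h2
    exact Finset.disjoint_left.1 hd (EE_ends e (hE₁ h1)).1 (EE_ends e (hE₂ h2)).1
  have key : ∀ u : Site ⊕ Site → ℝ, Zf Λ eP eQ E₁ 0 u * Zf Λ eP eQ E₂ 0 u
      = 2 ^ Λ.card * Zf Λ eP eQ (E₁ ∪ E₂) 0 u := by
    intro u
    unfold Zf
    simp only [spn_zero, one_mul]
    rw [sum_mul_disj (Λ := Λ) hd (fun T => prod_dep hE₁ u T) (fun T => prod_dep hE₂ u T)]
    congr 1
    exact sum_congr rfl fun T _ => (prod_union hdE).symm
  unfold Mz
  have h1 := key fun e => tc * a e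
  have h2 := key fun _ => tc
  have p1 := Zf_tc_pos' Λ E₁
  have p2 := Zf_tc_pos' Λ E₂
  have p3 := Zf_tc_pos' Λ (E₁ ∪ E₂)
  rw [div_mul_div_comm, h1, h2]
  exact (mul_div_mul_left _ _ (by positivity)).symm

theorem Mz_biUnion {ι : Type*} [DecidableEq ι] (s : Finset ι) {Λ : Finset Site}
    (L : ι → Finset Site) (hd : ∀ i ∈ s, ∀ j ∈ s, i ≠ j → Disjoint (L i) (L j))
    (a : Site ⊕ Site → ℝ) :
    Mz Λ (s.biUnion fun i => EE (L i)) a = ∏ i ∈ s, Mz Λ (EE (L i)) a := by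
  induction s using Finset.induction_on with
  | empty =>
    simp only [biUnion_empty, prod_empty]
    have := (Zf_tc_pos' Λ ∅).ne'
    unfold Mz
    rw [div_eq_one_iff_eq this]
    unfold Zf
    simp
  | insert i s hi ih =>
    rw [biUnion_insert, prod_insert hi, ← ih fun j hj k hk => hd j (mem_insert_of_mem hj) k
      (mem_insert_of_mem hk)]
    refine Mz_union (Λ₁ := L i) (Λ₂ := s.biUnion L) ?_ Subset.rfl ?_ a
    · rw [Finset.disjoint_biUnion_right]
      intro j hj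
      exact hd i (mem_insert_self i s) j (mem_insert_of_mem hj) (fun h => hi (h ▸ hj))
    · intro e he
      rw [mem_biUnion] at he
      obtain ⟨j, hj, he⟩ := he
      exact EE_mono (subset_biUnion_of_mem L hj) he

/-- Upper bound by the product over disjoint regions. -/
theorem MM_le_prod {ι : Type*} [DecidableEq ι] (s : Finset ι) {Λ : Finset Site}
    (L : ι → Finset Site) (hL : ∀ i ∈ s, L i ⊆ Λ)
    (hd : ∀ i ∈ s, ∀ j ∈ s, i ≠ j → Disjoint (L i) (L j)) (R : Multiset Site) :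
    MM Λ R ≤ ∏ i ∈ s, MM (L i) R := by
  have hsub : (s.biUnion fun i => EE (L i)) ⊆ EE Λ := by
    intro e he
    rw [mem_biUnion] at he
    obtain ⟨j, hj, he⟩ := he
    exact EE_mono (hL j hj) he
  rw [MM_eq]
  refine (dis_mono hsub EE_ends (fun _ => tc_pos.le) (fun _ => tc_lt_one) (pm_elim R)).trans
    (le_of_eq ?_)
  have h := Mz_biUnion s (Λ := Λ) L hd (Sum.elim (cutS R) 1)
  refine h.trans (prod_congr rfl fun i hi => ?_)
  rw [MM_eq, Mz_indep (hL i hi)]

/-- A disorder outside of the region is trivial. -/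
theorem MM_out {Λ : Finset Site} {f : Site}
    (h : (∀ x ∈ hor Λ, x.1 = f.1 → x.2 ≤ f.2) ∨ ∀ x ∈ hor Λ, x.1 = f.1 → f.2 < x.2)
    (R : Multiset Site) : MM Λ (f ::ₘ R) = MM Λ R := by
  unfold MM
  congr 1
  rcases h with h | h
  · unfold AL.QQ
    refine NG_congr (fun x hx => ?_) (fun _ _ => rfl) 0
    rw [cutS_cons]
    unfold cut1
    rw [if_neg, one_mul]
    rintro ⟨h1, h2⟩
    exact absurd (h x hx h1) (not_le.2 h2)
  · unfold AL.QQ
    rw [NG_gauge Λ _ _ (fun x => f.1 < x.1) (A := 0) (by simp), chiM_zero, one_mul]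
    refine NG_congr (fun x hx => ?_) (fun x _ => ?_) 0
    · rw [cutS_cons]
      unfold cut1 chi
      by_cases hx1 : x.1 = f.1
      · have h2 := h x hx hx1
        have h3 : ¬ f.1 < x.1 := by rw [hx1]; exact lt_irrefl _
        have h4 : f.1 < x.1 + 1 := by omega
        rw [if_pos ⟨hx1, h2⟩, if_neg h3, if_pos h4]
        ring
      · rw [if_neg (fun h => hx1 h.1)]
        by_cases h3 : f.1 < x.1
        · have h4 : f.1 < x.1 + 1 := by omega
          rw [if_pos h3, if_pos h4]; ring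
        · have h4 : ¬ f.1 < x.1 + 1 := by omega
          rw [if_neg h3, if_neg h4]; ring
    · unfold chi
      split_ifs <;> simp

end Vale.Agent.P144.H436
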