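import Vale.Agent.P144.H436.Dis

/-!
Disorder correlations: translations, lower bound by the plane two-point function, upper bounds.
-/

namespace Vale.Agent.P144.H436

open Finset Vale.Agent.P144 Vale.Agent.P144.AL Filter Topology

theorem cut1_tr (t r x : Site) : cut1 (r + t) (x + t) = cut1 r x := by
  unfold cut1
  simp only [Prod.fst_add, Prod.snd_add, add_left_inj, add_lt_add_iff_right]

theorem cutS_tr (t : Site) (R : Multiset Site) (x : Site) :
    cutS (R.map (tr t)) (x + t) = cutS R x := by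
  unfold cutS
  rw [Multiset.map_map]
  congr 1
  refine Multiset.map_congr rfl fun r _ => ?_
  exact cut1_tr t r x

theorem QQ_tr (t : Site) (Λ : Finset Site) (R : Multiset Site) :
    AL.QQ (Λ.map (tr t).toEmbedding) (R.map (tr t)) 0 = AL.QQ Λ R 0 := by
  unfold AL.QQ NG
  rw [← sum_powerset_map (tr t).toEmbedding Λ (fun T => spn 0 T
    * WW (Λ.map (tr t).toEmbedding) (cutS (R.map (tr t))) 1 (tv T))]
  refine sum_congr rfl fun T _ => ?_
  rw [spn_zero, spn_zero]
  congr 1
  have hmem : ∀ (S : Finset Site) (x : Site), x + t ∈ S.map (tr t).toEmbedding ↔ x ∈ S := by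
    intro S x
    rw [Finset.mem_map]
    constructor
    · rintro ⟨y, hy, hyx⟩
      have : y = x := add_right_cancel (b := t) hyx
      exact this ▸ hy
    · intro h; exact ⟨x, h, rfl⟩
  have htv : ∀ x, tv (T.map (tr t).toEmbedding) (x + t) = tv T x := by
    intro x
    unfold tv
    simp only [hmem]
  have hh : hor (Λ.map (tr t).toEmbedding) = (hor Λ).map (tr t).toEmbedding := by
    ext x
    obtain ⟨y, rfl⟩ : ∃ y, x = y + t := ⟨x - t, by abel⟩
    rw [hmem, mem_hor, mem_hor, hmem, ← hmem Λ (y.1 + 1, y.2)]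
    have : ((y + t).1 + 1, (y + t).2) = (y.1 + 1, y.2) + t := by
      ext <;> simp; ring
    rw [this]
  have hv : ver (Λ.map (tr t).toEmbedding) = (ver Λ).map (tr t).toEmbedding := by
    ext x
    obtain ⟨y, rfl⟩ : ∃ y, x = y + t := ⟨x - t, by abel⟩
    rw [hmem, mem_ver, mem_ver, hmem, ← hmem Λ (y.1, y.2 + 1)]
    have : ((y + t).1, (y + t).2 + 1) = (y.1, y.2 + 1) + t := by
      ext <;> simp; ring
    rw [this]
  unfold WW
  rw [hh, hv, prod_map, prod_map]
  congr 1
  · refine prod_congr rfl fun x _ => ?_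
    have e1 : ((tr t).toEmbedding x) = x + t := rfl
    have e2 : ((x + t).1 + 1, (x + t).2) = (x.1 + 1, x.2) + t := by
      ext <;> simp; ring
    rw [e1, e2, htv, htv, cutS_tr]
  · refine prod_congr rfl fun x _ => ?_
    have e1 : ((tr t).toEmbedding x) = x + t := rfl
    have e2 : ((x + t).1, (x + t).2 + 1) = (x.1, x.2 + 1) + t := by
      ext <;> simp; ring
    rw [e1, e2, htv, htv]
    rfl

theorem MM_tr (t : Site) (Λ : Finset Site) (R : Multiset Site) :
    MM (Λ.map (tr t).toEmbedding) (R.map (tr t)) = MM Λ R := by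
  unfold MM
  rw [QQ_tr]
  have := QQ_tr t Λ 0
  rw [Multiset.map_zero] at this
  rw [this]

theorem NG_self (Λ : Finset Site) (a b : Site → ℝ) (p : Site) : N2 Λ a b p p = NG Λ a b 0 := by
  unfold N2 NG
  exact sum_congr rfl fun T _ => by rw [tv_sq, spn_zero]

theorem MM_box (M : ℕ) (m n : ℤ) : MM (box M) ((m, m) ::ₘ (n, n) ::ₘ 0) = MU M m n := by
  unfold MM MU XX
  have h1 : AL.QQ (box M) 0 0 = ZZ (box M) := by
    unfold AL.QQ NG ZZ
    refine sum_congr rfl fun T _ => ?_
    rw [spn_zero, one_mul]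
    exact WW_congr' (fun x _ => by rw [cutS_zero]; rfl) (fun _ _ => rfl) _
  rw [h1, NG_self]
  congr 1
  unfold AL.QQ
  rw [NG_gauge (box M) _ _ (fun x => n < x.1) (A := 0) (by simp), chiM_zero, one_mul]
  refine NG_congr (fun x _ => ?_) (fun x _ => ?_) 0
  · rw [cutS_cons, cutS_cons, cutS_zero]
    unfold cut1 chi aq
    simp only
    have h3 : (n < x.1 + 1) ↔ (n ≤ x.1) := by omega
    simp only [h3]
    by_cases hm : x.1 = m <;> by_cases hn : x.1 = n <;> by_cases h4 : m < x.2 <;>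
      by_cases h5 : n < x.2 <;>
      simp only [hm, hn, h4, h5, true_and, false_and, and_true, and_false, if_true, if_false] <;>
      split_ifs <;> first | (exfalso; omega) | norm_num
  · unfold chi
    split_ifs <;> simp

/-- Lower bound for the two-point function of disorders. -/
theorem MM_ge (Λ : Finset Site) (f : Site) {k : ℕ} (hk : 1 ≤ k) :
    Dg k ≤ MM Λ (f ::ₘ (f + ((k : ℤ), (k : ℤ))) ::ₘ 0) := by
  -- translate `f` to the origin
  have h0 : MM Λ (f ::ₘ (f + ((k : ℤ), (k : ℤ))) ::ₘ 0)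
      = MM (Λ.map (tr (-f)).toEmbedding) (((0 : ℤ), (0 : ℤ)) ::ₘ ((k : ℤ), (k : ℤ)) ::ₘ 0) := by
    rw [← MM_tr (-f) Λ]
    congr 1
    simp only [Multiset.map_cons, Multiset.map_zero]
    congr 1
    · show f + -f = _
      rw [add_neg_cancel]; rfl
    · congr 1
      show f + ((k : ℤ), (k : ℤ)) + -f = _
      abel
  rw [h0]
  set Λ' := Λ.map (tr (-f)).toEmbedding
  have h1 : ∀ᶠ M : ℕ in atTop, MU M 0 k ≤ MM Λ' (((0 : ℤ), (0 : ℤ)) ::ₘ ((k : ℤ), (k : ℤ)) ::ₘ 0) := by
    filter_upwards [subset_box Λ'] with M hM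
    rw [← MM_box]
    exact MM_anti hM _
  obtain ⟨U, hU⟩ := Ultrafilter.exists_le (atTop : Filter ℕ)
  have h2 : Tendsto (fun M => MU M 0 k) U (𝓝 (ML U 0 k)) := XL_t hU _ _ _ _ _
  have h3 : ML U 0 k = Dg k := by
    have := diff_zero hU 1 hk
    rw [SL_eq hU] at this
    have e : (1:ℤ) - 1 = 0 := by norm_num
    have e' : (1:ℤ) + k - 1 = k := by ring
    rw [e, e'] at this
    linarith
  rw [← h3]
  exact le_of_tendsto h2 (hU h1)

end Vale.Agent.P144.H436
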