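import Vale.Agent.P144.H436.Two

/-!
The boundary fields of `alt N` and of plus in `dia N`.
-/

namespace Vale.Agent.P144.H436

open Finset Vale.Agent.P144 Filter Topology

/-- the outside spins of `alt N`, as integers, `0` inside -/
def gA (N p q : ℤ) : ℤ :=
  if |p| + |q| ≤ N then 0 else if |p| + |q| = N + 1 then
    (if 0 < p ∧ 0 < q then 2 * (q % 2) - 1
    else if p < 0 ∧ 0 < q then 2 * (p % 2) - 1
    else if p < 0 ∧ q < 0 then 2 * (q % 2) - 1
    else if 0 < p ∧ q < 0 then 2 * (p % 2) - 1 else 1)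
  else 1

/-- the outside plus spins -/
def gP (N p q : ℤ) : ℤ := if |p| + |q| ≤ N then 0 else 1

/-- the sum over the nearest neighbours -/
def S1 (g : ℤ → ℤ → ℤ) (x y : ℤ) : ℤ := g (x + 1) y + g (x + -1) y + g x (y + 1) + g x (y + -1)

/-- the sum over the knight moves -/
def S2 (g : ℤ → ℤ → ℤ) (x y : ℤ) : ℤ :=
  g (x + 2) (y + 1) + g (x + 2) (y + -1) + g (x + -2) (y + 1) + g (x + -2) (y + -1)
    + g (x + 1) (y + 2) + g (x + 1) (y + -2) + g (x + -1) (y + 2) + g (x + -1) (y + -2)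

theorem gA_rot (N p q : ℤ) : gA N (-q) p = gA N p q := by
  unfold gA
  rw [abs_neg, add_comm |q|]
  split_ifs <;> omega

theorem gP_rot (N p q : ℤ) : gP N (-q) p = gP N p q := by
  unfold gP
  rw [abs_neg, add_comm |q|]

theorem S1_rot {g : ℤ → ℤ → ℤ} (hg : ∀ p q, g (-q) p = g p q) (x y : ℤ) :
    S1 g (-y) x = S1 g x y := by
  unfold S1
  have h1 := hg (x + 1) y
  have h2 := hg (x + -1) y
  have h3 := hg x (y + 1)
  have h4 := hg x (y + -1)
  rw [show -(y + 1) = -y + -1 by ring] at h3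
  rw [show -(y + -1) = -y + 1 by ring] at h4
  rw [h1, h2, h3, h4]
  ring

theorem S2_rot {g : ℤ → ℤ → ℤ} (hg : ∀ p q, g (-q) p = g p q) (x y : ℤ) :
    S2 g (-y) x = S2 g x y := by
  unfold S2
  have h1 := hg (x + 2) (y + 1)
  have h2 := hg (x + 2) (y + -1)
  have h3 := hg (x + -2) (y + 1)
  have h4 := hg (x + -2) (y + -1)
  have h5 := hg (x + 1) (y + 2)
  have h6 := hg (x + 1) (y + -2)
  have h7 := hg (x + -1) (y + 2)
  have h8 := hg (x + -1) (y + -2)
  rw [show -(y + 1) = -y + -1 by ring] at h1 h3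
  rw [show -(y + -1) = -y + 1 by ring] at h2 h4
  rw [show -(y + 2) = -y + -2 by ring] at h5 h7
  rw [show -(y + -2) = -y + 2 by ring] at h6 h8
  rw [h1, h2, h3, h4, h5, h6, h7, h8]
  ring

theorem a1_in {N x y : ℤ} (h : x + y ≤ N) (hx : 0 < x) (hy : 0 < y) :
    S1 (gA N) x y = 0 := by
  unfold S1 gA
  simp only [abs_eq_max_neg]
  omega

theorem a1_y0 {N x : ℤ} (h : x ≤ N) (hx : 0 < x) :
    (x < N → S1 (gA N) x 0 = 0) ∧ 0 ≤ S1 (gA N) x 0 ∧ S1 (gA N) x 0 ≤ 3 := by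
  unfold S1 gA
  simp only [abs_eq_max_neg]
  omega

theorem a2_in {N x y : ℤ} (h : x + y ≤ N) (hx : 2 ≤ x) (hy : 2 ≤ y) (h2 : N - 1 ≤ x + y) :
    2 ≤ S2 (gA N) x y := by
  unfold S2 gA
  simp only [abs_eq_max_neg]
  omega

theorem a2_in' {N x y : ℤ} (hx : 2 ≤ x) (hy : 2 ≤ y) (h2 : x + y ≤ N - 2) :
    S2 (gA N) x y = 0 := by
  unfold S2 gA
  simp only [abs_eq_max_neg]
  omega

theorem a2_x1 {N y : ℤ} (h : 1 + y ≤ N) (hy : 2 ≤ y) (h2 : N - 1 ≤ 1 + y) :
    2 ≤ S2 (gA N) 1 y := by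
  unfold S2 gA
  simp only [abs_eq_max_neg]
  omega

theorem a2_x1' {N y : ℤ} (hy : 2 ≤ y) (h2 : 1 + y ≤ N - 2) :
    S2 (gA N) 1 y = 0 := by
  unfold S2 gA
  simp only [abs_eq_max_neg]
  omega

theorem a2_y1 {N x : ℤ} (h : x + 1 ≤ N) (hx : 2 ≤ x) (h2 : N - 1 ≤ x + 1) :
    2 ≤ S2 (gA N) x 1 := by
  unfold S2 gA
  simp only [abs_eq_max_neg]
  omega

theorem a2_y1' {N x : ℤ} (hx : 1 ≤ x) (h2 : x + 1 ≤ N - 2) :
    S2 (gA N) x 1 = 0 := by
  unfold S2 gA
  simp only [abs_eq_max_neg]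
  omega

theorem a2_y0 {N x : ℤ} (h : x ≤ N) (hx : 2 ≤ x) (h2 : N - 1 ≤ x) :
    2 ≤ S2 (gA N) x 0 := by
  unfold S2 gA
  simp only [abs_eq_max_neg]
  omega

theorem a2_y0' {N x : ℤ} (hx : 1 ≤ x) (h2 : x ≤ N - 2) :
    S2 (gA N) x 0 = 0 := by
  unfold S2 gA
  simp only [abs_eq_max_neg]
  omega

/-- plus: no nearest-neighbour field off the outer layer -/
theorem p1 {N x y : ℤ} (h : |x| + |y| ≤ N - 1) : S1 (gP N) x y = 0 := by
  unfold S1 gP
  simp only [abs_eq_max_neg] at *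
  omega

theorem gP_le (N p q : ℤ) : gP N p q ≤ 1 := by
  unfold gP; split_ifs <;> omega

theorem gP_zero {N p q : ℤ} (h : |p| + |q| ≤ N) : gP N p q = 0 := by
  unfold gP; rw [if_pos h]

theorem p2 {N x y : ℤ} (h : |x| + |y| ≤ N - 3) : S2 (gP N) x y = 0 := by
  have e : ∀ a b : ℤ, |a| + |b| ≤ 3 → gP N (x + a) (y + b) = 0 := by
    intro a b hab
    refine gP_zero ?_
    have h1 := abs_add_le x a
    have h2 := abs_add_le y b
    omega
  unfold S2
  rw [e _ _ (by decide), e _ _ (by decide), e _ _ (by decide), e _ _ (by decide),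
    e _ _ (by decide), e _ _ (by decide), e _ _ (by decide), e _ _ (by decide)]
  rfl

theorem p2' {N x y : ℤ} (hx : 0 < x) (hy : 0 ≤ y) (h : x + y ≤ N - 1) :
    S2 (gP N) x y ≤ 4 := by
  unfold S2
  have h1 : gP N (x + -2) (y + 1) = 0 := gP_zero (by simp only [abs_eq_max_neg]; omega)
  have h2 : gP N (x + -2) (y + -1) = 0 := gP_zero (by simp only [abs_eq_max_neg]; omega)
  have h3 : gP N (x + -1) (y + 2) = 0 := gP_zero (by simp only [abs_eq_max_neg]; omega)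
  have h4 : gP N (x + -1) (y + -2) = 0 := gP_zero (by simp only [abs_eq_max_neg]; omega)
  have h5 := gP_le N (x + 2) (y + 1)
  have h6 := gP_le N (x + 2) (y + -1)
  have h7 := gP_le N (x + 1) (y + 2)
  have h8 := gP_le N (x + 1) (y + -2)
  omega

/-- every site off the origin is a rotation of a site with `0 < x`, `0 ≤ y` -/
theorem quadrant {P : ℤ → ℤ → Prop} (hP : ∀ x y, P x y → P (-y) x)
    (h : ∀ x y, 0 < x → 0 ≤ y → P x y) (x y : ℤ) (h0 : ¬ (x = 0 ∧ y = 0)) : P x y := by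
  rcases lt_trichotomy x 0 with hx | hx | hx
  · rcases lt_or_ge 0 y with hy | hy
    · have := hP _ _ (h y (-x) hy (by omega))
      simpa using this
    · have := hP _ _ (hP _ _ (h (-x) (-y) (by omega) (by omega)))
      simpa using this
  · subst hx
    rcases lt_trichotomy y 0 with hy | hy | hy
    · have := hP _ _ (hP _ _ (hP _ _ (h (-y) 0 (by omega) le_rfl)))
      simpa using this
    · exact absurd ⟨rfl, hy⟩ h0
    · have := hP _ _ (h y 0 hy le_rfl)
      simpa using this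
  · rcases lt_or_ge y 0 with hy | hy
    · have := hP _ _ (hP _ _ (hP _ _ (h (-y) x (by omega) hx.le)))
      simpa using this
    · exact h x y hx hy

end Vale.Agent.P144.H436
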