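import Vale.Agent.P144.H436.JInd

/-!
The limits of the mixed correlations do not depend on the directions of the energies.
-/

namespace Vale.Agent.P144.H436

open Finset Vale.Agent.P144 Vale.Agent.P144.AL Filter Topology

section

variable {p : Pts} {k : Fin p.m} {P R : List (Fin p.m)} (hks : (P ++ k :: R).Nodup)

include hks in
theorem Pf_kapT (K : Lb p.n p.m → Lb p.n p.m → ℂ) :
    Pf (kapT k K) (lbs (n := p.n) (P ++ k :: R) []) =
      -Pf K (lbs (n := p.n) (P ++ k :: R) []) := by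
  have hnd := lbs_nd hks (p := p)
  rw [lbs_split]
  refine Pf_flip (s := ((√2 : ℝ) : ℂ)) (Lp p P) (Lr p R) hnd (fun x y _ hx hy => ?_)
    (fun x hx => ?_) (fun x hx => ?_) ?_
  · unfold kapT
    rw [if_neg hy, if_neg hx]
  · unfold kapT
    have hxl : x ≠ .lo k := fun e => (List.nodup_append.1 hnd).2.2 x hx (.lo k) (by simp) e
    rw [if_pos rfl, if_neg hxl]
  · unfold kapT
    have hxl : x ≠ .hi k := by
      rintro rfl
      have := (List.nodup_cons.1 (List.nodup_cons.1 (List.nodup_append.1 hnd).2.1).2).1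
      exact this hx
    rw [if_neg hxl, if_pos rfl]
  · unfold kapT
    rw [if_pos rfl, if_pos rfl]

include hks in
theorem Hc_upd : Hc (upd p k 1) (P ++ k :: R) = -Hc (upd p k 0) (P ++ k :: R) := by
  have hnd := List.nodup_append.1 hks
  have hkP : k ∉ P := fun h => hnd.2.2 k h k (by simp) rfl
  have hkR : k ∉ R := (List.nodup_cons.1 hnd.2.1).1
  have h1 : ∀ l : List (Fin p.m), k ∉ l → Hc (upd p k 1) l = Hc (upd p k 0) l := by
    intro l hl
    unfold Hc
    congr 1
    refine List.map_congr_left fun (i : Fin p.m) hi => ?_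
    have hik : i ≠ k := fun h => hl (h ▸ hi)
    simp only [upd_j hik]
  have h2 : ∀ q : Pts, ∀ (l l' : List (Fin q.m)) (i : Fin q.m), Hc q (l ++ i :: l') =
      Hc q l * ((((if q.j i = 0 then 1 else -1 : ℝ) : ℂ) * ∏ i', (q.y i - q.x i')) * Hc q l') := by
    intro q l l' i
    unfold Hc
    rw [List.map_append, List.prod_append, List.map_cons, List.prod_cons]
  rw [h2 (upd p k 1) P R k, h2 (upd p k 0) P R k, h1 P hkP, h1 R hkR]
  have s1 : (upd p k 1).j k = 1 := Function.update_self _ _ _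
  have s0 : (upd p k 0).j k = 0 := Function.update_self _ _ _
  rw [s1, s0, if_neg (by decide), if_pos rfl]
  push_cast
  ring

end

section

variable {p : Pts} {k : Fin p.m} {J : ℝ}

/-- Both directions have the same limit. -/
theorem flip_lim (hJ : 0 < J) (hp : Good0 p) (hKP : KP (upd p k 0)) (hj : KJ p k)
    {T : Finset (Fin p.m)} (hkT : k ∈ T) (hn : Even p.n)
    {g : ℝ} (hg : Tendsto (Gn (univ.image p.x)) (𝓝[>] 0) (𝓝 g)) :
    ∃ r, Tendsto (mixC J (upd p k 0) T ∅) (𝓝[>] 0) (𝓝 r) ∧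
      Tendsto (mixC J (upd p k 1) T ∅) (𝓝[>] 0) (𝓝 r) := by
  classical
  obtain ⟨P, R, hPR⟩ := List.append_of_mem (mem_toList.2 hkT)
  have hks : (P ++ k :: R).Nodup := hPR ▸ nodup_toList T
  obtain ⟨c, hc⟩ := src_lim p (fun i i' h => Sum.inl_injective (hp.2.2 (by simpa using h)))
  set K : Lb p.n p.m → Lb p.n p.m → ℂ := fun x y => if h : ∃ c : ℂ, (isTp (upd p k 0) x ∨
    isTp (upd p k 0) y → c = 0) ∧ Tendsto (fun a : ℝ => AL.rr (upd p k 0) a x *
      AL.rr (upd p k 0) a y * (Kz (upd p k 0) (P ++ k :: R) a x y : ℂ)) (𝓝[>] 0) (𝓝 c)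
    then h.choose else 0 with hKdef
  have hK : ∀ x y : Lb p.n p.m, [x, y].Sublist (lbs (n := p.n) (P ++ k :: R) []) →
      Tendsto (fun a : ℝ => AL.rr (upd p k 0) a x * AL.rr (upd p k 0) a y *
        (Kz (upd p k 0) (P ++ k :: R) a x y : ℂ)) (𝓝[>] 0) (𝓝 (K x y)) := by
    intro x y hxy
    have h := Kz_lim (upd p k 0) hp hKP hks (Cl := []) List.nodup_nil hxy
    simp only [hKdef]
    rw [dif_pos h]
    exact h.choose_spec.2
  have hK1 := kapT_lim hks hp hj hK
  have l0 := mixC_lim (p := upd p k 0) hJ hp T hn (kap := K) (by rw [hPR]; exact hK) hg hc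
  have l1 := mixC_lim (p := upd p k 1) hJ hp T hn (kap := kapT k K) (by rw [hPR]; exact hK1) hg hc
  refine ⟨_, l0, ?_⟩
  have e : (Hc (upd p k 1) T.toList)⁻¹ * Pf (kapT k K) (lbs (n := p.n) T.toList []) =
      (Hc (upd p k 0) T.toList)⁻¹ * Pf K (lbs (n := p.n) T.toList []) := by
    rw [hPR, Hc_upd hks, Pf_kapT hks, inv_neg]
    ring
  have e' : ((g : ℂ) * c * ((Hc (upd p k 1) T.toList)⁻¹ *
      Pf (kapT k K) (lbs (n := p.n) T.toList []))).re =
      ((g : ℂ) * c * ((Hc (upd p k 0) T.toList)⁻¹ * Pf K (lbs (n := p.n) T.toList []))).re := by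
    rw [e]
  have l1' : Tendsto (mixC J (upd p k 1) T ∅) (𝓝[>] 0) (𝓝 ((g : ℂ) * c *
      ((Hc (upd p k 1) T.toList)⁻¹ * Pf (kapT k K) (lbs (n := p.n) T.toList []))).re) := l1
  rw [e'] at l1'
  exact l1'

/-- The limits do not depend on one direction. -/
theorem upd_lim (hJ : 0 < J) (hK : ∀ p, Good0 p → KP p) (hj : ∀ p, Good0 p → ∀ k, KJ p k)
    (hm : Merge J) (hr : RatioM) (hq : QuotSM J) (hp : Good0 p) (T : Finset (Fin p.m))
    (e e' : Fin 2) {r : ℝ} (h : Tendsto (mixC J (upd p k e) T ∅) (𝓝[>] 0) (𝓝 r)) :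
    Tendsto (mixC J (upd p k e') T ∅) (𝓝[>] 0) (𝓝 r) := by
  classical
  by_cases hn : Even p.n
  swap
  · have h0 := mixC_odd (p := upd p k e) hJ hp T hn
    rw [tendsto_nhds_unique h h0]
    exact mixC_odd (p := upd p k e') hJ hp T hn
  by_cases hkT : k ∈ T
  · have hX : ∀ z ∈ univ.image p.x, z ∈ Dia := by
      intro z hz
      obtain ⟨i, _, rfl⟩ := mem_image.1 hz
      exact hp.1 i
    have hx : Function.Injective p.x := fun i i' h => Sum.inl_injective (hp.2.2 (by simpa using h))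
    obtain ⟨g, _, hg⟩ := norm_even hJ hm hr hq hX (by rw [card_im p hx]; exact hn)
    obtain ⟨s, h0, h1⟩ := flip_lim hJ hp (hK _ hp) (hj p hp k) hkT hn hg
    have key : ∀ f : Fin 2, Tendsto (mixC J (upd p k f) T ∅) (𝓝[>] 0) (𝓝 s) := by
      intro f
      fin_cases f
      · exact h0
      · exact h1
    rw [tendsto_nhds_unique h (key e)]
    exact key e'
  · have e1 : mixC J (upd p k e') T ∅ = mixC J (upd p k e) T ∅ := by
      funext a
      unfold mixC
      congr 1
      funext σ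
      congr 2
      refine prod_congr rfl fun (l : Fin p.m) hl => ?_
      have hlk : l ≠ k := fun h => hkT (h ▸ hl)
      unfold hat be
      simp only [upd_j hlk]
    rw [e1]
    exact h

/-- The limits do not depend on the directions. -/
theorem dir_lim (hJ : 0 < J) (hK : ∀ p, Good0 p → KP p) (hj : ∀ p, Good0 p → ∀ k, KJ p k)
    (hm : Merge J) (hr : RatioM) (hq : QuotSM J) (hp : Good0 p) (T : Finset (Fin p.m)) {r : ℝ}
    (h : Tendsto (mixC J p T ∅) (𝓝[>] 0) (𝓝 r)) (j' : Fin p.m → Fin 2) :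
    Tendsto (mixC J ⟨p.n, p.m, p.x, p.y, j'⟩ T ∅) (𝓝[>] 0) (𝓝 r) := by
  classical
  have step : ∀ (j : Fin p.m → Fin 2) (k : Fin p.m) (e : Fin 2),
      Tendsto (mixC J ⟨p.n, p.m, p.x, p.y, j⟩ T ∅) (𝓝[>] 0) (𝓝 r) →
      Tendsto (mixC J ⟨p.n, p.m, p.x, p.y, Function.update j k e⟩ T ∅) (𝓝[>] 0) (𝓝 r) := by
    intro j k e hj0
    refine upd_lim (p := ⟨p.n, p.m, p.x, p.y, j⟩) (k := k) hJ hK hj hm hr hq hp T (j k) e ?_
    have e0 : Function.update j k (j k) = j := Function.update_eq_self _ _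
    show Tendsto (mixC J ⟨p.n, p.m, p.x, p.y, Function.update j k (j k)⟩ T ∅) (𝓝[>] 0) (𝓝 r)
    rw [e0]
    exact hj0
  have key : ∀ S : Finset (Fin p.m), Tendsto (mixC J ⟨p.n, p.m, p.x, p.y,
      fun k => if k ∈ S then j' k else p.j k⟩ T ∅) (𝓝[>] 0) (𝓝 r) := by
    intro S
    induction S using Finset.induction_on with
    | empty =>
      have e0 : (fun k => if k ∈ (∅ : Finset (Fin p.m)) then j' k else p.j k) = p.j := by
        funext k; simp
      rw [e0]
      exact h
    | insert k S hk ih =>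
      have e1 : (fun l => if l ∈ insert k S then j' l else p.j l) =
          Function.update (fun k => if k ∈ S then j' k else p.j k) k (j' k) := by
        funext l
        by_cases hl : l = k
        · subst hl
          rw [Function.update_self, if_pos (mem_insert_self _ _)]
        · rw [Function.update_of_ne hl]
          simp [mem_insert, hl]
      rw [e1]
      exact step _ k (j' k) ih
  have e2 : (fun k => if k ∈ (univ : Finset (Fin p.m)) then j' k else p.j k) = j' := by
    funext k; simp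
  have := key univ
  rw [e2] at this
  exact this

end

end Vale.Agent.P144.H436
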