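import Vale.Agent.P144.U.Stmt

/-!
Q1, where the functions at `λ = 0` are required not to depend on the directions of the energies.
-/

namespace Vale.Agent.P144

open Filter Topology MeasureTheory

/-- All scaling limits of `E` exist in `D` and do not depend on the directions `j` of the
energies. -/
def AllLimJ (D : Set ℂ) (E : Fam) : Prop :=
  ∀ p, Good D p → ∃ c, ∀ j' : Fin p.m → Fin 2, Lim E { p with j := j' } c

/-- The data asked for in Q1. In the domain part only those domains and boundary conditions are
considered for which all limits of the critical nearest-neighbour model exist and do not depend on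
the directions of the energies, and the two constants may depend on the domain and the boundary
condition and may be any real numbers. -/
def HasDataJ (J : ℝ) (V : Finset Site → ℝ) (lam : ℝ) : Prop :=
  ∃ β > 0, ∃ Zσ ≠ 0, ∃ Zε ≠ 0,
    (∃ E, PlaneFam J lam V β E ∧
      ∀ E₀, PlaneFam J 0 (fun _ => 0) (Kc / J) E₀ → Identity Set.univ E₀ E Zσ Zε) ∧
    ∀ D : Set ℂ, IsOpen D → IsConnected D → Bornology.IsBounded D →
      ∀ b, AllLimJ D (crit J D b) →
        ∃ Zσ' Zε' : ℝ, Identity D (crit J D b) (inDom J lam V β D b) Zσ' Zε'

/-- The statement of Q1 with these data. It follows from `Q1`. -/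
def Q1J : Prop :=
  ∀ J > 0, ∀ V, IsPotential V → ∃ lam₀ > 0, ∀ lam : ℝ, |lam| < lam₀ → HasDataJ J V lam

end Vale.Agent.P144
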