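import Vale.Agent.P144.H436.JSrc
import Vale.Agent.P144.H436.StmtJ
import Vale.Agent.P144.U.AL.Full

/-!
All limits of the critical model with the alternating boundary condition of the square exist and
do not depend on the directions of the energies.
-/

namespace Vale.Agent.P144.H436

open Finset Vale.Agent.P144 Filter Topology

/-- The correlations for the alternating boundary condition and for the free model. -/
theorem corr_of_mix {J : ℝ} (hJ : 0 < J) (hT : TipLim J) {p : Pts} (hp : Good Dia p) {s : ℝ}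
    (hs : Tendsto (mixC J p univ ∅) (𝓝[>] 0) (𝓝 s)) : Lim (crit J Dia (some altb)) p s := by
  have hp0 : Good0 p := ⟨hp.2.1, hp.2.2.1, hp.2.2.2⟩
  classical
  choose r hr hr' using fun T => EA_hat_lim hJ hT p hp0 T
  have hsr : s = r univ := tendsto_nhds_unique hs (hr univ)
  set δ : Fin p.m → ℝ → ℝ := fun k a => a⁻¹ * (EA J a (be p a k) - E0 J a (be p a k)) with hδ
  have hδl : ∀ k, Tendsto (δ k) (𝓝[>] 0) (𝓝 0) := fun k => mean_lim hJ hT p hp0 k
  have hmain : Tendsto (fun a => ∑ T ∈ (univ : Finset (Fin p.m)).powerset,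
      (∏ k ∈ univ \ T, (-δ k a)) * EA J a (fun σ => Xs p a σ * ∏ k ∈ T, hat J p a k σ))
      (𝓝[>] 0) (𝓝 (∑ T ∈ (univ : Finset (Fin p.m)).powerset, (∏ k ∈ univ \ T, (-(0:ℝ))) * r T)) := by
    refine tendsto_finsetSum _ fun T _ => ?_
    exact (tendsto_finsetProd _ fun k _ => (hδl k).neg).mul (hr' T)
  have hval : ∑ T ∈ (univ : Finset (Fin p.m)).powerset, (∏ k ∈ univ \ T, (-(0:ℝ))) * r T = s := by
    rw [sum_eq_single univ, sdiff_self, hsr]
    · simp
    · intro T _ hT'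
      have hne : (univ \ T).Nonempty := by
        rw [nonempty_iff_ne_empty]
        intro h
        exact hT' (univ_subset_iff.1 (sdiff_eq_empty_iff_subset.1 h))
      obtain ⟨k, hk⟩ := hne
      rw [prod_eq_zero hk (by simp), zero_mul]
    · intro h
      exact absurd (mem_powerset.2 (subset_univ _)) h
  rw [hval] at hmain
  refine hmain.congr' ?_
  filter_upwards [self_mem_nhdsWithin] with a ha
  have ha : 0 < a := ha
  have hlin : ∀ (κ : Type) (S : Finset κ) (c : κ → ℝ) (F : κ → Config → ℝ),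
      ∑ T ∈ S, c T * EA J a (F T) = EA J a (fun σ => ∑ T ∈ S, c T * F T σ) := by
    intro κ S c F
    unfold EA crit inDom
    simp only [Option.map_some]
    rw [gibbs_zero J _ (window_win (disc Dia a))]
    rw [show (fun s => (fun σ => ∑ T ∈ S, c T * F T σ) (exs (disc Dia a) (altb a) s))
      = fun s => ∑ T ∈ S, c T * F T (exs (disc Dia a) (altb a) s) from rfl, ev_sum]
    refine sum_congr rfl fun T _ => ?_
    rw [gibbs_zero J _ (window_win (disc Dia a)), ev_const_mul]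
  rw [hlin]
  unfold corr
  have hE : EA J a = crit J Dia (some altb) a := rfl
  rw [← hE]
  congr 1
  funext σ
  have h1 : ∏ k, a⁻¹ * (sp (σ (fl a (p.y k))) * sp (σ (fl a (p.y k) + dir (p.j k)))
      - EA J a fun τ => sp (τ (fl a (p.y k))) * sp (τ (fl a (p.y k) + dir (p.j k))))
      = ∏ k, (hat J p a k σ + -δ k a) := by
    refine prod_congr rfl fun k _ => ?_
    show a⁻¹ * (be p a k σ - EA J a (be p a k)) = hat J p a k σ + -δ k a
    simp only [hδ, hat]
    ring
  rw [h1, prod_add, mul_sum]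
  refine sum_congr rfl fun T _ => ?_
  unfold Xs
  ring

/-- All limits exist and do not depend on the directions. -/
theorem allLimJ {J : ℝ} (hJ : 0 < J) : AllLimJ Dia (crit J Dia (some altb)) := by
  intro p hp
  have hp0 : Good0 p := ⟨hp.2.1, hp.2.2.1, hp.2.2.2⟩
  have hq := AL.quotSM hJ AL.kp
  have hm := H365.merge hJ
  have hT : TipLim J := AL.tipLim hJ AL.kp hm H365.ratioM hq
  obtain ⟨c, _, hc⟩ := hT p hp0 univ ∅
  refine ⟨c, fun j' => ?_⟩
  have h := dir_lim hJ AL.kp kj hm H365.ratioM hq hp0 univ hc j'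
  exact corr_of_mix hJ hT (p := { p with j := j' }) hp h

/-- The knight-move potential admits no data. -/
theorem noDataJ {J : ℝ} (hJ : 0 < J) {lam : ℝ} (hl : 0 < lam) : ¬ HasDataJ J Vk lam := by
  rintro ⟨β, hβ, Zσ, hσ, Zε, _, ⟨E, hE, hId⟩, hD⟩
  obtain ⟨Zσ', Zε', hI⟩ := hD Dia Dia_open Dia_connected Dia_bounded (some altb) (allLimJ hJ)
  have h1 := hI ⟨1, 0, ![0], ![], ![]⟩ (good_x1 zero_mem_Dia _ _) 0 (crit_zero hJ zero_mem_Dia)
  rw [mul_zero] at h1
  exact core (Zε := Zε) hJ hl hβ (compare_ev hJ hl hβ) (fun a ha => disc_Dia ha) hE hσ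
    (fun E₀ hE₀ c hc => hId E₀ hE₀ Vale.Agent.P144.p2 Vale.Agent.P144.good_p2 c hc) h1

theorem not_Q1J : ¬ Q1J := by
  intro h
  obtain ⟨l0, hl0, h1⟩ := h 1 one_pos Vk Vk_potential
  refine noDataJ one_pos (lam := l0 / 2) (by positivity) (h1 _ ?_)
  rw [abs_of_pos (by positivity)]
  linarith

theorem hasDataJ_of {J lam : ℝ} {V : Finset Site → ℝ} (h : HasData J V lam) : HasDataJ J V lam := by
  obtain ⟨β, hβ, Zσ, hσ, Zε, hε, hE, hD⟩ := h
  refine ⟨β, hβ, Zσ, hσ, Zε, hε, hE, fun D h1 h2 h3 b hb => ⟨Zσ, Zε, hD D h1 h2 h3 b ?_⟩⟩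
  intro p hp
  obtain ⟨c, hc⟩ := hb p hp
  exact ⟨c, hc p.j⟩

theorem q1J_of (h : Q1) : Q1J := by
  intro J hJ V hV
  obtain ⟨l0, hl0, h1⟩ := h J hJ V hV
  exact ⟨l0, hl0, fun lam hl => hasDataJ_of (h1 lam hl)⟩

end Vale.Agent.P144.H436
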