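import Vale.Agent.P144.H436.JLim

/-!
The limits of the mixed correlations do not depend on the directions of the energies: reduction to
the kernels.
-/

namespace Vale.Agent.P144.H436

open Finset Vale.Agent.P144 Vale.Agent.P144.AL Filter Topology

/-- Change of a direction. -/
abbrev upd (p : Pts) (k : Fin p.m) (e : Fin 2) : Pts :=
  ⟨p.n, p.m, p.x, p.y, Function.update p.j k e⟩

/-- The relation between the limits of the kernels for the two directions of the energy `k`. -/
structure KJ (p : Pts) (k : Fin p.m) : Prop where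
  other : ∀ y : Lb p.n p.m, y ≠ .lo k → y ≠ .hi k → ¬ isTp p y → ∃ cA cB cC : ℂ,
    cB + cC = (√2 : ℝ) * cA ∧
    Tendsto (fun a : ℝ => rho (upd p k 0) a (.lo k) * rho (upd p k 0) a y *
      (Kn (upd p k 0) a (.lo k) y : ℂ) / a) (𝓝[>] 0) (𝓝 cA) ∧
    Tendsto (fun a : ℝ => rho (upd p k 0) a (.hi k) * rho (upd p k 0) a y *
      (Kn (upd p k 0) a (.hi k) y : ℂ) / a) (𝓝[>] 0) (𝓝 cB) ∧
    Tendsto (fun a : ℝ => rho (upd p k 1) a (.hi k) * rho (upd p k 1) a y *
      (Kn (upd p k 1) a (.hi k) y : ℂ) / a) (𝓝[>] 0) (𝓝 cC)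
  self : ∃ c : ℂ, Tendsto (fun a : ℝ =>
    rho (upd p k 0) a (.lo k) * rho (upd p k 0) a (.hi k) * ((Kn (upd p k 0) a (.lo k) (.hi k) -
      sgn (upd p k 0) a k * Wf (dia (nn a)) 0 [cnp (upd p k 0) a (.lo k),
        cnp (upd p k 0) a (.hi k)] : ℝ) : ℂ) / a) (𝓝[>] 0) (𝓝 c) ∧ Tendsto (fun a : ℝ =>
    rho (upd p k 1) a (.lo k) * rho (upd p k 1) a (.hi k) * ((Kn (upd p k 1) a (.lo k) (.hi k) -
      sgn (upd p k 1) a k * Wf (dia (nn a)) 0 [cnp (upd p k 1) a (.lo k),
        cnp (upd p k 1) a (.hi k)] : ℝ) : ℂ) / a) (𝓝[>] 0) (𝓝 (-c))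

section

variable (p : Pts)

/-- From the kernels to the scaled kernels. -/
theorem rr_lim {x y : Lb p.n p.m} (hx : ¬ isTp p x) (hy : ¬ isTp p y) {c : ℂ}
    (h : Tendsto (fun a : ℝ => rho p a x * rho p a y * (Kn p a x y : ℂ) / a) (𝓝[>] 0) (𝓝 c)) :
    Tendsto (fun a : ℝ => AL.rr p a x * AL.rr p a y * (Kw p a x y : ℂ)) (𝓝[>] 0) (𝓝 c) := by
  refine h.congr' ?_
  filter_upwards [self_mem_nhdsWithin] with a ha
  have ha : 0 < a := ha
  have hs : (√a : ℂ) ≠ 0 := by exact_mod_cast (Real.sqrt_pos.2 ha).ne'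
  rw [rr_eq p a hx, rr_eq p a hy, show Kw p a x y = wl (fun i => fl a (p.x i))
    (fun k => fl a (p.y k)) p.j x * wl (fun i => fl a (p.x i)) (fun k => fl a (p.y k)) p.j y *
    Kn p a x y from rfl, ← sqrt_mul_C ha]
  have h1 := congrArg (fun t : ℝ => (t : ℂ)) (wl_sq p (fun i => fl a (p.x i))
    (fun k => fl a (p.y k)) x)
  have h2 := congrArg (fun t : ℝ => (t : ℂ)) (wl_sq p (fun i => fl a (p.x i))
    (fun k => fl a (p.y k)) y)
  push_cast at h1 h2 ⊢
  generalize (wl (fun i => fl a (p.x i)) (fun k => fl a (p.y k)) p.j x : ℂ) = w1 at *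
  generalize (wl (fun i => fl a (p.x i)) (fun k => fl a (p.y k)) p.j y : ℂ) = w2 at *
  have e : w1 * (rho p a x / (√a : ℂ)) * (w2 * (rho p a y / (√a : ℂ))) *
      (w1 * w2 * (Kn p a x y : ℂ)) =
      (w1 * w1) * (w2 * w2) * (rho p a x * rho p a y * (Kn p a x y : ℂ) / ((√a : ℂ) * (√a : ℂ))) := by
    field_simp
  rw [e, h1, h2, one_mul, one_mul]

/-- The same for the pair of the corners of an energy. -/
theorem rr_pair {ks : List (Fin p.m)} {k : Fin p.m} (hk : k ∈ ks) (hks : ks.Nodup) {c : ℂ}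
    (hc : Tendsto (fun a : ℝ =>
    rho p a (.lo k) * rho p a (.hi k) * ((Kn p a (.lo k) (.hi k) -
      sgn p a k * Wf (dia (nn a)) 0 [cnp p a (.lo k), cnp p a (.hi k)] : ℝ) : ℂ) / a)
      (𝓝[>] 0) (𝓝 c)) : Tendsto (fun a : ℝ => AL.rr p a (.lo k) * AL.rr p a (.hi k) *
      (Kz p ks a (.lo k) (.hi k) : ℂ)) (𝓝[>] 0) (𝓝 c) := by
  refine hc.congr' ?_
  filter_upwards [self_mem_nhdsWithin] with a ha
  have ha : 0 < a := ha
  have hs : (√a : ℂ) ≠ 0 := by exact_mod_cast (Real.sqrt_pos.2 ha).ne'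
  rw [cen_pair p a hk hks, rr_eq p a (x := .lo k) (by simp [isTp]),
    rr_eq p a (x := .hi k) (by simp [isTp])]
  set w : ℝ := wl (fun i => fl a (p.x i)) (fun k => fl a (p.y k)) p.j (.hi k) with hw
  have hw2 : w * w = 1 := wl_sq p _ _ _
  have hwe : w = ep (cnp p a (.lo k)) (cnp p a (.hi k)) * sgn p a k := rfl
  have e0 : wl (fun i => fl a (p.x i)) (fun k => fl a (p.y k)) p.j (.lo k : Lb p.n p.m) = 1 := rfl
  have e1 : Kw p a (.lo k) (.hi k) = w * Kn p a (.lo k) (.hi k) := by
    show (1 : ℝ) * w * _ = _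
    rw [one_mul]; rfl
  have he := ep_sq (cnp p a (.lo k)) (cnp p a (.hi k))
  have e2 : w * (Kw p a (.lo k) (.hi k) - tk p a k) = Kn p a (.lo k) (.hi k) -
      sgn p a k * Wf (dia (nn a)) 0 [cnp p a (.lo k), cnp p a (.hi k)] := by
    rw [e1, mul_sub, ← mul_assoc, hw2, one_mul]
    congr 1
    unfold tk
    rw [hwe]
    linear_combination (sgn p a k * Wf (dia (nn a)) 0 [cnp p a (.lo k), cnp p a (.hi k)]) * he
  rw [← e2, e0]
  have h3 := sqrt_mul_C ha
  rw [← h3]
  push_cast
  field_simp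

theorem Kn_swap (hp : Good0 p) {x y : Lb p.n p.m} (h : x ≠ y) :
    ∀ᶠ a in 𝓝[>] (0:ℝ), Kn p a x y = -Kn p a y x := by
  filter_upwards [sep_ev p hp] with a hs
  unfold Kn
  exact Wf_swap _ _ (Sep.cn_cnr x) (Sep.cn_cnr y) fun h' => h (hs.1.cn_inj hs.2 h')

theorem lim_swap (hp : Good0 p) {x y : Lb p.n p.m} (hne : x ≠ y) {c : ℂ}
    (h : Tendsto (fun a : ℝ => rho p a x * rho p a y * (Kn p a x y : ℂ) / a) (𝓝[>] 0) (𝓝 c)) :
    Tendsto (fun a : ℝ => rho p a y * rho p a x * (Kn p a y x : ℂ) / a) (𝓝[>] 0) (𝓝 (-c)) := by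
  refine h.neg.congr' ?_
  filter_upwards [Kn_swap p hp hne] with a ha
  rw [ha]
  push_cast
  ring

variable {p} {k : Fin p.m}

theorem upd_good (hp : Good0 p) (e : Fin 2) : Good0 (upd p k e) := hp

theorem upd_j {l : Fin p.m} (h : l ≠ k) (e : Fin 2) : Function.update p.j k e l = p.j l :=
  Function.update_of_ne h _ _

theorem upd_cnp {x : Lb p.n p.m} (hx : x ≠ .hi k) (a : ℝ) (e e' : Fin 2) :
    cnp (upd p k e) a x = cnp (upd p k e') a x := by
  cases x with
  | src i => rfl
  | lo l => rfl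
  | tp c => rfl
  | hi l =>
    have hl : l ≠ k := fun h => hx (by rw [h])
    show eHi _ _ = eHi _ _
    simp only [upd_j hl]

theorem upd_rho {x : Lb p.n p.m} (hx : x ≠ .hi k) (a : ℝ) (e e' : Fin 2) :
    rho (upd p k e) a x = rho (upd p k e') a x := by
  cases x with
  | src i => rfl
  | lo l => rfl
  | tp c => rfl
  | hi l =>
    have hl : l ≠ k := fun h => hx (by rw [h])
    unfold rho
    simp only [wpos, upd_j hl]

theorem upd_wl {x : Lb p.n p.m} (hx : x ≠ .hi k) (u : Fin p.n → Site) (v : Fin p.m → Site)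
    (e e' : Fin 2) : wl u v (Function.update p.j k e) x = wl u v (Function.update p.j k e') x := by
  cases x with
  | src i => rfl
  | lo l => rfl
  | tp c => rfl
  | hi l =>
    have hl : l ≠ k := fun h => hx (by rw [h])
    simp only [wl, upd_j hl]

theorem upd_rr {x : Lb p.n p.m} (hx : x ≠ .hi k) (a : ℝ) (e e' : Fin 2) :
    AL.rr (upd p k e) a x = AL.rr (upd p k e') a x := by
  cases x with
  | src i => rfl
  | lo l => rfl
  | tp c => rfl
  | hi l =>
    simp only [AL.rr]
    rw [upd_rho (x := (.hi l : Lb p.n p.m)) hx a e e', upd_wl (x := (.hi l : Lb p.n p.m)) hx _ _ e e']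

theorem upd_Kw {x y : Lb p.n p.m} (hx : x ≠ .hi k) (hy : y ≠ .hi k) (a : ℝ) (e e' : Fin 2) :
    Kw (upd p k e) a x y = Kw (upd p k e') a x y := by
  have e1 : ∀ f : Fin 2, Kw (upd p k f) a x y = wl (fun i => fl a (p.x i)) (fun k => fl a (p.y k))
    (Function.update p.j k f) x * wl (fun i => fl a (p.x i)) (fun k => fl a (p.y k))
    (Function.update p.j k f) y * Wf (dia (nn a)) (Rp p a) [cnp (upd p k f) a x,
      cnp (upd p k f) a y] := fun _ => rfl
  rw [e1, e1, upd_cnp hx a e e', upd_cnp hy a e e', upd_wl hx _ _ e e', upd_wl hy _ _ e e']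

theorem upd_tk {l : Fin p.m} (hl : l ≠ k) (a : ℝ) (e e' : Fin 2) :
    tk (upd p k e) a l = tk (upd p k e') a l := by
  unfold tk
  rw [upd_cnp (x := (.lo l : Lb p.n p.m)) (by simp) a e e',
    upd_cnp (x := (.hi l : Lb p.n p.m)) (by simpa using hl) a e e']

theorem upd_Kz {x y : Lb p.n p.m} (hx : x ≠ .hi k) (hy : y ≠ .hi k) (ks : List (Fin p.m)) (a : ℝ)
    (e e' : Fin 2) : Kz (upd p k e) ks a x y = Kz (upd p k e') ks a x y := by
  classical
  unfold Kz cenK
  rw [upd_Kw hx hy a e e']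
  congr 1
  congr 1
  refine List.map_congr_left fun (l : Fin p.m) _ => ?_
  by_cases hl : l = k
  · rw [hl, if_neg fun h => hy h.2, if_neg fun h => hy h.2]
  · rw [upd_tk (p := p) (k := k) hl a e e']

/-- The limits of the kernels for the turned energy. -/
noncomputable def kapT (k : Fin p.m) (K : Lb p.n p.m → Lb p.n p.m → ℂ) (x y : Lb p.n p.m) : ℂ :=
  open Classical in
  if y = .hi k then (if x = .lo k then -K (.lo k) (.hi k) else (√2 : ℝ) * K x (.lo k) - K x (.hi k))
  else if x = .hi k then (√2 : ℝ) * K (.lo k) y - K (.hi k) y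
  else K x y

theorem not_tip {ks : List (Fin p.m)} {x : Lb p.n p.m} (hx : x ∈ lbs (n := p.n) ks []) :
    ¬ isTp p x := by
  unfold lbs at hx
  rw [List.map_nil, List.append_nil] at hx
  rcases List.mem_append.1 hx with h | h
  · obtain ⟨i, _, rfl⟩ := List.mem_map.1 h
    simp [isTp]
  · unfold flat at h
    rw [List.mem_flatMap] at h
    obtain ⟨l, _, h⟩ := h
    simp only [List.mem_cons, List.not_mem_nil, or_false] at h
    rcases h with rfl | rfl <;> simp [isTp]

theorem upd_tp {x : Lb p.n p.m} (hx : ¬ isTp p x) (e : Fin 2) : ¬ isTp (upd p k e) x := by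
  cases x with
  | src i => exact fun h => h
  | lo l => exact fun h => h
  | hi l => exact fun h => h
  | tp c => exact fun _ => hx trivial

/-- The labels before the energy `k`. -/
def Lp (p : Pts) (P : List (Fin p.m)) : List (Lb p.n p.m) :=
  (List.finRange p.n).map Lb.src ++ flat Lb.lo Lb.hi P

/-- The labels after the energy `k`. -/
def Lr (p : Pts) (R : List (Fin p.m)) : List (Lb p.n p.m) := flat Lb.lo Lb.hi R

theorem lbs_split (P R : List (Fin p.m)) :
    lbs (n := p.n) (P ++ k :: R) [] = Lp p P ++ .lo k :: .hi k :: Lr p R := by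
  unfold lbs Lp Lr
  rw [flat_append, flat_cons]
  simp

variable {P R : List (Fin p.m)} (hks : (P ++ k :: R).Nodup)
  {K : Lb p.n p.m → Lb p.n p.m → ℂ}

include hks in
theorem lbs_nd : (Lp p P ++ .lo k :: .hi k :: Lr p R).Nodup := by
  rw [← lbs_split]
  exact lbs_nodup hks List.nodup_nil

include hks in
/-- The limits of the kernels for the turned energy. -/
theorem kapT_lim (hp : Good0 p) (hj : KJ p k)
    (hK : ∀ x y : Lb p.n p.m, [x, y].Sublist (lbs (n := p.n) (P ++ k :: R) []) →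
      Tendsto (fun a : ℝ => AL.rr (upd p k 0) a x * AL.rr (upd p k 0) a y *
        (Kz (upd p k 0) (P ++ k :: R) a x y : ℂ)) (𝓝[>] 0) (𝓝 (K x y))) (x y : Lb p.n p.m)
    (hxy : [x, y].Sublist (lbs (n := p.n) (P ++ k :: R) [])) :
      Tendsto (fun a : ℝ => AL.rr (upd p k 1) a x * AL.rr (upd p k 1) a y *
        (Kz (upd p k 1) (P ++ k :: R) a x y : ℂ)) (𝓝[>] 0) (𝓝 (kapT k K x y)) := by
  have hnd := lbs_nd hks (p := p)
  have hkk : k ∈ P ++ k :: R := by simp
  have hx : ¬ isTp p x := not_tip (hxy.subset (by simp))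
  have hy : ¬ isTp p y := not_tip (hxy.subset (by simp))
  have hxy' : x ≠ y := by
    rintro rfl
    rw [lbs_split] at hxy
    have := hnd.sublist hxy
    simp at this
  have hlo : ¬ isTp p (.lo k : Lb p.n p.m) := by simp [isTp]
  have hhi : ¬ isTp p (.hi k : Lb p.n p.m) := by simp [isTp]
  unfold kapT
  by_cases hyk : y = .hi k
  · subst hyk
    rw [if_pos rfl]
    by_cases hxk : x = .lo k
    · subst hxk
      rw [if_pos rfl]
      obtain ⟨c, h0, h1⟩ := hj.self
      have e := tendsto_nhds_unique (hK _ _ hxy) (rr_pair (upd p k 0) hkk hks h0)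
      rw [e]
      exact rr_pair (upd p k 1) hkk hks h1
    · rw [if_neg hxk]
      obtain ⟨cA, cB, cC, hc, hA, hB, hC⟩ := hj.other x hxk hxy' hx
      have hxL : x ∈ Lp p P := by
        rw [lbs_split] at hxy
        have h1 : (Lp p P ++ .lo k :: .hi k :: Lr p R : List (Lb p.n p.m)) =
          (Lp p P ++ [.lo k]) ++ .hi k :: Lr p R := by simp
        rw [h1] at hxy hnd
        rcases List.mem_append.1 (sub_left hnd hxy) with h | h
        · exact h
        · exact absurd (List.mem_singleton.1 h) hxk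
      have s1 : [x, .lo k].Sublist (lbs (n := p.n) (P ++ k :: R) []) := by
        rw [lbs_split]
        have h3 : ([x] ++ [(Lb.lo k : Lb p.n p.m)]).Sublist
            (Lp p P ++ .lo k :: .hi k :: Lr p R) :=
          (List.singleton_sublist.2 hxL).append (List.singleton_sublist.2 (by simp))
        exact h3
      have nx : ∀ l : Fin p.m, ¬ (x = .lo l ∧ (.lo k : Lb p.n p.m) = .hi l) := by
        rintro l ⟨_, h⟩; cases h
      have nx' : ∀ l : Fin p.m, ¬ (x = .lo l ∧ (.hi k : Lb p.n p.m) = .hi l) := by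
        rintro l ⟨h, h'⟩
        injection h' with h'
        exact hxk (by rw [h, h'])
      have e1 : K x (.lo k) = -cA := by
        refine tendsto_nhds_unique (hK _ _ s1) ?_
        have := rr_lim (upd p k 0) (upd_tp hx 0) (upd_tp hlo 0) (lim_swap (upd p k 0) hp (Ne.symm hxk) hA)
        exact this.congr fun a => by rw [cen_other (upd p k 0) _ a nx]
      have e2 : K x (.hi k) = -cB := by
        refine tendsto_nhds_unique (hK _ _ hxy) ?_
        have := rr_lim (upd p k 0) (upd_tp hx 0) (upd_tp hhi 0) (lim_swap (upd p k 0) hp (Ne.symm hxy') hB)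
        exact this.congr fun a => by rw [cen_other (upd p k 0) _ a nx']
      have e3 : ((√2 : ℝ) : ℂ) * K x (.lo k) - K x (.hi k) = -cC := by
        rw [e1, e2]
        linear_combination hc
      rw [e3]
      have := rr_lim (upd p k 1) (upd_tp hx 1) (upd_tp hhi 1) (lim_swap (upd p k 1) hp (Ne.symm hxy') hC)
      exact this.congr fun a => by rw [cen_other (upd p k 1) _ a nx']
  · rw [if_neg hyk]
    by_cases hxk : x = .hi k
    · subst hxk
      rw [if_pos rfl]
      have hyL : y ∈ Lr p R := by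
        rw [lbs_split] at hxy
        have h1 : (Lp p P ++ .lo k :: .hi k :: Lr p R : List (Lb p.n p.m)) =
          (Lp p P ++ [.lo k]) ++ .hi k :: Lr p R := by simp
        rw [h1] at hxy hnd
        exact sub_right hnd hxy
      have hyl : y ≠ .lo k := by
        rintro rfl
        have := (List.nodup_cons.1 (List.nodup_append.1 hnd).2.1).1
        exact this (List.mem_cons_of_mem _ hyL)
      obtain ⟨cA, cB, cC, hc, hA, hB, hC⟩ := hj.other y hyl hyk hy
      have s1 : [.lo k, y].Sublist (lbs (n := p.n) (P ++ k :: R) []) := by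
        rw [lbs_split]
        have h3 : [.lo k, y].Sublist (.lo k :: .hi k :: Lr p R : List (Lb p.n p.m)) :=
          (List.singleton_sublist.2 (List.mem_cons_of_mem _ hyL)).cons_cons _
        exact h3.trans (List.sublist_append_right _ _)
      have nx : ∀ l : Fin p.m, ¬ ((.lo k : Lb p.n p.m) = .lo l ∧ y = .hi l) := by
        rintro l ⟨h', h⟩
        injection h' with h'
        exact hyk (by rw [h, h'])
      have nx' : ∀ l : Fin p.m, ¬ ((.hi k : Lb p.n p.m) = .lo l ∧ y = .hi l) := by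
        rintro l ⟨h', _⟩; cases h'
      have e1 : K (.lo k) y = cA := by
        refine tendsto_nhds_unique (hK _ _ s1) ?_
        have := rr_lim (upd p k 0) (upd_tp hlo 0) (upd_tp hy 0) hA
        exact this.congr fun a => by rw [cen_other (upd p k 0) _ a nx]
      have e2 : K (.hi k) y = cB := by
        refine tendsto_nhds_unique (hK _ _ hxy) ?_
        have := rr_lim (upd p k 0) (upd_tp hhi 0) (upd_tp hy 0) hB
        exact this.congr fun a => by rw [cen_other (upd p k 0) _ a nx']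
      have e3 : ((√2 : ℝ) : ℂ) * K (.lo k) y - K (.hi k) y = cC := by
        rw [e1, e2]
        linear_combination (-1 : ℂ) * hc
      rw [e3]
      have := rr_lim (upd p k 1) (upd_tp hhi 1) (upd_tp hy 1) hC
      exact this.congr fun a => by rw [cen_other (upd p k 1) _ a nx']
    · rw [if_neg hxk]
      refine (hK _ _ hxy).congr fun a => ?_
      rw [upd_rr hxk a 0 1, upd_rr hyk a 0 1, upd_Kz hxk hyk _ a 0 1]

end

end Vale.Agent.P144.H436
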