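import Vale.Agent.P144.U.AL.Tl

/-!
Row operations on Pfaffians of lists.
-/

namespace Vale.Agent.P144.H436

open Finset Vale.Agent.P144 Vale.Agent.P144.AL

section

variable {α 𝕜 : Type*} [CommRing 𝕜]

theorem sumE_lin (g g' : α → List α → 𝕜) (s t : 𝕜) (l : List α) :
    sumE (fun y u => s * g y u + t * g' y u) l = s * sumE g l + t * sumE g' l := by
  induction l generalizing g g' with
  | nil => simp [sumE]
  | cons x l ih =>
    rw [sumE, sumE, sumE, ih]
    ring

theorem sumE_zero (l : List α) : sumE (fun _ _ => (0 : 𝕜)) l = 0 := by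
  induction l with
  | nil => rfl
  | cons x l ih => rw [sumE, ih, sub_zero]

/-- An alternating double sum of a symmetric function vanishes. -/
theorem sumE_symm (G : α → α → List α → 𝕜) (hG : ∀ y z u, G y z u = G z y u) (l : List α) :
    sumE (fun y t => sumE (fun z u => G y z u) t) l = 0 := by
  induction l generalizing G with
  | nil => rfl
  | cons x l ih =>
    have h1 := ih (fun y z u => G y z (x :: u)) fun y z u => hG y z _
    have h2 := sumE_lin (fun y t => G y x t) (fun y t => sumE (fun z u => G y z (x :: u)) t)
      (1 : 𝕜) (-1) l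
    rw [h1] at h2
    rw [sumE]
    simp only [sumE]
    have h3 : (fun (y : α) (u : List α) => 1 * G y x u + -1 * sumE (fun z u => G y z (x :: u)) u) =
        fun y t => G y x t - sumE (fun z u => G y z (x :: u)) t := by
      funext y u; ring
    rw [h3] at h2
    rw [h2]
    have h4 : (fun (z : α) (u : List α) => G x z u) = fun y t => G y x t := by
      funext z u; exact hG x z u
    rw [h4]
    ring

theorem not_pair_erase {h : α} {l : List α} (hnd : l.Nodup) {j : ℕ} (hj : j < l.length)
    (he : l[j] = h) : h ∉ l.eraseIdx j := by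
  intro hc
  have h1 : (l.eraseIdx j ++ [l[j]]).Perm l := by
    have := List.perm_append_singleton l[j] (l.eraseIdx j)
    exact this.trans (List.getElem_cons_eraseIdx_perm hj)
  have h2 := h1.nodup_iff.2 hnd
  have h3 := (List.nodup_append.1 h2).2.2
  exact h3 h hc l[j] (by simp) he.symm

/-- The Pfaffian is linear in the entries of `h`. -/
theorem Pf_lin {K1 K2 K3 : α → α → 𝕜} {h : α} {s t : 𝕜}
    (h1 : ∀ x y, x ≠ h → y ≠ h → K1 x y = K3 x y) (h2 : ∀ x y, x ≠ h → y ≠ h → K2 x y = K3 x y)
    (h3 : ∀ x, x ≠ h → K3 x h = s * K1 x h + t * K2 x h)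
    (h4 : ∀ x, x ≠ h → K3 h x = s * K1 h x + t * K2 h x) (l : List α) (hnd : l.Nodup)
    (hl : h ∈ l) : Pf K3 l = s * Pf K1 l + t * Pf K2 l := by
  classical
  have hno : ∀ l : List α, h ∉ l → Pf K1 l = Pf K3 l ∧ Pf K2 l = Pf K3 l := by
    intro l hl
    refine ⟨Pf_congr l fun x y hxy => ?_, Pf_congr l fun x y hxy => ?_⟩
    · exact h1 x y (fun e => hl (e ▸ hxy.subset (by simp))) fun e => hl (e ▸ hxy.subset (by simp))
    · exact h2 x y (fun e => hl (e ▸ hxy.subset (by simp))) fun e => hl (e ▸ hxy.subset (by simp))
  induction hn : l.length using Nat.strong_induction_on generalizing l with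
  | _ n ih =>
    cases l with
    | nil => simp at hl
    | cons c l =>
      have hc := List.nodup_cons.1 hnd
      rw [Pf_cons, Pf_cons, Pf_cons, ← sumE_lin]
      refine sumE_congr l fun j hj => ?_
      have hsub := (List.eraseIdx_sublist l j).subset
      by_cases hch : c = h
      · subst hch
        have hy : l[j] ≠ c := fun e => hc.1 (e ▸ List.getElem_mem hj)
        obtain ⟨e1, e2⟩ := hno (l.eraseIdx j) fun hh => hc.1 (hsub hh)
        rw [e1, e2, h4 _ hy]
        ring
      · by_cases hy : l[j] = h
        · obtain ⟨e1, e2⟩ := hno (l.eraseIdx j) (not_pair_erase hc.2 hj hy)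
          rw [e1, e2, hy, h3 c hch]
          ring
        · have hl' : h ∈ l := by
            rcases List.mem_cons.1 hl with e | e
            · exact absurd e.symm hch
            · exact e
          have hmem : h ∈ l.eraseIdx j := by
            by_contra hcon
            have h5 := (List.getElem_cons_eraseIdx_perm hj).mem_iff (a := h)
            rcases List.mem_cons.1 (h5.2 hl') with e | e
            · exact hy e.symm
            · exact hcon e
          rw [ih (l.eraseIdx j).length (by
            rw [← hn, List.length_eraseIdx, if_pos hj, List.length_cons]; omega) _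
            (hc.2.sublist (List.eraseIdx_sublist l j)) hmem rfl, h1 c _ hch hy, h2 c _ hch hy]
          ring

/-- Renaming an element of the list. -/
theorem Pf_rename {K : α → α → 𝕜} {e e' : α} (hr : ∀ x, x ≠ e → x ≠ e' → K e x = K e' x)
    (hc : ∀ x, x ≠ e → x ≠ e' → K x e = K x e') (p s : List α)
    (hnd : (p ++ e :: e' :: s).Nodup) : Pf K (p ++ e' :: s) = Pf K (p ++ e :: s) := by
  classical
  have hndA := List.nodup_append.1 hnd
  have hnd1 := List.nodup_cons.1 hndA.2.1
  have hnd2 := List.nodup_cons.1 hnd1.2
  have hes : e ∉ s := fun h => hnd1.1 (List.mem_cons_of_mem _ h)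
  have hep : e ∉ p := fun h => hndA.2.2 e h e (by simp) rfl
  have he'p : e' ∉ p := fun h => hndA.2.2 e' h e' (by simp) rfl
  have hee' : e ≠ e' := fun h => hnd1.1 (h ▸ List.mem_cons_self ..)
  set g : α → α := fun x => if x = e then e' else x with hg
  have hid : ∀ l : List α, e ∉ l → l.map g = l := by
    intro l hl
    conv_rhs => rw [← List.map_id l]
    refine List.map_congr_left fun x hx => ?_
    have hxe : x ≠ e := fun h => hl (h ▸ hx)
    exact if_neg hxe
  have e1 : (p ++ e :: s).map g = p ++ e' :: s := by
    rw [List.map_append, List.map_cons, hid p hep, hid s hes]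
    congr 2
    rw [hg]; simp
  rw [← e1, Pf_map]
  refine Pf_congr _ fun x y hxy => ?_
  have hx : x ∈ p ++ e :: s := hxy.subset (by simp)
  have hy : y ∈ p ++ e :: s := hxy.subset (by simp)
  have hmem' : ∀ z, z ∈ p ++ e :: s → z ≠ e' := by
    rintro z hz rfl
    rcases List.mem_append.1 hz with h | h
    · exact he'p h
    · rcases List.mem_cons.1 h with h | h
      · exact hee' h.symm
      · exact hnd2.1 h
  have hnd' : (p ++ e :: s).Nodup :=
    hnd.sublist (List.Sublist.append_left (List.Sublist.cons_cons e (List.sublist_cons_self e' s)) p)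
  have hxy' : x ≠ y := by
    rintro rfl
    have := hnd'.sublist hxy
    simp at this
  simp only [hg]
  by_cases h1 : x = e
  · rw [if_pos h1, if_neg (fun h => hxy' (h1.trans h.symm)), h1]
    exact (hr y (fun h => hxy' (h1.trans h.symm)) (hmem' y hy)).symm
  · by_cases h2 : y = e
    · rw [if_neg h1, if_pos h2, h2]
      exact (hc x h1 (hmem' x hx)).symm
    · rw [if_neg h1, if_neg h2]

/-- Two equal rows. -/
theorem Pf_dup {K : α → α → 𝕜} {e e' : α} (hee : K e e' = 0)
    (hr : ∀ x, x ≠ e → x ≠ e' → K e x = K e' x) (hc : ∀ x, x ≠ e → x ≠ e' → K x e = K x e')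
    (p s : List α) (hnd : (p ++ e :: e' :: s).Nodup) : Pf K (p ++ e :: e' :: s) = 0 := by
  induction hn : p.length + s.length using Nat.strong_induction_on generalizing p s with
  | _ n ih =>
    have hndA := List.nodup_append.1 hnd
    have hnd1 := List.nodup_cons.1 hndA.2.1
    have hnd2 := List.nodup_cons.1 hnd1.2
    have hes : e ∉ s := fun h => hnd1.1 (List.mem_cons_of_mem _ h)
    cases p with
    | nil =>
      rw [List.nil_append, Pf_cons, sumE, hee, zero_mul]
      have h1 : sumE (fun y t => K e y * Pf K (e' :: t)) s =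
          sumE (fun y t => sumE (fun z u => K e y * K e z * Pf K u) t) s := by
        refine sumE_congr s fun j hj => ?_
        rw [Pf_cons]
        have h2 := sumE_lin (fun z u => K e' z * Pf K u) (fun _ _ => (0:𝕜)) (K e s[j]) 0
          (s.eraseIdx j)
        simp only [mul_zero, add_zero, zero_mul] at h2
        rw [← h2]
        refine sumE_congr _ fun i hi => ?_
        have hm : (s.eraseIdx j)[i] ∈ s :=
          (List.eraseIdx_sublist s j).subset (List.getElem_mem hi)
        rw [hr _ (fun h => hes (h ▸ hm)) fun h => hnd2.1 (h ▸ hm)]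
        ring
      rw [h1, sumE_symm _ (fun y z u => by ring), sub_zero]
    | cons c p =>
      have hcl : c ∉ p ++ e :: e' :: s := (List.nodup_cons.1 hnd).1
      have hndp : (p ++ e :: e' :: s).Nodup := (List.nodup_cons.1 hnd).2
      have hce : c ≠ e := fun h => hcl (by simp [h])
      have hce' : c ≠ e' := fun h => hcl (by simp [h])
      rw [List.cons_append, Pf_cons, sumE_append]
      simp only [sumE]
      have h1 : sumE (fun y u => K c y * Pf K (u ++ e :: e' :: s)) p = 0 := by
        rw [← sumE_zero (𝕜 := 𝕜) p]
        refine sumE_congr p fun j hj => ?_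
        rw [ih ((p.eraseIdx j).length + s.length) (by
          rw [← hn, List.length_eraseIdx, if_pos hj, List.length_cons]; omega) (p.eraseIdx j) s ?_ rfl]
        · ring
        · exact hndp.sublist (List.Sublist.append_right (List.eraseIdx_sublist p j) _)
      have h2 : sumE (fun y u => K c y * Pf K (p ++ e :: e' :: u)) s = 0 := by
        rw [← sumE_zero (𝕜 := 𝕜) s]
        refine sumE_congr s fun j hj => ?_
        rw [ih (p.length + (s.eraseIdx j).length) (by
          rw [← hn, List.length_eraseIdx, if_pos hj, List.length_cons]; omega) p (s.eraseIdx j) ?_ rfl]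
        · ring
        · refine hndp.sublist ?_
          exact List.Sublist.append_left
            (((List.eraseIdx_sublist s j).cons_cons e').cons_cons e) p
      rw [h1, h2, hc c hce hce', Pf_rename hr hc p s hndp]
      ring

theorem sub_left {l r : List α} {h x : α} (hnd : (l ++ h :: r).Nodup)
    (hx : [x, h].Sublist (l ++ h :: r)) : x ∈ l := by
  have hxh : x ≠ h := by
    rintro rfl
    have := hnd.sublist hx
    simp at this
  have hm : x ∈ l ++ h :: r := hx.subset (by simp)
  rcases List.mem_append.1 hm with h1 | h1
  · exact h1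
  · rcases List.mem_cons.1 h1 with h2 | h2
    · exact absurd h2 hxh
    · exfalso
      refine nodup_order hnd hx ?_
      have h3 : [h, x].Sublist (h :: r) := (List.singleton_sublist.2 h2).cons_cons h
      exact h3.trans (List.sublist_append_right _ _)

theorem sub_right {l r : List α} {h x : α} (hnd : (l ++ h :: r).Nodup)
    (hx : [h, x].Sublist (l ++ h :: r)) : x ∈ r := by
  have hxh : x ≠ h := by
    rintro rfl
    have := hnd.sublist hx
    simp at this
  have hm : x ∈ l ++ h :: r := hx.subset (by simp)
  rcases List.mem_append.1 hm with h1 | h1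
  · exfalso
    refine nodup_order hnd hx ?_
    have h3 : ([x] ++ [h]).Sublist (l ++ h :: r) :=
      (List.singleton_sublist.2 h1).append (List.singleton_sublist.2 (by simp))
    exact h3
  · rcases List.mem_cons.1 h1 with h2 | h2
    · exact absurd h2 hxh
    · exact h2

/-- The row operation which turns the direction of an energy. -/
theorem Pf_flip {K K' : α → α → 𝕜} {o h : α} {s : 𝕜} (p r : List α)
    (hnd : (p ++ o :: h :: r).Nodup)
    (h0 : ∀ x y, [x, y].Sublist (p ++ o :: h :: r) → x ≠ h → y ≠ h → K' x y = K x y)
    (h1 : ∀ x, x ∈ p → K' x h = s * K x o - K x h)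
    (h2 : ∀ x, x ∈ r → K' h x = s * K o x - K h x)
    (h3 : K' o h = - K o h) : Pf K' (p ++ o :: h :: r) = -Pf K (p ++ o :: h :: r) := by
  classical
  have hndA := List.nodup_append.1 hnd
  have hnd1 := List.nodup_cons.1 hndA.2.1
  have hoh : o ≠ h := fun h => hnd1.1 (h ▸ List.mem_cons_self ..)
  set K1 : α → α → 𝕜 := fun x y => if x = h then (if y = o then 0 else K o y) else
    if y = h then (if x = o then 0 else K x o) else K x y with hK1
  set K3 : α → α → 𝕜 := fun x y => if x = h ∨ y = h then s * K1 x y - K x y else K x y with hK3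
  have e1 : Pf K' (p ++ o :: h :: r) = Pf K3 (p ++ o :: h :: r) := by
    refine Pf_congr _ fun x y hxy => ?_
    have hxy' : x ≠ y := by
      rintro rfl
      have := hnd.sublist hxy
      simp at this
    have ho' : o ∉ r := fun h' => hnd1.1 (List.mem_cons_of_mem _ h')
    have hop : o ∉ p := fun h' => hndA.2.2 o h' o (by simp) rfl
    have hap : p ++ o :: h :: r = (p ++ [o]) ++ h :: r := by simp
    by_cases hx : x = h
    · subst hx
      have hy : y ∈ r := by
        rw [hap] at hnd hxy
        exact sub_right hnd hxy
      have hyo : y ≠ o := fun e => ho' (e ▸ hy)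
      simp only [hK3, hK1, true_or, if_true]
      rw [if_neg hyo]
      exact h2 y hy
    · by_cases hy : y = h
      · subst hy
        have hx' : x ∈ p ++ [o] := by
          rw [hap] at hnd hxy
          exact sub_left hnd hxy
        simp only [hK3, hK1, or_true, if_true]
        rw [if_neg hx]
        rcases List.mem_append.1 hx' with h' | h'
        · have hxo : x ≠ o := fun e => hop (e ▸ h')
          rw [if_neg hxo]
          exact h1 x h'
        · rw [List.mem_singleton] at h'
          subst h'
          rw [if_pos rfl, h3]; ring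
      · simp only [hK3]
        rw [if_neg (not_or.2 ⟨hx, hy⟩)]
        exact h0 x y hxy hx hy
  have e2 := Pf_lin (K1 := K1) (K2 := K) (K3 := K3) (h := h) (s := s) (t := -1)
    (fun x y hx hy => by
      simp only [hK3, hK1]
      rw [if_neg hx, if_neg hy, if_neg (not_or.2 ⟨hx, hy⟩)])
    (fun x y hx hy => by
      simp only [hK3]
      rw [if_neg (not_or.2 ⟨hx, hy⟩)])
    (fun x hx => by
      simp only [hK3, or_true, if_true]; ring)
    (fun x hx => by
      simp only [hK3, true_or, if_true]; ring) (p ++ o :: h :: r) hnd (by simp)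
  have e3 : Pf K1 (p ++ o :: h :: r) = 0 := by
    refine Pf_dup ?_ (fun x hx hx' => ?_) (fun x hx hx' => ?_) p r hnd
    · simp only [hK1]
      rw [if_neg hoh, if_pos trivial, if_pos trivial]
    · simp only [hK1]
      rw [if_neg hoh, if_neg hx', if_pos trivial, if_neg hx]
    · simp only [hK1]
      rw [if_neg hx', if_neg hoh, if_neg hx', if_pos trivial, if_neg hx]
  rw [e1, e2, e3]
  ring

end

end Vale.Agent.P144.H436
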