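import Vale.Agent.P144.U.AL.TipLim
import Vale.Agent.P144.H436.JPf

/-!
The mixed correlations of the free model: explicit form of the limits.
-/

namespace Vale.Agent.P144.H436

open Finset Vale.Agent.P144 Vale.Agent.P144.AL Filter Topology

section

variable (p : Pts)

/-- The sign and the roots of an energy. -/
theorem en_lim' (hxy : ∀ k i, p.y k ≠ p.x i) (k : Fin p.m) :
    Tendsto (fun a : ℝ => (wl (fun i => fl a (p.x i)) (fun k => fl a (p.y k)) p.j (.hi k) : ℂ) *
      (rho p a (.lo k) * rho p a (.hi k))) (𝓝[>] 0)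
      (𝓝 (((if p.j k = 0 then 1 else -1 : ℝ) : ℂ) * ∏ i, (p.y k - p.x i))) := by
  have key : ∀ (s' t' : ℝ), (∀ a : ℝ, Typ (fl a (p.y k) + dir (p.j k)) (fl a (p.y k)) s') →
        (∀ a : ℝ, wpos p a (.hi k) = H170.pos a (fl a (p.y k)) s' t') →
        Tendsto (fun a : ℝ => (wl (fun i => fl a (p.x i)) (fun k => fl a (p.y k)) p.j (.hi k) : ℂ) *
          (rho p a (.lo k) * rho p a (.hi k))) (𝓝[>] 0)
          (𝓝 (((if p.j k = 0 then 1 else -1 : ℝ) : ℂ) * ∏ i, (p.y k - p.x i))) := by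
      intro s' t' hT hw
      have h1 := Tendsto.const_mul ((if p.j k = 0 then 1 else -1 : ℝ) : ℂ)
        (tendsto_finsetProd univ fun i _ =>
        two_cor (a := fun a : ℝ => a) (x := fun a => fl a (p.y k))
          (x' := fun a => fl a (p.y k) + dir (p.j k)) (s := 1 / 4) idt (flt (p.y k)) (flt (p.x i))
          (fun a => Or.inl ⟨rfl, rfl⟩) hT (1 / 4) t' (hxy k i))
      refine h1.congr fun a => ?_
      simp only [wl, sk]
      rw [ep_lohi]
      unfold srcs rho
      rw [List.map_map, hw, prod_mul_distrib, prod_mul_distrib]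
      push_cast
      rw [mul_assoc]
      congr 1
      congr 1
      have e := (Fin.prod_univ_def fun i : Fin p.n =>
        ep (eLo (fl a (p.y k))) (fl a (p.x i), fl a (p.x i)) *
          ep (eHi (fl a (p.y k)) (p.j k)) (fl a (p.x i), fl a (p.x i)))
      have e' := congrArg (fun t : ℝ => (t : ℂ)) e
      push_cast at e'
      exact e'
  by_cases hj : p.j k = 0
  · refine key (3 / 4) (1 / 4) (fun a => Or.inr ⟨?_, rfl⟩) fun a => ?_
    · unfold dir; rw [if_pos hj]; simp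
    · simp only [wpos, if_pos hj]
  · refine key (1 / 4) (3 / 4) (fun a => Or.inl ⟨?_, rfl⟩) fun a => ?_
    · unfold dir; rw [if_neg hj]; simp
    · simp only [wpos, if_neg hj]

/-- The factor of the energies. -/
noncomputable def Hc (ks : List (Fin p.m)) : ℂ :=
  (ks.map fun k => ((if p.j k = 0 then 1 else -1 : ℝ) : ℂ) * ∏ i, (p.y k - p.x i)).prod

theorem Hc_ne (hxy : ∀ k i, p.y k ≠ p.x i) (ks : List (Fin p.m)) : Hc p ks ≠ 0 := by
  refine List.prod_ne_zero fun h => ?_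
  obtain ⟨k, _, hk⟩ := List.mem_map.1 h
  refine absurd hk (mul_ne_zero ?_ (prod_ne_zero_iff.2 fun i _ => sub_ne_zero.2 (hxy k i)))
  split_ifs <;> simp

theorem Hc_lim (hxy : ∀ k i, p.y k ≠ p.x i) (ks : List (Fin p.m)) : Tendsto (fun a : ℝ =>
    (ks.map fun k => (wl (fun i => fl a (p.x i)) (fun k => fl a (p.y k)) p.j (.hi k) : ℂ) *
      (rho p a (.lo k) * rho p a (.hi k))).prod) (𝓝[>] 0) (𝓝 (Hc p ks)) :=
  tendsto_list_prod ks fun k _ => en_lim' p hxy k

variable {p}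

/-- The identity between the correlations and the Pfaffians. -/
theorem mixC_id {J : ℝ} (hJ : 0 < J) (hp : Good0 p) (T : Finset (Fin p.m)) (hn : Even p.n) :
    ∀ᶠ a in 𝓝[>] (0:ℝ), (mixC J p T ∅ a : ℂ) = (Gn (univ.image p.x) a : ℂ) *
      ((el (srcs fun i => fl a (p.x i)) : ℂ) * ∏ i, ((√a : ℂ) / rho p a (.src i))) *
      (((T.toList.map fun k => (wl (fun i => fl a (p.x i)) (fun k => fl a (p.y k)) p.j (.hi k) : ℂ) *
        (rho p a (.lo k) * rho p a (.hi k))).prod)⁻¹ *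
        Pf (fun x y => AL.rr p a x * AL.rr p a y * (Kz p T.toList a x y : ℂ)) (lbs T.toList [])) := by
  have hx : Function.Injective p.x := fun i i' h => Sum.inl_injective (hp.2.2 (by simpa using h))
  have hxy : ∀ k i, p.y k ≠ p.x i := fun k i h => by
    have := @hp.2.2 (Sum.inr k) (Sum.inl i) (by simpa using h)
    cases this
  have hev0 := (sep_ev p hp).and self_mem_nhdsWithin
  have hev : Even (lbs (n := p.n) T.toList []).length := by
    rw [lbs_length]
    simp only [List.length_nil, add_zero]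
    exact hn.add (even_two_mul _)
  have hr0 : ∀ i, ∀ᶠ a in 𝓝[>] (0:ℝ), rho p a (.src i) ≠ 0 := by
    intro i
    obtain ⟨c, hc, hl⟩ := rho_src p hx i
    filter_upwards [hl.eventually_ne hc.ne'] with a h1 h2
    apply h1
    rw [h2]; simp
  filter_upwards [hev0, eventually_all.2 hr0, (Hc_lim p hxy T.toList).eventually_ne
    (Hc_ne p hxy T.toList)] with a ha hr1 hH1
  have ha' : 0 < a := ha.2
  have ha0 : (a : ℂ) ≠ 0 := by exact_mod_cast ha'.ne'
  have hs : (√a : ℂ) ≠ 0 := by exact_mod_cast (Real.sqrt_pos.2 ha').ne'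
  rw [mixC_eq p hJ ha' ha.1 T ∅, ← Gn_eq p hx ha', toList_empty, Pf_scale _ _ _ hev,
    rr_prod p ha', length_toList]
  have hsg : sgT p [] a = el (srcs fun i => fl a (p.x i)) := by
    unfold sgT SG
    simp
  rw [hsg]
  push_cast
  rw [Pf_ofReal]
  have hP : (∏ i, (√a : ℂ) / rho p a (.src i)) * ∏ i, rho p a (.src i) / (√a : ℂ) = 1 := by
    rw [← prod_mul_distrib]
    refine prod_eq_one fun i _ => ?_
    have := hr1 i
    field_simp
  generalize (∏ i, (√a : ℂ) / rho p a (.src i)) = A at *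
  generalize (∏ i, rho p a (.src i) / (√a : ℂ)) = B at *
  generalize ((T.toList.map fun k => (wl (fun i => fl a (p.x i)) (fun k => fl a (p.y k)) p.j
    (.hi k) : ℂ) * (rho p a (.lo k) * rho p a (.hi k))).prod) = D at *
  generalize Pf (fun x y => (Kz p T.toList a x y : ℂ)) (lbs T.toList []) = P at *
  have hA : A * (B * D * (a : ℂ)⁻¹ ^ T.card * P) = D * ((a : ℂ)⁻¹ ^ T.card * P) := by
    linear_combination (D * (a : ℂ)⁻¹ ^ T.card * P) * hP
  have h5 : A * (D⁻¹ * (B * D * (a : ℂ)⁻¹ ^ T.card * P)) = (a : ℂ)⁻¹ ^ T.card * P := by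
    rw [show A * (D⁻¹ * (B * D * (a : ℂ)⁻¹ ^ T.card * P)) =
      D⁻¹ * (A * (B * D * (a : ℂ)⁻¹ ^ T.card * P)) by ring, hA, ← mul_assoc,
      inv_mul_cancel₀ hH1, one_mul]
  linear_combination (-(Gn (univ.image p.x) a : ℂ) * (el (srcs fun i => fl a (p.x i)) : ℂ)) * h5

/-- The limits in explicit form. -/
theorem mixC_lim {J : ℝ} (hJ : 0 < J) (hp : Good0 p) (T : Finset (Fin p.m)) (hn : Even p.n)
    {kap : Lb p.n p.m → Lb p.n p.m → ℂ}
    (hkl : ∀ x y : Lb p.n p.m, [x, y].Sublist (lbs T.toList []) → Tendsto (fun a : ℝ =>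
      AL.rr p a x * AL.rr p a y * (Kz p T.toList a x y : ℂ)) (𝓝[>] 0) (𝓝 (kap x y)))
    {g : ℝ} (hg : Tendsto (Gn (univ.image p.x)) (𝓝[>] 0) (𝓝 g)) {c : ℂ}
    (hc : Tendsto (fun a : ℝ => (el (srcs fun i => fl a (p.x i)) : ℂ) *
      ∏ i, ((√a : ℂ) / rho p a (.src i))) (𝓝[>] 0) (𝓝 c)) :
    Tendsto (mixC J p T ∅) (𝓝[>] 0)
      (𝓝 ((g : ℂ) * c * ((Hc p T.toList)⁻¹ * Pf kap (lbs T.toList []))).re) := by
  have hxy : ∀ k i, p.y k ≠ p.x i := fun k i h => by
    have := @hp.2.2 (Sum.inr k) (Sum.inl i) (by simpa using h)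
    cases this
  have hPf := Pf_tendstoC (fun a x y => AL.rr p a x * AL.rr p a y * (Kz p T.toList a x y : ℂ)) kap
    (lbs T.toList []) hkl
  have hHP := ((Hc_lim p hxy T.toList).inv₀ (Hc_ne p hxy T.toList)).mul hPf
  have hg' : Tendsto (fun a => (Gn (univ.image p.x) a : ℂ)) (𝓝[>] 0) (𝓝 (g : ℂ)) :=
    (Complex.continuous_ofReal.tendsto _).comp hg
  have hall := ((hg'.mul hc).mul hHP).congr' ((mixC_id hJ hp T hn).mono fun a h => h.symm)
  exact (Complex.continuous_re.tendsto _).comp hall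

/-- Odd numbers of spins. -/
theorem mixC_odd {J : ℝ} (hJ : 0 < J) (hp : Good0 p) (T : Finset (Fin p.m)) (hn : ¬ Even p.n) :
    Tendsto (mixC J p T ∅) (𝓝[>] 0) (𝓝 0) := by
  refine tendsto_const_nhds.congr' ?_
  filter_upwards [(sep_ev p hp).and self_mem_nhdsWithin] with a ha
  have hev : ¬ Even (lbs (n := p.n) T.toList []).length := by
    rw [lbs_length]
    intro h
    apply hn
    simp only [List.length_nil, add_zero] at h
    exact (Nat.even_add.1 h).2 (even_two_mul _)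
  rw [mixC_eq p hJ ha.2 ha.1 T ∅, toList_empty, Pf_odd _ _ hev]
  ring

end

end Vale.Agent.P144.H436
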