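import Vale.Agent.P144.H436.JAll
import Vale.Agent.P144.H170.K12
import Vale.Agent.P144.H135.Jind2

/-!
The relation between the limits of the kernels for the two directions of an energy.
-/

namespace Vale.Agent.P144.H436

open Filter Topology Complex Metric Vale.Agent.P144 Vale.Agent.P144.H170

section

variable {p : Pts} {j : Fin p.n}

theorem lim_of_sol' {G : Filter ℝ} {κ : Type*} [Fintype κ] {ζ : κ → ℂ} {ω : ℂ}
    (hζ : ∀ p, ζ p ∈ Dia) (hω : ω ∈ Dia) (hinj : Function.Injective ζ) (hne : ∀ p, ζ p ≠ ω)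
    {F : ℝ → ℂ} {Φ : (ℂ → ℂ) → ℂ}
    (hΦ : ∀ q q' : ℂ → ℂ, ((∀ z ∈ Dia, q z = q' z) ∨ ∀ z ∈ Dia, q z = -q' z) → Φ q = Φ q')
    (h : ∀ l : Ultrafilter ℝ, (l : Filter ℝ) ≤ G → ∃ q, Sol ζ ω q ∧ Tendsto F l (𝓝 (Φ q)))
    {q0 : ℂ → ℂ} (hq0 : Sol ζ ω q0) : Tendsto F G (𝓝 (Φ q0)) := by
  rw [tendsto_iff_ultrafilter]
  intro l hl
  obtain ⟨q, hq, hF⟩ := h l hl
  rw [← hΦ q q0 (sol_unique hζ hω hinj hne hq hq0)]
  exact hF

/-- The value of the limit. -/
noncomputable def Vv (p : Pts) (j : Fin p.n) (k : Fin p.m) (S : {i // i ≠ j} → Prop)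
    (S' : Unit → Prop) (q : ℂ → ℂ) (φ : ℂ →L[ℝ] ℝ) : ℂ :=
  -1 * (RS S S' (fun i : {i // i ≠ j} => p.x i) (fun _ : Unit => p.x j) (p.y k) *
    (φ (q (p.y k) / RS S S' (fun i : {i // i ≠ j} => p.x i) (fun _ : Unit => p.x j)
      (p.y k)) : ℂ)) * (rtu AL.z0 * ((√(2 * Real.pi) / 2 : ℝ) * (H365.c0 * q (p.x j))))

theorem Vv_sum (k : Fin p.m) (S : {i // i ≠ j} → Prop) (S' : Unit → Prop) (q : ℂ → ℂ) :
    Vv p j k S S' q phB + Vv p j k S S' q phC = ((√2 : ℝ) : ℂ) * Vv p j k S S' q phA := by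
  unfold Vv
  have h1 : ∀ w : ℂ, ((phB w : ℝ) : ℂ) + ((phC w : ℝ) : ℂ) = ((√2 : ℝ) : ℂ) * ((phA w : ℝ) : ℂ) := by
    intro w
    have h2 := H135.phT_sum w
    rw [H135.phT_A, H135.phT_B, H135.phT_C] at h2
    rw [← ofReal_add, ← ofReal_mul, h2]
  have h3 := h1 (q (p.y k) / RS S S' (fun i : {i // i ≠ j} => p.x i) (fun _ : Unit => p.x j)
    (p.y k))
  generalize ((phB (q (p.y k) / RS S S' (fun i : {i // i ≠ j} => p.x i) (fun _ : Unit => p.x j)
    (p.y k)) : ℝ) : ℂ) = B at *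
  generalize ((phC (q (p.y k) / RS S S' (fun i : {i // i ≠ j} => p.x i) (fun _ : Unit => p.x j)
    (p.y k)) : ℝ) : ℂ) = C at *
  generalize ((phA (q (p.y k) / RS S S' (fun i : {i // i ≠ j} => p.x i) (fun _ : Unit => p.x j)
    (p.y k)) : ℝ) : ℂ) = A at *
  linear_combination (-(RS S S' (fun i : {i // i ≠ j} => p.x i) (fun _ : Unit => p.x j) (p.y k)) *
    (rtu AL.z0 * ((√(2 * Real.pi) / 2 : ℝ) * (H365.c0 * q (p.x j))))) * h3

variable (hp : Good0 p) (k : Fin p.m)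

include hp

theorem lo_src {S : {i // i ≠ j} → Prop} {S' : Unit → Prop}
    (hS : p.y k ∈ VS S S' (fun i : {i // i ≠ j} => p.x i) fun _ : Unit => p.x j)
    {q0 : ℂ → ℂ} (hq0 : Sol (fun i : {i // i ≠ j} => p.x i) (p.x j) q0) :
    Tendsto (fun a : ℝ => AL.rho p a (.lo k) * AL.rho p a (.src j) *
      (AL.Kn p a (.lo k) (.src j) : ℂ) / a) (𝓝[>] 0) (𝓝 (Vv p j k S S' q0 phA)) := by
  have hdia : ∀ᶠ a in 𝓝[>] (0:ℝ), |(fl a (p.y k)).1| + |(fl a (p.y k)).2| + (2:ℕ) ≤ nn a :=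
    AL.in_ev AL.idt AL.nn_lim (AL.flt _) (hp.2.1 k) 2
  have hinj : Function.Injective (fun i : {i // i ≠ j} => p.x i) := fun i i' h => Subtype.ext (by
      by_contra hc
      exact H170.Good0.ne hp hc h)
  refine lim_of_sol' (κ := {i // i ≠ j}) (ζ := fun i => p.x i) (ω := p.x j)
      (fun i => hp.1 i) (hp.1 j) hinj (fun i => H170.Good0.ne hp i.2)
      (fun q q' h => sol_phi (j := j) hp k phA (RS S S' (fun i : {i // i ≠ j} => p.x i)
        (fun _ : Unit => p.x j) (p.y k)) (rtu AL.z0) h) ?_ hq0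
  intro l hl
  obtain ⟨q, hq⟩ := pkj_exists j hp l hl
  refine ⟨q, hq.sol, ?_⟩
  refine kern_lim hl hp k (Or.inl rfl) hq.slim.A hq hS (fun a => Or.inl ⟨rfl, rfl⟩)
    (fun a => rfl) (fun a => rfl) ?_
  filter_upwards [hl hdia] with a ha
  rw [Kn_src]
  unfold jA AL.xA
  have : fl a (p.y k) ∈ dia (nn a) := by
    rw [AL.mem_dia]; push_cast at ha; lia
  rw [if_pos this]
  rfl

theorem hi_src0 (hj : p.j k = 0) {S : {i // i ≠ j} → Prop} {S' : Unit → Prop}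
    (hS : p.y k ∈ VS S S' (fun i : {i // i ≠ j} => p.x i) fun _ : Unit => p.x j)
    {q0 : ℂ → ℂ} (hq0 : Sol (fun i : {i // i ≠ j} => p.x i) (p.x j) q0) :
    Tendsto (fun a : ℝ => AL.rho p a (.hi k) * AL.rho p a (.src j) *
      (AL.Kn p a (.hi k) (.src j) : ℂ) / a) (𝓝[>] 0) (𝓝 (Vv p j k S S' q0 phB)) := by
  have hdia : ∀ᶠ a in 𝓝[>] (0:ℝ), |(fl a (p.y k)).1| + |(fl a (p.y k)).2| + (2:ℕ) ≤ nn a :=
    AL.in_ev AL.idt AL.nn_lim (AL.flt _) (hp.2.1 k) 2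
  have hinj : Function.Injective (fun i : {i // i ≠ j} => p.x i) := fun i i' h => Subtype.ext (by
      by_contra hc
      exact H170.Good0.ne hp hc h)
  refine lim_of_sol' (κ := {i // i ≠ j}) (ζ := fun i => p.x i) (ω := p.x j)
      (fun i => hp.1 i) (hp.1 j) hinj (fun i => H170.Good0.ne hp i.2)
      (fun q q' h => sol_phi (j := j) hp k phB (RS S S' (fun i : {i // i ≠ j} => p.x i)
        (fun _ : Unit => p.x j) (p.y k)) (rtu AL.z0) h) ?_ hq0
  intro l hl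
  obtain ⟨q, hq⟩ := pkj_exists j hp l hl
  refine ⟨q, hq.sol, ?_⟩
  have hcn : ∀ a, AL.cnp p a (.hi k) =
      (((fl a (p.y k)).1 + 1, (fl a (p.y k)).2), fl a (p.y k)) := by
    intro a
    show AL.eHi _ _ = _
    unfold AL.eHi dir
    rw [if_pos hj]
    ext <;> simp
  refine kern_lim hl hp k (Or.inr rfl) hq.slim.B hq hS (fun a => Or.inr ⟨?_, rfl⟩)
    (fun a => rfl) (fun a => ?_) ?_
  · rw [hcn]
  · simp only [AL.wpos, if_pos hj]
  filter_upwards [hl hdia] with a ha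
  rw [Kn_src, hcn]
  unfold jB AL.xB
  have : (((fl a (p.y k)).1 + 1, (fl a (p.y k)).2) : Site) ∈ dia (nn a) := by
    rw [AL.mem_dia]
    push_cast at ha
    have := abs_add_le (fl a (p.y k)).1 1
    simp only
    have h1 : |(1:ℤ)| = 1 := rfl
    lia
  rw [if_pos this]

theorem hi_src1 (hj : p.j k ≠ 0) {S : {i // i ≠ j} → Prop} {S' : Unit → Prop}
    (hS : p.y k ∈ VS S S' (fun i : {i // i ≠ j} => p.x i) fun _ : Unit => p.x j)
    {q0 : ℂ → ℂ} (hq0 : Sol (fun i : {i // i ≠ j} => p.x i) (p.x j) q0) :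
    Tendsto (fun a : ℝ => AL.rho p a (.hi k) * AL.rho p a (.src j) *
      (AL.Kn p a (.hi k) (.src j) : ℂ) / a) (𝓝[>] 0) (𝓝 (Vv p j k S S' q0 phC)) := by
  have hdia : ∀ᶠ a in 𝓝[>] (0:ℝ), |(fl a (p.y k)).1| + |(fl a (p.y k)).2| + (2:ℕ) ≤ nn a :=
    AL.in_ev AL.idt AL.nn_lim (AL.flt _) (hp.2.1 k) 2
  have hinj : Function.Injective (fun i : {i // i ≠ j} => p.x i) := fun i i' h => Subtype.ext (by
      by_contra hc
      exact H170.Good0.ne hp hc h)
  refine lim_of_sol' (κ := {i // i ≠ j}) (ζ := fun i => p.x i) (ω := p.x j)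
      (fun i => hp.1 i) (hp.1 j) hinj (fun i => H170.Good0.ne hp i.2)
      (fun q q' h => sol_phi (j := j) hp k phC (RS S S' (fun i : {i // i ≠ j} => p.x i)
        (fun _ : Unit => p.x j) (p.y k)) (rtu AL.z0) h) ?_ hq0
  intro l hl
  obtain ⟨q, hq⟩ := pkj_exists j hp l hl
  refine ⟨q, hq.sol, ?_⟩
  have hcn : ∀ a, AL.cnp p a (.hi k) =
      (((fl a (p.y k)).1, (fl a (p.y k)).2 + 1), fl a (p.y k)) := by
    intro a
    show AL.eHi _ _ = _
    unfold AL.eHi dir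
    rw [if_neg hj]
    ext <;> simp
  refine kern_lim hl hp k (Or.inl rfl) hq.slim.C hq hS (fun a => Or.inl ⟨?_, rfl⟩)
    (fun a => rfl) (fun a => ?_) ?_
  · rw [hcn]
  · simp only [AL.wpos, if_neg hj]
  filter_upwards [hl hdia] with a ha
  rw [Kn_src, hcn]
  unfold jC AL.xC
  have : (((fl a (p.y k)).1, (fl a (p.y k)).2 + 1) : Site) ∈ dia (nn a) := by
    rw [AL.mem_dia]
    push_cast at ha
    have := abs_add_le (fl a (p.y k)).2 1
    simp only
    have h1 : |(1:ℤ)| = 1 := rfl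
    lia
  rw [if_pos this]

end

open AL in
/-- The relations between the limits of the kernels. -/
theorem kj (p : Pts) (hp : Good0 p) (k : Fin p.m) : KJ p k := by
  have j0 : (upd p k 0).j k = 0 := Function.update_self _ _ _
  have j1 : (upd p k 1).j k ≠ 0 := by
    have : (upd p k 1).j k = 1 := Function.update_self _ _ _
    rw [this]; decide
  refine ⟨fun y hlo hhi hy => ?_, ?_⟩
  · have hen : ∀ l : Fin p.m, l ≠ k → (y = .lo l ∨ y = .hi l) → ∃ cA cB cC : ℂ,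
        cB + cC = (√2 : ℝ) * cA ∧
        Tendsto (fun a : ℝ => rho (upd p k 0) a (.lo k) * rho (upd p k 0) a y *
          (Kn (upd p k 0) a (.lo k) y : ℂ) / a) (𝓝[>] 0) (𝓝 cA) ∧
        Tendsto (fun a : ℝ => rho (upd p k 0) a (.hi k) * rho (upd p k 0) a y *
          (Kn (upd p k 0) a (.hi k) y : ℂ) / a) (𝓝[>] 0) (𝓝 cB) ∧
        Tendsto (fun a : ℝ => rho (upd p k 1) a (.hi k) * rho (upd p k 1) a y *
          (Kn (upd p k 1) a (.hi k) y : ℂ) / a) (𝓝[>] 0) (𝓝 cC) := by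
      intro l hl hyl
      obtain ⟨T, hT, h⟩ := H135.k3J (p := p) (k := k) (l := l) (y := y) hp hl.symm hyl
      refine ⟨T (0, 0), T (1, 0), T (0, 1), hT, ?_, ?_, ?_⟩
      · exact h (Function.update p.j k 0) (upd_j hl 0) (.lo k) (0, 0) _ _
          (H135.ct_lo (p := upd p k 0) k)
      · exact h (Function.update p.j k 0) (upd_j hl 0) (.hi k) (1, 0) _ _
          (H135.ct_hi0 (p := upd p k 0) j0)
      · exact h (Function.update p.j k 1) (upd_j hl 1) (.hi k) (0, 1) _ _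
          (H135.ct_hi1 (p := upd p k 1) j1)
    cases y with
    | tp c => exact absurd trivial hy
    | lo l => exact hen l (fun h => hlo (by rw [h])) (Or.inl rfl)
    | hi l => exact hen l (fun h => hhi (by rw [h])) (Or.inr rfl)
    | src i =>
      obtain ⟨S, S', hS⟩ := exists_pattern (ζ := fun i' : {i' // i' ≠ i} => p.x i')
        (ω := fun _ : Unit => p.x i) (z := p.y k) (fun i' => H170.Good0.ney hp k i')
        (fun _ => H170.Good0.ney hp k i)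
      obtain ⟨q0, hq0⟩ := pkj_exists i hp (Ultrafilter.of (𝓝[>] (0:ℝ))) (Ultrafilter.of_le _)
      exact ⟨Vv p i k S S' q0 phA, Vv p i k S S' q0 phB, Vv p i k S S' q0 phC,
        Vv_sum k S S' q0, lo_src (p := upd p k 0) hp k hS hq0.sol,
        hi_src0 (p := upd p k 0) hp k j0 hS hq0.sol, hi_src1 (p := upd p k 1) hp k j1 hS hq0.sol⟩
  · obtain ⟨T, hT, h⟩ := H135.k4J (p := p) hp k
    have e : T (0, 1) = -T (1, 0) := by linear_combination hT
    refine ⟨T (1, 0), ?_, ?_⟩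
    · exact h (Function.update p.j k 0) (1, 0) _ _ (H135.ct_hi0 (p := upd p k 0) j0)
    · rw [← e]
      exact h (Function.update p.j k 1) (0, 1) _ _ (H135.ct_hi1 (p := upd p k 1) j1)

end Vale.Agent.P144.H436
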