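import Vale.Agent.P144.H436.Norm4

/-!
Ratios of disorder correlations from their logarithmic gradients.
-/

namespace Vale.Agent.P144.H436

open Finset Vale.Agent.P144 Vale.Agent.P144.AL Filter Topology

/-! ### reflection -/

/-- the reflection of sites -/
def rs (x : Site) : Site := (-x.1, x.2)

/-- the reflection of faces and of left ends of horizontal edges -/
def rf (x : Site) : Site := (-x.1 - 1, x.2)

theorem rs_rs (x : Site) : rs (rs x) = x := by simp [rs]

theorem rf_rf (x : Site) : rf (rf x) = x := by simp [rf]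

theorem rs_inj : Function.Injective rs := fun x y h => by rw [← rs_rs x, h, rs_rs]

theorem cut1_rf (r x : Site) : cut1 (rf r) (rf x) = cut1 r x := by
  unfold cut1 rf
  simp only
  split_ifs <;> first | (exfalso; omega) | rfl

theorem cutS_rf (R : Multiset Site) (x : Site) : cutS (R.map rf) (rf x) = cutS R x := by
  unfold cutS
  rw [Multiset.map_map]
  congr 1
  exact Multiset.map_congr rfl fun r _ => cut1_rf r x

theorem mem_dia_rs {N : ℕ} {x : Site} : rs x ∈ dia N ↔ x ∈ dia N := by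
  rw [mem_dia, mem_dia]
  simp [rs]

theorem WW_rs (N : ℕ) (a : Site → ℝ) (s : Site → ℝ) :
    WW (dia N) (fun x => a (rf x)) 1 (fun x => s (rs x)) = WW (dia N) a 1 s := by
  unfold WW
  congr 1
  · refine prod_nbij' rf rf ?_ ?_ ?_ ?_ ?_
    · intro x hx
      rw [mem_hor, mem_dia, mem_dia] at hx ⊢
      simp only [rf] at hx ⊢
      constructor
      · rw [show -x.1 - 1 = -(x.1 + 1) by ring, abs_neg]; exact hx.2
      · rw [show -x.1 - 1 + 1 = -x.1 by ring, abs_neg]; exact hx.1
    · intro x hx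
      rw [mem_hor, mem_dia, mem_dia] at hx ⊢
      simp only [rf] at hx ⊢
      constructor
      · rw [show -x.1 - 1 = -(x.1 + 1) by ring, abs_neg]; exact hx.2
      · rw [show -x.1 - 1 + 1 = -x.1 by ring, abs_neg]; exact hx.1
    · intro x _; exact rf_rf x
    · intro x _; exact rf_rf x
    · intro x _
      have h1 : rs x = ((rf x).1 + 1, (rf x).2) := by simp [rs, rf]
      have h2 : rs (x.1 + 1, x.2) = rf x := by simp [rs, rf]; ring
      simp only [h1, h2]
      ring
  · refine prod_nbij' rs rs ?_ ?_ ?_ ?_ ?_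
    · intro x hx
      rw [mem_ver] at hx ⊢
      exact ⟨mem_dia_rs.2 hx.1, mem_dia_rs.2 hx.2⟩
    · intro x hx
      rw [mem_ver] at hx ⊢
      exact ⟨mem_dia_rs.2 hx.1, mem_dia_rs.2 hx.2⟩
    · intro x _; exact rs_rs x
    · intro x _; exact rs_rs x
    · intro x _
      rfl

/-- The partition functions with disorders are invariant under the reflection. -/
theorem QQ_rf (N : ℕ) (R : Multiset Site) : AL.QQ (dia N) (R.map rf) 0 = AL.QQ (dia N) R 0 := by
  unfold AL.QQ NG
  refine sum_nbij' (fun T => T.image rs) (fun T => T.image rs) ?_ ?_ ?_ ?_ ?_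
  · intro T hT
    rw [mem_powerset] at hT ⊢
    intro x hx
    obtain ⟨y, hy, rfl⟩ := mem_image.1 hx
    exact mem_dia_rs.2 (hT hy)
  · intro T hT
    rw [mem_powerset] at hT ⊢
    intro x hx
    obtain ⟨y, hy, rfl⟩ := mem_image.1 hx
    exact mem_dia_rs.2 (hT hy)
  · intro T _
    rw [image_image, show rs ∘ rs = id from funext rs_rs, image_id]
  · intro T _
    rw [image_image, show rs ∘ rs = id from funext rs_rs, image_id]
  · intro T _
    rw [spn_zero, spn_zero, one_mul, one_mul]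
    have h1 : (tv (T.image rs)) = fun x => tv T (rs x) := by
      funext x
      unfold tv
      have : x ∈ T.image rs ↔ rs x ∈ T := by
        rw [mem_image]
        constructor
        · rintro ⟨y, hy, rfl⟩; rwa [rs_rs]
        · intro h; exact ⟨rs x, h, rs_rs x⟩
      simp only [this]
    rw [h1, ← WW_rs N (cutS R) (fun x => tv T (rs x))]
    have h2 : (fun x => cutS R (rf x)) = cutS (R.map rf) := by
      funext x
      rw [← cutS_rf R (rf x), rf_rf]
    rw [h2]
    congr 1
    funext x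
    rw [rs_rs]

/-! ### families of faces -/

/-- `a f` tends to `z`. -/
def Tc {α : Type} (l : Filter α) (a : α → ℝ) (f : α → Site) (z : ℂ) : Prop :=
  Tendsto (fun x => a x * ((f x).1 : ℝ)) l (𝓝 z.re) ∧
    Tendsto (fun x => a x * ((f x).2 : ℝ)) l (𝓝 z.im)

/-- the faces of a family -/
def fam {n : ℕ} (r : Fin n → Site) : Multiset Site := univ.val.map r

/-- Families of faces with a limit. -/
structure FD {α : Type} (l : Filter α) {n : ℕ} (a : α → ℝ) (N : α → ℕ) (r : α → Fin n → Site)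
    (v : α → Site) (ρ : Fin n → ℂ) (ζ : ℂ) : Prop where
  a0 : Tendsto a l (𝓝[>] 0)
  aN : Tendsto (fun x => a x * (N x + 1)) l (𝓝 1)
  r : ∀ p, Tc l a (fun x => r x p) (ρ p)
  v : Tc l a v ζ

/-- Distinct points of the square. -/
structure Cf {n : ℕ} (ρ : Fin n → ℂ) (ζ : ℂ) : Prop where
  rD : ∀ p, ρ p ∈ Dia
  inj : Function.Injective ρ
  zD : ζ ∈ Dia
  ne : ∀ p, ρ p ≠ ζ

/-- The ratio of disorder correlations. -/
noncomputable def rat {n : ℕ} (N : ℕ) (r : Fin n → Site) (v d : Site) : ℝ :=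
  AL.QQ (dia N) ((v + d) ::ₘ fam r) 0 / AL.QQ (dia N) (v ::ₘ fam r) 0

/-- The logarithmic gradients of the disorder correlations converge. -/
def T5 (n : ℕ) (d : Site) : Prop := ∀ (ρ : Fin n → ℂ) (ζ : ℂ), Cf ρ ζ → ∃ c : ℝ,
  ∀ (α : Type) (U : Ultrafilter α) (a : α → ℝ) (N : α → ℕ) (r : α → Fin n → Site) (v : α → Site),
    FD (U : Filter α) a N r v ρ ζ →
      Tendsto (fun x => (a x)⁻¹ * (rat (N x) (r x) (v x) d - 1)) U (𝓝 c)

/-- The ratios tend to one. -/
def T0 (n : ℕ) (d : Site) : Prop := ∀ (ρ : Fin n → ℂ) (ζ : ℂ), Cf ρ ζ →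
  ∀ (α : Type) (U : Ultrafilter α) (a : α → ℝ) (N : α → ℕ) (r : α → Fin n → Site) (v : α → Site),
    FD (U : Filter α) a N r v ρ ζ → Tendsto (fun x => rat (N x) (r x) (v x) d) U (𝓝 1)

theorem rat_pos {n : ℕ} (N : ℕ) (r : Fin n → Site) (v d : Site) : 0 < rat N r v d :=
  div_pos (QQ_pos _ _) (QQ_pos _ _)

theorem rat_mul {n : ℕ} (N : ℕ) (r : Fin n → Site) (v d d' : Site) :
    rat N r v d * rat N r (v + d) d' = rat N r v (d + d') := by
  unfold rat
  have h1 := (QQ_pos (dia N) ((v + d) ::ₘ fam r)).ne'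
  have h2 := (QQ_pos (dia N) (v ::ₘ fam r)).ne'
  rw [add_assoc]
  field_simp

theorem rat_zero {n : ℕ} (N : ℕ) (r : Fin n → Site) (v : Site) : rat N r v 0 = 1 := by
  unfold rat
  rw [add_zero]
  exact div_self (QQ_pos _ _).ne'

theorem rat_neg {n : ℕ} (N : ℕ) (r : Fin n → Site) (v d : Site) :
    rat N r v (-d) = (rat N r (v + -d) d)⁻¹ := by
  have h := rat_mul N r v (-d) d
  rw [neg_add_cancel, rat_zero] at h
  exact eq_inv_of_mul_eq_one_left h

theorem Tc.shift {α : Type} {l : Filter α} {a : α → ℝ} (ha : Tendsto a l (𝓝[>] 0))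
    {v : α → Site} {ζ : ℂ} (h : Tc l a v ζ) (d : Site) : Tc l a (fun x => v x + d) ζ := by
  have h0 : Tendsto a l (𝓝 0) := ha.mono_right nhdsWithin_le_nhds
  constructor
  · have := h.1.add (h0.mul_const (d.1 : ℝ))
    rw [zero_mul, add_zero] at this
    refine this.congr fun x => ?_
    simp; ring
  · have := h.2.add (h0.mul_const (d.2 : ℝ))
    rw [zero_mul, add_zero] at this
    refine this.congr fun x => ?_
    simp; ring

theorem FD.shift {α : Type} {l : Filter α} {n : ℕ} {a : α → ℝ} {N : α → ℕ}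
    {r : α → Fin n → Site} {v : α → Site} {ρ : Fin n → ℂ} {ζ : ℂ} (h : FD l a N r v ρ ζ)
    (d : Site) : FD l a N r (fun x => v x + d) ρ ζ := ⟨h.a0, h.aN, h.r, h.v.shift h.a0 d⟩

theorem T5.t0 {n : ℕ} {d : Site} (h : T5 n d) : T0 n d := by
  intro ρ ζ hc α U a N r v hf
  obtain ⟨c, hc'⟩ := h ρ ζ hc
  have h1 := hc' α U a N r v hf
  have h0 : Tendsto a U (𝓝 0) := hf.a0.mono_right nhdsWithin_le_nhds
  have hpos : ∀ᶠ x in (U : Filter α), 0 < a x := hf.a0.eventually self_mem_nhdsWithin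
  have h2 := (h0.mul h1).add_const 1
  rw [zero_mul, zero_add] at h2
  refine h2.congr' (hpos.mono fun x hx => ?_)
  rw [← mul_assoc, mul_inv_cancel₀ hx.ne', one_mul, sub_add_cancel]

theorem T0.add {n : ℕ} {d d' : Site} (h : T0 n d) (h' : T0 n d') : T0 n (d + d') := by
  intro ρ ζ hc α U a N r v hf
  have h1 := h ρ ζ hc α U a N r v hf
  have h2 := h' ρ ζ hc α U a N r _ (hf.shift d)
  have := h1.mul h2
  rw [one_mul] at this
  exact this.congr fun x => rat_mul _ _ _ _ _

theorem T0.neg {n : ℕ} {d : Site} (h : T0 n d) : T0 n (-d) := by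
  intro ρ ζ hc α U a N r v hf
  have h2 := h ρ ζ hc α U a N r _ (hf.shift (-d))
  have := h2.inv₀ one_ne_zero
  rw [inv_one] at this
  exact this.congr fun x => (rat_neg _ _ _ _).symm

theorem T0.zero (n : ℕ) : T0 n 0 := by
  intro ρ ζ hc α U a N r v hf
  simp only [rat_zero]
  exact tendsto_const_nhds

theorem T5.neg {n : ℕ} {d : Site} (h : T5 n d) : T5 n (-d) := by
  intro ρ ζ hc
  obtain ⟨c, hc'⟩ := h ρ ζ hc
  refine ⟨-c, fun α U a N r v hf => ?_⟩
  have h1 := hc' α U a N r _ (hf.shift (-d))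
  have h2 := h.t0 ρ ζ hc α U a N r _ (hf.shift (-d))
  have h3 := (h1.mul (h2.inv₀ one_ne_zero)).neg
  rw [inv_one, mul_one] at h3
  refine h3.congr fun x => ?_
  rw [rat_neg]
  have := (rat_pos (N x) (r x) (v x + -d) d).ne'
  field_simp
  ring

/-- the reflection of points -/
def rc (z : ℂ) : ℂ := ⟨-z.re, z.im⟩

theorem rc_rc (z : ℂ) : rc (rc z) = z := by simp [rc]

theorem rc_dia {z : ℂ} (h : z ∈ Dia) : rc z ∈ Dia := by
  change |(rc z).re| + |(rc z).im| < 1
  simp only [rc, abs_neg]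
  exact h

theorem Tc.refl {α : Type} {l : Filter α} {a : α → ℝ} (ha : Tendsto a l (𝓝[>] 0))
    {v : α → Site} {ζ : ℂ} (h : Tc l a v ζ) : Tc l a (fun x => rf (v x)) (rc ζ) := by
  have h0 : Tendsto a l (𝓝 0) := ha.mono_right nhdsWithin_le_nhds
  constructor
  · have := (h.1.add h0).neg
    rw [add_zero] at this
    refine this.congr fun x => ?_
    simp [rf]; ring
  · exact h.2

theorem rat_rf {n : ℕ} (N : ℕ) (r : Fin n → Site) (v d : Site) :
    rat N (fun p => rf (r p)) (rf v) (rs d) = rat N r v d := by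
  unfold rat
  have h1 : fam (fun p => rf (r p)) = (fam r).map rf := by
    unfold fam
    rw [Multiset.map_map]
    rfl
  have h2 : rf v + rs d = rf (v + d) := by
    unfold rf rs
    refine Prod.ext ?_ ?_
    · simp; ring
    · simp
  rw [h1, h2, ← Multiset.map_cons, ← Multiset.map_cons, QQ_rf, QQ_rf]

theorem T5.refl {n : ℕ} {d : Site} (h : T5 n d) : T5 n (rs d) := by
  intro ρ ζ hc
  have hc2 : Cf (fun p => rc (ρ p)) (rc ζ) := ⟨fun p => rc_dia (hc.rD p), fun p q h => hc.inj (by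
    rw [← rc_rc (ρ p), h, rc_rc]), rc_dia hc.zD, fun p h => hc.ne p (by
    rw [← rc_rc (ρ p), h, rc_rc])⟩
  obtain ⟨c, hc'⟩ := h _ _ hc2
  refine ⟨c, fun α U a N r v hf => ?_⟩
  have h1 := hc' α U a N (fun x p => rf (r x p)) (fun x => rf (v x))
    ⟨hf.a0, hf.aN, fun p => (hf.r p).refl hf.a0, hf.v.refl hf.a0⟩
  refine h1.congr fun x => ?_
  have := rat_rf (N x) (r x) (v x) (rs d)
  rw [rs_rs] at this
  rw [this]

/-- All finite displacements. -/
theorem T0_all {n : ℕ} (h5 : T5 n (-1, -1)) (h0 : T0 n (1, 0)) (d : Site) : T0 n d := by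
  have h1 : T0 n (1, 1) := by
    have := h5.t0.neg
    simpa using this
  have h2 : T0 n (0, 1) := by
    have := h1.add h0.neg
    simpa using this
  have hn : ∀ (e : Site), T0 n e → ∀ k : ℕ, T0 n (k • e) := by
    intro e he k
    induction k with
    | zero => rw [zero_smul]; exact T0.zero n
    | succ k ih => rw [succ_nsmul]; exact ih.add he
  have hz : ∀ (e : Site), T0 n e → ∀ k : ℤ, T0 n (k • e) := by
    intro e he k
    obtain ⟨m, rfl | rfl⟩ := k.eq_nat_or_neg
    · rw [natCast_zsmul]; exact hn e he m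
    · rw [neg_smul, natCast_zsmul]; exact (hn e he m).neg
  have := (hz _ h0 d.1).add (hz _ h2 d.2)
  have e : d.1 • ((1, 0) : Site) + d.2 • ((0, 1) : Site) = d := by
    refine Prod.ext ?_ ?_ <;> simp
  rwa [e] at this

end Vale.Agent.P144.H436
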