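import Vale.Agent.P144.H436.Path
import Vale.Agent.P144.H436.Corn
import Mathlib.MeasureTheory.Integral.DominatedConvergence
import Mathlib.MeasureTheory.Function.Floor

/-!
Moving one disorder along a diagonal segment.
-/

namespace Vale.Agent.P144.H436

open Finset Vale.Agent.P144 Vale.Agent.P144.AL Filter Topology MeasureTheory

theorem log_lim {α : Type} {l : Filter α} {a r : α → ℝ} {c : ℝ} (ha : ∀ᶠ x in l, 0 < a x)
    (hr : ∀ x, 0 < r x) (h1 : Tendsto (fun x => (a x)⁻¹ * (r x - 1)) l (𝓝 c))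
    (h2 : Tendsto r l (𝓝 1)) : Tendsto (fun x => (a x)⁻¹ * Real.log (r x)) l (𝓝 c) := by
  have h3 := h1.mul (h2.inv₀ one_ne_zero)
  rw [inv_one, mul_one] at h3
  refine tendsto_of_tendsto_of_tendsto_of_le_of_le' h3 h1 ?_ ?_
  · filter_upwards [ha] with x hx
    rw [mul_assoc]
    refine mul_le_mul_of_nonneg_left ?_ (inv_nonneg.2 hx.le)
    have := Real.one_sub_inv_le_log_of_pos (hr x)
    calc (r x - 1) * (r x)⁻¹ = 1 - (r x)⁻¹ := by
          rw [sub_mul, mul_inv_cancel₀ (hr x).ne', one_mul]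
      _ ≤ _ := this
  · filter_upwards [ha] with x hx
    exact mul_le_mul_of_nonneg_left (Real.log_le_sub_one_of_pos (hr x)) (inv_nonneg.2 hx.le)

/-- Limits of rescaled integers close to a rescaled convergent family. -/
theorem near_lim {α : Type} {l : Filter α} {a y k : α → ℝ} {y₀ B : ℝ} (ha : Tendsto a l (𝓝[>] 0))
    (hy : Tendsto y l (𝓝 y₀)) (hk : ∀ᶠ x in l, |k x - y x / a x| ≤ B) :
    Tendsto (fun x => a x * k x) l (𝓝 y₀) := by
  have h0 : Tendsto a l (𝓝 0) := ha.mono_right nhdsWithin_le_nhds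
  have hpos : ∀ᶠ x in l, 0 < a x := ha.eventually self_mem_nhdsWithin
  have h1 : Tendsto (fun x => a x * k x - y x) l (𝓝 0) := by
    have h2 := h0.mul_const B
    rw [zero_mul] at h2
    refine squeeze_zero_norm' ?_ h2
    filter_upwards [hpos, hk] with x hx hkx
    have : a x * k x - y x = a x * (k x - y x / a x) := by
      rw [mul_sub, mul_div_cancel₀ _ hx.ne']
    rw [this, Real.norm_eq_abs, abs_mul, abs_of_pos hx]
    exact mul_le_mul_of_nonneg_left hkx hx.le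
  have := h1.add hy
  rw [zero_add] at this
  exact this.congr fun x => by ring

theorem floor_near (x : ℝ) : |(⌊x⌋ : ℝ) - x| ≤ 1 := by
  have h1 := Int.floor_le x
  have h2 := Int.lt_floor_add_one x
  rw [abs_le]; constructor <;> linarith

theorem Tc_fl {α : Type} {l : Filter α} {a : α → ℝ} (ha : Tendsto a l (𝓝[>] 0)) (z : ℂ) :
    Tc l a (fun x => fl (a x) z) z :=
  ⟨near_lim (B := 1) ha tendsto_const_nhds (Eventually.of_forall fun _ => floor_near _),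
    near_lim (B := 1) ha tendsto_const_nhds (Eventually.of_forall fun _ => floor_near _)⟩

theorem nn_lim {α : Type} {l : Filter α} {a : α → ℝ} (ha : Tendsto a l (𝓝[>] 0)) :
    Tendsto (fun x => a x * ((nn (a x) : ℝ) + 1)) l (𝓝 1) := by
  refine near_lim (B := 1) ha (tendsto_const_nhds (x := (1:ℝ))) ?_
  have hpos : ∀ᶠ x in l, 0 < a x := ha.eventually self_mem_nhdsWithin
  filter_upwards [hpos] with x hx
  have h1 : 0 < 1 / a x := by positivity
  have h2 : 1 ≤ ⌈1 / a x⌉₊ := Nat.one_le_ceil_iff.2 h1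
  have h3 : (nn (a x) : ℝ) + 1 = (⌈1 / a x⌉₊ : ℝ) := by
    unfold nn
    have : ((⌈1 / a x⌉₊ - 1 : ℕ) : ℝ) = (⌈1 / a x⌉₊ : ℝ) - 1 := by
      rw [Nat.cast_sub h2, Nat.cast_one]
    rw [this]; ring
  rw [h3]
  have h4 := Nat.le_ceil (1 / a x)
  have h5 := Nat.ceil_lt_add_one h1.le
  rw [abs_le]; constructor <;> linarith

/-- the number of steps -/
noncomputable def stp (a τ : ℝ) : ℕ := ⌈τ / a⌉₊ - 1

theorem stp_near {a τ : ℝ} (ha : 0 < a) (hτ : 0 ≤ τ) : |((stp a τ : ℕ) : ℝ) - τ / a| ≤ 1 := by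
  have h0 : 0 ≤ τ / a := by positivity
  have h4 := Nat.le_ceil (τ / a)
  have h5 := Nat.ceil_lt_add_one h0
  unfold stp
  rcases Nat.eq_zero_or_pos ⌈τ / a⌉₊ with h | h
  · rw [h] at h4 ⊢
    have h6 : τ / a = 0 := le_antisymm (by exact_mod_cast h4) h0
    rw [h6]; norm_num
  · rw [Nat.cast_sub h, Nat.cast_one]
    rw [abs_le]; constructor <;> linarith

/-- a lattice vector as a complex number -/
noncomputable def cx (d : Site) : ℂ := ⟨d.1, d.2⟩

section seg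

variable {n : ℕ} (ρ : Fin n → ℂ) (z : ℂ) (d : Site)

/-- the logarithmic ratio of one step -/
noncomputable def lr (a τ : ℝ) : ℝ :=
  a⁻¹ * Real.log (rat (nn a) (fun p => fl a (ρ p)) (fl a z + (stp a τ) • d) d)

theorem Tc_stp {α : Type} {l : Filter α} {a : α → ℝ} (ha : Tendsto a l (𝓝[>] 0)) (τ : α → ℝ)
    (τ₀ : ℝ) (h0 : ∀ᶠ x in l, 0 ≤ τ x) (hτ : Tendsto τ l (𝓝 τ₀)) :
    Tc l a (fun x => fl (a x) z + (stp (a x) (τ x)) • d) (z + τ₀ * cx d) := by
  have hpos : ∀ᶠ x in l, 0 < a x := ha.eventually self_mem_nhdsWithin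
  have hs : Tendsto (fun x => a x * ((stp (a x) (τ x) : ℕ) : ℝ)) l (𝓝 τ₀) := by
    refine near_lim (B := 1) ha hτ ?_
    filter_upwards [hpos, h0] with x hx hx0
    exact stp_near hx hx0
  have hz := Tc_fl (l := l) ha z
  constructor
  · have := hz.1.add (hs.mul_const (d.1 : ℝ))
    have e : (z + (τ₀ : ℂ) * cx d).re = z.re + τ₀ * (d.1 : ℝ) := by simp [cx]
    rw [e]
    refine this.congr fun x => ?_
    simp; ring
  · have := hz.2.add (hs.mul_const (d.2 : ℝ))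
    have e : (z + (τ₀ : ℂ) * cx d).im = z.im + τ₀ * (d.2 : ℝ) := by simp [cx]
    rw [e]
    refine this.congr fun x => ?_
    simp; ring

variable {ρ z d}

theorem lr_lim (h5 : T5 n d) {τ₀ : ℝ} (hc : Cf ρ (z + τ₀ * cx d)) : ∃ c : ℝ,
    ∀ (α : Type) (U : Ultrafilter α) (a τ : α → ℝ), Tendsto a U (𝓝[>] 0) →
      (∀ᶠ x in (U : Filter α), 0 ≤ τ x) → Tendsto τ U (𝓝 τ₀) →
      Tendsto (fun x => lr ρ z d (a x) (τ x)) U (𝓝 c) := by
  obtain ⟨c, hc'⟩ := h5 _ _ hc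
  refine ⟨c, fun α U a τ ha h0 hτ => ?_⟩
  have hf : FD (U : Filter α) a (fun x => nn (a x)) (fun x p => fl (a x) (ρ p))
      (fun x => fl (a x) z + (stp (a x) (τ x)) • d) ρ (z + τ₀ * cx d) :=
    ⟨ha, nn_lim ha, fun p => Tc_fl ha _, Tc_stp z d ha τ τ₀ h0 hτ⟩
  exact log_lim (ha.eventually self_mem_nhdsWithin) (fun x => rat_pos _ _ _ _)
    (hc' α U a _ _ _ hf) (h5.t0 _ _ hc α U a _ _ _ hf)

/-- The logarithmic ratios are bounded along a segment. -/
theorem lr_bdd (h5 : T5 n d) {s : ℝ} (hs : ∀ τ ∈ Set.Icc 0 s, Cf ρ (z + τ * cx d)) :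
    ∃ B : ℝ, ∀ᶠ a in 𝓝[>] (0:ℝ), ∀ τ ∈ Set.Icc 0 s, |lr ρ z d a τ| ≤ B := by
  by_contra hcon
  push Not at hcon
  have key : ∀ k : ℕ, ∃ a τ : ℝ, 0 < a ∧ a < 1 / ((k : ℝ) + 1) ∧ τ ∈ Set.Icc 0 s ∧
      (k : ℝ) < |lr ρ z d a τ| := by
    intro k
    have hk : (0:ℝ) < 1 / ((k : ℝ) + 1) := by positivity
    have h1 : ∀ᶠ a in 𝓝[>] (0:ℝ), a ∈ Set.Ioo (0:ℝ) (1 / ((k : ℝ) + 1)) := Ioo_mem_nhdsGT hk
    obtain ⟨a, ⟨τ, hτ, hB⟩, ha⟩ := ((hcon k).and_eventually h1).exists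
    exact ⟨a, τ, ha.1, ha.2, hτ, hB⟩
  choose a τ ha0 ha1 hτ hB using key
  let U : Ultrafilter ℕ := hyperfilter ℕ
  have hU : (U : Filter ℕ) ≤ atTop := Nat.hyperfilter_le_atTop
  have hat : Tendsto a atTop (𝓝[>] 0) := by
    rw [tendsto_nhdsWithin_iff]
    exact ⟨squeeze_zero (fun k => (ha0 k).le) (fun k => (ha1 k).le)
      tendsto_one_div_add_atTop_nhds_zero_nat, Eventually.of_forall fun k => ha0 k⟩
  obtain ⟨τ₀, hτ₀, hlim⟩ := isCompact_Icc.ultrafilter_le_nhds (U.map τ) (by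
    rw [Filter.le_principal_iff]
    exact Filter.Eventually.of_forall (f := (U : Filter ℕ)) fun k => hτ k)
  have hτt : Tendsto τ U (𝓝 τ₀) := hlim
  obtain ⟨c, hc⟩ := lr_lim h5 (hs τ₀ hτ₀)
  have h1 := hc ℕ U a τ (hat.mono_left hU) (Eventually.of_forall fun k => (hτ k).1) hτt
  have h2 : ∀ᶠ k in (U : Filter ℕ), |lr ρ z d (a k) (τ k)| < |c| + 1 :=
    (h1.abs).eventually_lt_const (lt_add_one _)
  have h3 : ∀ᶠ k : ℕ in (U : Filter ℕ), |c| + 1 < (k : ℝ) :=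
    hU (tendsto_natCast_atTop_atTop.eventually_gt_atTop (|c| + 1))
  obtain ⟨k, h4, h5⟩ := (h2.and h3).exists
  have := hB k
  linarith

theorem stp_Ioc {a : ℝ} (ha : 0 < a) {t : ℕ} {τ : ℝ} (h : τ ∈ Set.Ioc ((t : ℝ) * a) ((t + 1 : ℕ) * a)) :
    stp a τ = t := by
  unfold stp
  have : ⌈τ / a⌉₊ = t + 1 := by
    rw [Nat.ceil_eq_iff (by omega)]
    constructor
    · rw [lt_div_iff₀ ha]
      simpa using h.1
    · rw [div_le_iff₀ ha]; exact h.2
  rw [this]; rfl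

theorem lr_int {a : ℝ} (ha : 0 < a) (m : ℕ) :
    Real.log (AL.QQ (dia (nn a)) ((fl a z + m • d) ::ₘ fam fun p => fl a (ρ p)) 0 /
      AL.QQ (dia (nn a)) (fl a z ::ₘ fam fun p => fl a (ρ p)) 0) =
    ∫ τ in (0:ℝ)..(m * a), lr ρ z d a τ := by
  have hle : ∀ t : ℕ, (t : ℝ) * a ≤ ((t + 1 : ℕ) : ℝ) * a := fun t =>
    mul_le_mul_of_nonneg_right (by exact_mod_cast Nat.le_succ t) ha.le
  have heq : ∀ t : ℕ, Set.EqOn (fun _ => a⁻¹ * Real.log (rat (nn a) (fun p => fl a (ρ p))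
      (fl a z + t • d) d)) (lr ρ z d a) (Set.uIoc ((t : ℝ) * a) ((t + 1 : ℕ) * a)) := by
    intro t τ hτ
    rw [Set.uIoc_of_le (hle t)] at hτ
    simp only [lr, stp_Ioc ha hτ]
  have hint : ∀ t < m, IntervalIntegrable (lr ρ z d a) volume ((fun k : ℕ => (k : ℝ) * a) t)
      ((fun k : ℕ => (k : ℝ) * a) (t + 1)) := fun t _ =>
    IntervalIntegrable.congr (heq t) intervalIntegrable_const
  have h1 := intervalIntegral.sum_integral_adjacent_intervals hint
  simp only [Nat.cast_zero, zero_mul] at h1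
  rw [← h1]
  have h2 : ∀ t : ℕ, ∫ τ in ((t : ℝ) * a)..(((t + 1 : ℕ) : ℝ) * a), lr ρ z d a τ =
      Real.log (rat (nn a) (fun p => fl a (ρ p)) (fl a z + t • d) d) := by
    intro t
    rw [← intervalIntegral.integral_congr_ae (Eventually.of_forall fun x hx => heq t hx),
      intervalIntegral.integral_const]
    push_cast
    rw [smul_eq_mul, show ((t : ℝ) + 1) * a - t * a = a by ring, ← mul_assoc,
      mul_inv_cancel₀ ha.ne', one_mul]
  rw [sum_congr rfl fun t _ => h2 t]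
  clear h1 h2 hint heq hle
  induction m with
  | zero =>
    rw [zero_smul, add_zero, div_self (QQ_pos _ _).ne', Real.log_one]
    simp
  | succ m ih =>
    rw [sum_range_succ, ← ih, ← Real.log_mul]
    · congr 1
      unfold rat
      have h1 := (QQ_pos (dia (nn a)) ((fl a z + m • d) ::ₘ fam fun p => fl a (ρ p))).ne'
      have h2 := (QQ_pos (dia (nn a)) (fl a z ::ₘ fam fun p => fl a (ρ p))).ne'
      rw [succ_nsmul, ← add_assoc]
      field_simp
    · exact (div_pos (QQ_pos _ _) (QQ_pos _ _)).ne'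
    · exact (rat_pos _ _ _ _).ne'

theorem lr_meas (a : ℝ) : Measurable (lr ρ z d a) := by
  unfold lr stp
  refine Measurable.const_mul ?_ _
  have h1 : Measurable fun k : ℕ => Real.log (rat (nn a) (fun p => fl a (ρ p))
    (fl a z + (k - 1) • d) d) := measurable_from_nat
  exact h1.comp (Nat.measurable_ceil.comp (measurable_id.div_const a))

/-- Moving along a segment. -/
theorem seg_lim (h5 : T5 n d) {s : ℝ} (hs0 : 0 ≤ s)
    (hs : ∀ τ ∈ Set.Icc 0 s, Cf ρ (z + τ * cx d)) :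
    ∃ L : ℝ, Tendsto (fun a : ℝ =>
      AL.QQ (dia (nn a)) ((fl a z + ⌊s / a⌋₊ • d) ::ₘ fam fun p => fl a (ρ p)) 0 /
      AL.QQ (dia (nn a)) (fl a z ::ₘ fam fun p => fl a (ρ p)) 0) (𝓝[>] 0) (𝓝 (Real.exp L)) := by
  obtain ⟨B, hB⟩ := lr_bdd h5 hs
  have hex : ∀ τ : ℝ, ∃ c : ℝ, τ ∈ Set.Icc 0 s →
      ∀ (α : Type) (U : Ultrafilter α) (a τ' : α → ℝ), Tendsto a U (𝓝[>] 0) →
      (∀ᶠ x in (U : Filter α), 0 ≤ τ' x) → Tendsto τ' U (𝓝 τ) →
      Tendsto (fun x => lr ρ z d (a x) (τ' x)) U (𝓝 c) := by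
    intro τ
    by_cases h : τ ∈ Set.Icc 0 s
    · obtain ⟨c, hc⟩ := lr_lim h5 (hs τ h)
      exact ⟨c, fun _ => hc⟩
    · exact ⟨0, fun h' => absurd h' h⟩
  choose c hc using hex
  have hpt : ∀ τ ∈ Set.Icc 0 s, Tendsto (fun a => lr ρ z d a τ) (𝓝[>] 0) (𝓝 (c τ)) := by
    intro τ hτ
    rw [tendsto_iff_ultrafilter]
    intro U hU
    exact hc τ hτ ℝ U id (fun _ => τ) hU (Eventually.of_forall fun _ => hτ.1) tendsto_const_nhds
  have h1 : Tendsto (fun a => ∫ τ in (0:ℝ)..s, lr ρ z d a τ) (𝓝[>] 0)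
      (𝓝 (∫ τ in (0:ℝ)..s, c τ)) := by
    refine intervalIntegral.tendsto_integral_filter_of_dominated_convergence (fun _ => B) ?_ ?_ ?_ ?_
    · exact Eventually.of_forall fun a => (lr_meas a).aestronglyMeasurable
    · filter_upwards [hB] with a ha
      refine Eventually.of_forall fun τ hτ => ?_
      rw [Set.uIoc_of_le hs0] at hτ
      exact ha τ ⟨hτ.1.le, hτ.2⟩
    · exact intervalIntegrable_const
    · refine Eventually.of_forall fun τ hτ => ?_
      rw [Set.uIoc_of_le hs0] at hτ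
      exact hpt τ ⟨hτ.1.le, hτ.2⟩
  have hpos : ∀ᶠ a in 𝓝[>] (0:ℝ), 0 < a := self_mem_nhdsWithin
  have h2 : Tendsto (fun a => (∫ τ in (0:ℝ)..s, lr ρ z d a τ) -
      ∫ τ in (0:ℝ)..(⌊s / a⌋₊ * a), lr ρ z d a τ) (𝓝[>] 0) (𝓝 0) := by
    have h3 : Tendsto (fun a : ℝ => |B| * a) (𝓝[>] 0) (𝓝 0) := by
      have : Tendsto (fun a : ℝ => |B| * a) (𝓝 0) (𝓝 (|B| * 0)) := tendsto_id.const_mul _
      rw [mul_zero] at this
      exact this.mono_left nhdsWithin_le_nhds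
    refine squeeze_zero_norm' ?_ h3
    filter_upwards [hpos, hB] with a ha hBa
    have e1 : (⌊s / a⌋₊ : ℝ) * a ≤ s := by
      have := Nat.floor_le (div_nonneg hs0 ha.le)
      rwa [le_div_iff₀ ha] at this
    have e2 : s ≤ (⌊s / a⌋₊ : ℝ) * a + a := by
      have := (Nat.lt_floor_add_one (s / a)).le
      rw [div_le_iff₀ ha] at this
      linarith
    have e3 : 0 ≤ (⌊s / a⌋₊ : ℝ) * a := by positivity
    have hii : ∀ x y : ℝ, x ∈ Set.Icc 0 s → y ∈ Set.Icc 0 s →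
        IntervalIntegrable (lr ρ z d a) volume x y := by
      intro x y hx hy
      refine (intervalIntegrable_const (c := B)).mono_fun (lr_meas a).aestronglyMeasurable ?_
      rw [Filter.EventuallyLE, ae_restrict_iff' measurableSet_uIoc]
      refine Eventually.of_forall fun τ hτ => ?_
      have hτ' : τ ∈ Set.Icc 0 s := by
        rcases le_total x y with h | h
        · rw [Set.uIoc_of_le h] at hτ
          exact ⟨hx.1.trans hτ.1.le, hτ.2.trans hy.2⟩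
        · rw [Set.uIoc_of_ge h] at hτ
          exact ⟨hy.1.trans hτ.1.le, hτ.2.trans hx.2⟩
      rw [Real.norm_eq_abs, Real.norm_eq_abs]
      exact (hBa τ hτ').trans (le_abs_self B)
    have m0 : (0:ℝ) ∈ Set.Icc 0 s := ⟨le_rfl, hs0⟩
    have m1 : (⌊s / a⌋₊ : ℝ) * a ∈ Set.Icc 0 s := ⟨e3, e1⟩
    have m2 : s ∈ Set.Icc 0 s := ⟨hs0, le_rfl⟩
    rw [intervalIntegral.integral_interval_sub_left (hii 0 s m0 m2) (hii 0 _ m0 m1)]
    refine (intervalIntegral.norm_integral_le_of_norm_le_const (C := |B|) fun τ hτ => ?_).trans ?_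
    · rw [Set.uIoc_of_le e1] at hτ
      exact (hBa τ ⟨e3.trans hτ.1.le, hτ.2⟩).trans (le_abs_self B)
    · refine mul_le_mul_of_nonneg_left ?_ (abs_nonneg B)
      rw [abs_of_nonneg (by linarith)]
      linarith
  have h3 := h1.sub h2
  rw [sub_zero] at h3
  refine ⟨_, ((Real.continuous_exp.tendsto _).comp h3).congr' ?_⟩
  filter_upwards [hpos] with a ha
  simp only [Function.comp]
  rw [sub_sub_cancel, ← lr_int ha, Real.exp_log (div_pos (QQ_pos _ _) (QQ_pos _ _))]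

end seg

end Vale.Agent.P144.H436
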