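import Vale.Agent.P144.H436.Corn

/-!
Centred correlations under a Wick rule: expansions and limits.
-/

namespace Vale.Agent.P144.H436

open Finset Filter Topology

/-- A Wick rule for functions of lists of labels. -/
structure IsW {ι : Type*} (W : List ι → ℝ) (K : ι → ι → ℝ) : Prop where
  nil : W [] = 1
  wick : ∀ c l, (c :: l).Nodup → W (c :: l) =
    ∑ j : Fin l.length, (-1) ^ (j : ℕ) * K c l[j] * W (l.eraseIdx j)
  swap2 : ∀ l₁ g g' c m, (l₁ ++ g :: g' :: c :: m).Nodup →
    W (l₁ ++ g :: g' :: c :: m) = W (l₁ ++ c :: g :: g' :: m)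

section cen

variable {ι κ : Type*}

/-- Correlations in which the pairs of the second list are centred. -/
def cen (W : List ι → ℝ) (q : κ → ℝ) (e e' : κ → ι) : List ι → List κ → ℝ
  | m, [] => W m
  | m, g :: P => cen W q e e' (e g :: e' g :: m) P - q g * cen W q e e' m P

/-- The labels in use are different. -/
structure Ok (e e' : κ → ι) (m : List ι) (P : List κ) : Prop where
  ndm : m.Nodup
  ndP : P.Nodup
  dis : ∀ g ∈ P, e g ∉ m ∧ e' g ∉ m

variable {W : List ι → ℝ} {K : ι → ι → ℝ} {q : κ → ℝ} {e e' : κ → ι}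

/-- The two labels of the pairs are different from each other. -/
structure Prs (e e' : κ → ι) : Prop where
  inj : Function.Injective e
  inj' : Function.Injective e'
  ne : ∀ g h, e g ≠ e' h

theorem Ok.perm {m m' : List ι} {P : List κ} (h : Ok e e' m P) (hp : m.Perm m') : Ok e e' m' P where
  ndm := hp.nodup_iff.1 h.ndm
  ndP := h.ndP
  dis := fun g hg => ⟨fun hc => (h.dis g hg).1 (hp.mem_iff.2 hc),
    fun hc => (h.dis g hg).2 (hp.mem_iff.2 hc)⟩

theorem Ok.tail {m : List ι} {g : κ} {P : List κ} (h : Ok e e' m (g :: P)) : Ok e e' m P where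
  ndm := h.ndm
  ndP := (List.nodup_cons.1 h.ndP).2
  dis := fun k hk => h.dis k (List.mem_cons_of_mem _ hk)

theorem Ok.pair (hp : Prs e e') {m : List ι} {g : κ} {P : List κ} (h : Ok e e' m (g :: P)) :
    Ok e e' (e g :: e' g :: m) P where
  ndm := by
    have h1 := h.dis g (List.mem_cons_self ..)
    rw [List.nodup_cons, List.nodup_cons, List.mem_cons]
    exact ⟨fun hc => hc.elim (hp.ne g g) h1.1, h1.2, h.ndm⟩
  ndP := (List.nodup_cons.1 h.ndP).2
  dis := by
    intro k hk
    have h1 := h.dis k (List.mem_cons_of_mem _ hk)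
    have h2 : k ≠ g := fun hc => (List.nodup_cons.1 h.ndP).1 (hc ▸ hk)
    simp only [List.mem_cons, not_or]
    exact ⟨⟨fun hc => h2 (hp.inj hc), hp.ne k g, h1.1⟩,
      ⟨fun hc => hp.ne g k hc.symm, fun hc => h2 (hp.inj' hc), h1.2⟩⟩

theorem Ok.tailm {c : ι} {m : List ι} {P : List κ} (h : Ok e e' (c :: m) P) : Ok e e' m P where
  ndm := (List.nodup_cons.1 h.ndm).2
  ndP := h.ndP
  dis := fun k hk => ⟨fun hc => (h.dis k hk).1 (List.mem_cons_of_mem _ hc),
    fun hc => (h.dis k hk).2 (List.mem_cons_of_mem _ hc)⟩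

theorem cen_swap (hW : IsW W K) (hp : Prs e e') (P : List κ) :
    ∀ (l₁ : List ι) (g g' c : ι) (m : List ι), Ok e e' (l₁ ++ g :: g' :: c :: m) P →
      cen W q e e' (l₁ ++ g :: g' :: c :: m) P = cen W q e e' (l₁ ++ c :: g :: g' :: m) P := by
  induction P with
  | nil => intro l₁ g g' c m h; exact hW.swap2 _ _ _ _ _ h.ndm
  | cons k P ih =>
    intro l₁ g g' c m h
    simp only [cen]
    have h1 := ih (e k :: e' k :: l₁) g g' c m (by
      have := h.pair hp
      simpa using this)
    simp only [List.cons_append] at h1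
    rw [h1, ih l₁ g g' c m h.tail]

theorem perm3 (l₁ : List ι) (g g' c : ι) (m : List ι) :
    (l₁ ++ g :: g' :: c :: m).Perm (l₁ ++ c :: g :: g' :: m) := by
  refine List.Perm.append_left l₁ ?_
  exact ((List.Perm.swap c g' m).cons g).trans (List.Perm.swap c g (g' :: m))

/-- Expansion along a label that is not centred. -/
theorem cen_row (hW : IsW W K) (hp : Prs e e') (P : List κ) :
    ∀ (c : ι) (m : List ι), Ok e e' (c :: m) P →
      cen W q e e' (c :: m) P =
        (∑ j : Fin m.length, (-1) ^ (j : ℕ) * K c m[j] * cen W q e e' (m.eraseIdx j) P) +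
        ∑ i : Fin P.length, (K c (e P[i]) * cen W q e e' (e' P[i] :: m) (P.eraseIdx i) -
          K c (e' P[i]) * cen W q e e' (e P[i] :: m) (P.eraseIdx i)) := by
  induction P with
  | nil =>
    intro c m h
    simp only [cen]
    rw [hW.wick c m h.ndm]
    simp
  | cons g P ih =>
    intro c m h
    have h1 : Ok e e' (e g :: e' g :: c :: m) P := h.pair hp
    have h2 : Ok e e' (c :: e g :: e' g :: m) P := h1.perm (perm3 [] (e g) (e' g) c m)
    have e1 : cen W q e e' (e g :: e' g :: c :: m) P = cen W q e e' (c :: e g :: e' g :: m) P :=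
      cen_swap hW hp P [] (e g) (e' g) c m h1
    have e2 := ih c (e g :: e' g :: m) h2
    have e3 := ih c m h.tail
    rw [cen, e1, e2, e3]
    simp only [List.length_cons, Fin.sum_univ_succ]
    simp only [Fin.getElem_fin, Fin.val_zero, Fin.val_succ, List.getElem_cons_zero,
      List.getElem_cons_succ, List.eraseIdx_cons_zero, List.eraseIdx_cons_succ, zero_add, pow_zero,
      pow_one, cen]
    have e4 : ∀ j : Fin m.length, (-1 : ℝ) ^ ((j : ℕ) + 1 + 1) = (-1) ^ (j : ℕ) := by
      intro j; rw [pow_add, pow_add]; ring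
    simp only [e4]
    have e5 : ∀ i : Fin P.length,
        cen W q e e' (e' P[(i : ℕ)] :: e g :: e' g :: m) (P.eraseIdx i) =
        cen W q e e' (e g :: e' g :: e' P[(i : ℕ)] :: m) (P.eraseIdx i) ∧
        cen W q e e' (e P[(i : ℕ)] :: e g :: e' g :: m) (P.eraseIdx i) =
        cen W q e e' (e g :: e' g :: e P[(i : ℕ)] :: m) (P.eraseIdx i) := by
      intro i
      have hm : P[(i : ℕ)] ∈ P := List.getElem_mem _
      have hsub : ∀ k ∈ P.eraseIdx i, k ∈ P ∧ k ≠ P[(i : ℕ)] := by
        intro k hk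
        refine ⟨(List.eraseIdx_sublist P i).subset hk, ?_⟩
        rintro rfl
        have h5 := h.tail.ndP
        rw [List.mem_eraseIdx_iff_getElem] at hk
        obtain ⟨j, hj, hji, he⟩ := hk
        exact hji ((List.Nodup.getElem_inj_iff h5).1 he)
      have hP' : (P.eraseIdx i).Nodup := h.tail.ndP.sublist (List.eraseIdx_sublist P i)
      have hgm := h.tail.tailm.dis _ hm
      have hgP : g ∉ P := (List.nodup_cons.1 h.ndP).1
      have hne : P[(i : ℕ)] ≠ g := fun hc => hgP (hc ▸ hm)
      have h0 := h.tailm.pair hp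
      constructor
      · have ok : Ok e e' (e g :: e' g :: e' P[(i : ℕ)] :: m) (P.eraseIdx i) := by
          refine ⟨?_, hP', ?_⟩
          · have := h0.ndm
            simp only [List.nodup_cons, List.mem_cons, not_or] at this ⊢
            exact ⟨⟨this.1.1, hp.ne _ _, this.1.2⟩, ⟨fun hc => hne (hp.inj' hc).symm, this.2.1⟩,
              hgm.2, this.2.2⟩
          · intro k hk
            obtain ⟨k1, k2⟩ := hsub k hk
            have := h0.dis k k1
            simp only [List.mem_cons, not_or] at this ⊢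
            exact ⟨⟨this.1.1, this.1.2.1, hp.ne _ _, this.1.2.2⟩,
              ⟨this.2.1, this.2.2.1, fun hc => k2 (hp.inj' hc), this.2.2.2⟩⟩
        exact (cen_swap hW hp _ [] (e g) (e' g) _ m ok).symm
      · have ok : Ok e e' (e g :: e' g :: e P[(i : ℕ)] :: m) (P.eraseIdx i) := by
          refine ⟨?_, hP', ?_⟩
          · have := h0.ndm
            simp only [List.nodup_cons, List.mem_cons, not_or] at this ⊢
            exact ⟨⟨this.1.1, fun hc => hne (hp.inj hc).symm, this.1.2⟩,
              ⟨fun hc => hp.ne _ _ hc.symm, this.2.1⟩, hgm.1, this.2.2⟩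
          · intro k hk
            obtain ⟨k1, k2⟩ := hsub k hk
            have := h0.dis k k1
            simp only [List.mem_cons, not_or] at this ⊢
            exact ⟨⟨this.1.1, this.1.2.1, fun hc => k2 (hp.inj hc), this.1.2.2⟩,
              ⟨this.2.1, this.2.2.1, fun hc => hp.ne _ _ hc.symm, this.2.2.2⟩⟩
        exact (cen_swap hW hp _ [] (e g) (e' g) _ m ok).symm
    have e6 : ∑ i : Fin P.length,
        (K c (e P[(i : ℕ)]) * cen W q e e' (e' P[(i : ℕ)] :: e g :: e' g :: m) (P.eraseIdx i) -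
          K c (e' P[(i : ℕ)]) * cen W q e e' (e P[(i : ℕ)] :: e g :: e' g :: m) (P.eraseIdx i)) =
        ∑ i : Fin P.length,
        (K c (e P[(i : ℕ)]) * cen W q e e' (e g :: e' g :: e' P[(i : ℕ)] :: m) (P.eraseIdx i) -
          K c (e' P[(i : ℕ)]) * cen W q e e' (e g :: e' g :: e P[(i : ℕ)] :: m)
            (P.eraseIdx i)) :=
      sum_congr rfl fun i _ => by rw [(e5 i).1, (e5 i).2]
    rw [e6]
    simp only [mul_sub, sum_sub_distrib, mul_add, mul_sum]
    have e7 : ∀ j : Fin m.length, (-1 : ℝ) ^ (j : ℕ) * K c m[(j : ℕ)] *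
        (q g * cen W q e e' (m.eraseIdx j) P) =
        q g * ((-1) ^ (j : ℕ) * K c m[(j : ℕ)] * cen W q e e' (m.eraseIdx j) P) := by
      intro j; ring
    have e8 : ∀ i : Fin P.length, K c (e P[(i : ℕ)]) *
        (q g * cen W q e e' (e' P[(i : ℕ)] :: m) (P.eraseIdx i)) =
        q g * (K c (e P[(i : ℕ)]) * cen W q e e' (e' P[(i : ℕ)] :: m) (P.eraseIdx i)) := by
      intro j; ring
    have e9 : ∀ i : Fin P.length, K c (e' P[(i : ℕ)]) *
        (q g * cen W q e e' (e P[(i : ℕ)] :: m) (P.eraseIdx i)) =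
        q g * (K c (e' P[(i : ℕ)]) * cen W q e e' (e P[(i : ℕ)] :: m) (P.eraseIdx i)) := by
      intro j; ring
    simp only [e7, e8, e9]
    ring

/-- Expansion along the first label of a centred pair. -/
theorem cen_step (hW : IsW W K) (hp : Prs e e') (g : κ) (P : List κ) (m : List ι)
    (h : Ok e e' m (g :: P)) :
    cen W q e e' m (g :: P) = (K (e g) (e' g) - q g) * cen W q e e' m P -
        (∑ j : Fin m.length, (-1) ^ (j : ℕ) * K (e g) m[j] *
          cen W q e e' (e' g :: m.eraseIdx j) P) +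
        ∑ i : Fin P.length, (K (e g) (e P[i]) *
            cen W q e e' (e' P[i] :: e' g :: m) (P.eraseIdx i) -
          K (e g) (e' P[i]) * cen W q e e' (e P[i] :: e' g :: m) (P.eraseIdx i)) := by
  rw [cen, cen_row hW hp P (e g) (e' g :: m) (h.pair hp)]
  simp only [List.length_cons, Fin.sum_univ_succ]
  simp only [Fin.getElem_fin, Fin.val_zero, Fin.val_succ, List.getElem_cons_zero,
    List.getElem_cons_succ, List.eraseIdx_cons_zero, List.eraseIdx_cons_succ, pow_zero]
  have e4 : ∀ j : Fin m.length, (-1 : ℝ) ^ ((j : ℕ) + 1) * K (e g) m[(j : ℕ)] *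
      cen W q e e' (e' g :: m.eraseIdx j) P = - ((-1 : ℝ) ^ (j : ℕ) * K (e g) m[(j : ℕ)] *
      cen W q e e' (e' g :: m.eraseIdx j) P) := by
    intro j; rw [pow_succ]; ring
  simp only [e4, sum_neg_distrib]
  ring

end cen

/-! ### limits -/

theorem lim_sum {α : Type*} {l : Filter α} {n : ℕ} {f : Fin n → α → ℝ}
    (h : ∀ i, ∃ r, Tendsto (f i) l (𝓝 r)) : ∃ r, Tendsto (fun a => ∑ i, f i a) l (𝓝 r) := by
  choose r hr using h
  exact ⟨∑ i, r i, tendsto_finsetSum _ fun i _ => hr i⟩

theorem lim_mul {α : Type*} {l : Filter α} {f g : α → ℝ} (hf : ∃ r, Tendsto f l (𝓝 r))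
    (hg : ∃ r, Tendsto g l (𝓝 r)) : ∃ r, Tendsto (fun a => f a * g a) l (𝓝 r) :=
  ⟨_, hf.choose_spec.mul hg.choose_spec⟩

theorem lim_add {α : Type*} {l : Filter α} {f g : α → ℝ} (hf : ∃ r, Tendsto f l (𝓝 r))
    (hg : ∃ r, Tendsto g l (𝓝 r)) : ∃ r, Tendsto (fun a => f a + g a) l (𝓝 r) :=
  ⟨_, hf.choose_spec.add hg.choose_spec⟩

theorem lim_sub {α : Type*} {l : Filter α} {f g : α → ℝ} (hf : ∃ r, Tendsto f l (𝓝 r))
    (hg : ∃ r, Tendsto g l (𝓝 r)) : ∃ r, Tendsto (fun a => f a - g a) l (𝓝 r) :=
  ⟨_, hf.choose_spec.sub hg.choose_spec⟩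

theorem lim_congr {α : Type*} {l : Filter α} {f g : α → ℝ} (hf : ∃ r, Tendsto f l (𝓝 r))
    (h : ∀ᶠ a in l, g a = f a) : ∃ r, Tendsto g l (𝓝 r) :=
  ⟨_, hf.choose_spec.congr' (h.mono fun _ h => h.symm)⟩

section lim

variable {ι κ β α : Type*} {l : Filter α} {W : α → List ι → ℝ} {K : α → ι → ι → ℝ}
  {q : α → κ → ℝ} {e e' : κ → ι} {blk : ι → β}

/-- The blocks in use are different. -/
structure Okb (blk : ι → β) (e : κ → ι) (m : List ι) (P : List κ) : Prop where
  ndm : (m.map blk).Nodup
  ndP : P.Nodup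
  dis : ∀ g ∈ P, blk (e g) ∉ m.map blk

/-- The two labels of a pair are in the same block. -/
structure Prb (blk : ι → β) (e e' : κ → ι) : Prop extends Prs e e' where
  same : ∀ g, blk (e' g) = blk (e g)
  injb : ∀ g h, blk (e g) = blk (e h) → g = h

theorem Okb.ok (hp : Prb blk e e') {m : List ι} {P : List κ} (h : Okb blk e m P) :
    Ok e e' m P where
  ndm := h.ndm.of_map
  ndP := h.ndP
  dis := fun g hg => ⟨fun hc => h.dis g hg (List.mem_map_of_mem hc),
    fun hc => h.dis g hg (by rw [← hp.same]; exact List.mem_map_of_mem hc)⟩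

theorem Okb.erase {c : ι} {m : List ι} {P : List κ} (h : Okb blk e (c :: m) P) (j : ℕ) :
    Okb blk e (m.eraseIdx j) P where
  ndm := ((List.nodup_cons.1 (List.map_cons ▸ h.ndm)).2).sublist
    ((List.eraseIdx_sublist m j).map blk)
  ndP := h.ndP
  dis := fun g hg hc => h.dis g hg (by
    rw [List.map_cons]
    exact List.mem_cons_of_mem _ (((List.eraseIdx_sublist m j).map blk).subset hc))

theorem Okb.erase' {m : List ι} {P : List κ} (h : Okb blk e m P) (j : ℕ) :
    Okb blk e (m.eraseIdx j) P where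
  ndm := h.ndm.sublist ((List.eraseIdx_sublist m j).map blk)
  ndP := h.ndP
  dis := fun g hg hc => h.dis g hg (((List.eraseIdx_sublist m j).map blk).subset hc)

theorem Okb.tail {m : List ι} {g : κ} {P : List κ} (h : Okb blk e m (g :: P)) :
    Okb blk e m P where
  ndm := h.ndm
  ndP := (List.nodup_cons.1 h.ndP).2
  dis := fun k hk => h.dis k (List.mem_cons_of_mem _ hk)

theorem Okb.cons {m : List ι} {c : ι} {P : List κ} (h : Okb blk e m P) (hc : blk c ∉ m.map blk)
    (hP : ∀ g ∈ P, blk (e g) ≠ blk c) : Okb blk e (c :: m) P where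
  ndm := by rw [List.map_cons, List.nodup_cons]; exact ⟨hc, h.ndm⟩
  ndP := h.ndP
  dis := by
    intro g hg
    rw [List.map_cons, List.mem_cons, not_or]
    exact ⟨hP g hg, h.dis g hg⟩

theorem mem_erase_ne {P : List κ} (h : P.Nodup) (i : ℕ) (hi : i < P.length) :
    ∀ k ∈ P.eraseIdx i, k ∈ P ∧ k ≠ P[i] := by
  intro k hk
  refine ⟨(List.eraseIdx_sublist P i).subset hk, ?_⟩
  rintro rfl
  rw [List.mem_eraseIdx_iff_getElem] at hk
  obtain ⟨j, hj, hji, he⟩ := hk
  exact hji ((List.Nodup.getElem_inj_iff h).1 he)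

theorem Okb.eraseP {m : List ι} {P : List κ} (h : Okb blk e m P) (i : ℕ) :
    Okb blk e m (P.eraseIdx i) where
  ndm := h.ndm
  ndP := h.ndP.sublist (List.eraseIdx_sublist P i)
  dis := fun k hk => h.dis k ((List.eraseIdx_sublist P i).subset hk)

/-- Without centred pairs. -/
theorem W_lim (hW : ∀ᶠ a in l, IsW (W a) (K a))
    (hK : ∀ c c', blk c ≠ blk c' → ∃ r, Tendsto (fun a => K a c c') l (𝓝 r)) (n : ℕ) :
    ∀ m : List ι, m.length = 2 * n → (m.map blk).Nodup →
      ∃ r, Tendsto (fun a => W a m) l (𝓝 r) := by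
  induction n with
  | zero =>
    intro m hm _
    have : m = [] := List.eq_nil_of_length_eq_zero (by omega)
    subst this
    exact lim_congr ⟨1, tendsto_const_nhds⟩ (hW.mono fun a h => h.nil)
  | succ n ih =>
    intro m hm hnd
    cases m with
    | nil => simp at hm
    | cons c m =>
      rw [List.length_cons] at hm
      have hnd' : (blk c :: m.map blk).Nodup := by rwa [List.map_cons] at hnd
      have hcm : (c :: m).Nodup := hnd.of_map
      refine lim_congr (lim_sum fun j : Fin m.length => ?_) (hW.mono fun a h => h.wick c m hcm)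
      refine lim_mul (lim_mul ⟨_, tendsto_const_nhds⟩ (hK c m[j] ?_)) (ih _ ?_ ?_)
      · intro hc
        refine (List.nodup_cons.1 hnd').1 ?_
        rw [hc]
        exact List.mem_map_of_mem (List.getElem_mem _)
      · rw [List.length_eraseIdx_of_lt j.2]; omega
      · exact (List.nodup_cons.1 hnd').2.sublist ((List.eraseIdx_sublist m j).map blk)

/-- Convergence of the centred correlations. -/
theorem cen_lim (hW : ∀ᶠ a in l, IsW (W a) (K a)) (hp : Prb blk e e')
    (hK : ∀ c c', blk c ≠ blk c' → ∃ r, Tendsto (fun a => K a c c') l (𝓝 r))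
    (hq : ∀ g, ∃ r, Tendsto (fun a => K a (e g) (e' g) - q a g) l (𝓝 r)) (n : ℕ) :
    ∀ P : List κ, P.length ≤ n → ∀ m : List ι, Even m.length → Okb blk e m P →
      ∃ r, Tendsto (fun a => cen (W a) (q a) e e' m P) l (𝓝 r) := by
  induction n with
  | zero =>
    intro P hP m hm ho
    have : P = [] := List.eq_nil_of_length_eq_zero (by omega)
    subst this
    obtain ⟨k, hk⟩ := hm
    exact W_lim hW hK k m (by omega) ho.ndm
  | succ n ih =>
    intro P hP m hm ho
    cases P with
    | nil =>
      obtain ⟨k, hk⟩ := hm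
      exact W_lim hW hK k m (by omega) ho.ndm
    | cons g P =>
      rw [List.length_cons] at hP
      have hgP : g ∉ P := (List.nodup_cons.1 ho.ndP).1
      have hgm : blk (e g) ∉ m.map blk := ho.dis g (List.mem_cons_self ..)
      refine lim_congr (lim_add (lim_sub (lim_mul (hq g) (ih P (by omega) m hm ho.tail))
        (lim_sum fun j : Fin m.length => ?_)) (lim_sum fun i : Fin P.length => ?_))
        (hW.mono fun a h => cen_step h hp.toPrs g P m (ho.ok hp))
      · refine lim_mul (lim_mul ⟨_, tendsto_const_nhds⟩ (hK _ _ ?_)) (ih P (by omega) _ ?_ ?_)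
        · intro hc
          exact hgm (hc ▸ List.mem_map_of_mem (List.getElem_mem _))
        · have := j.2
          rw [List.length_cons, List.length_eraseIdx_of_lt j.2, Nat.sub_add_cancel (by omega)]
          exact hm
        · refine (ho.tail.erase' j).cons ?_ ?_
          · rw [hp.same]
            exact fun hc => hgm (((List.eraseIdx_sublist m j).map blk).subset hc)
          · intro k hk
            rw [hp.same]
            exact fun hc => hgP (hp.injb k g hc ▸ hk)
      · have hi := mem_erase_ne ho.tail.ndP i i.2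
        have hPi : P[i] ∈ P := List.getElem_mem _
        have hPm : blk (e P[i]) ∉ m.map blk := ho.dis _ (List.mem_cons_of_mem _ hPi)
        have hgi : blk (e g) ≠ blk (e P[i]) := fun hc => hgP (by
          rw [hp.injb _ _ hc]; exact hPi)
        have hlen : (P.eraseIdx i).length ≤ n := by
          rw [List.length_eraseIdx_of_lt i.2]; omega
        have hok : ∀ c c', blk c = blk (e P[i]) → blk c' = blk (e g) →
            Okb blk e (c :: c' :: m) (P.eraseIdx i) := by
          intro c c' hc hc'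
          refine ((ho.tail.eraseP i).cons (c := c') (hc' ▸ hgm) ?_).cons ?_ ?_
          · intro k hk
            rw [hc']
            exact fun h3 => hgP (hp.injb k g h3 ▸ (hi k hk).1)
          · rw [List.map_cons, List.mem_cons, not_or, hc, hc']
            exact ⟨fun h3 => hgi h3.symm, hPm⟩
          · intro k hk
            rw [hc]
            exact fun h3 => (hi k hk).2 (hp.injb _ _ h3)
        have hev : Even (m.length + 1 + 1) := by
          rw [add_assoc]; exact hm.add ⟨1, rfl⟩
        refine lim_sub (lim_mul (hK _ _ hgi) (ih _ hlen _ hev (hok _ _ (hp.same _) (hp.same _))))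
          (lim_mul (hK _ _ ?_) (ih _ hlen _ hev (hok _ _ rfl (hp.same _))))
        rw [hp.same]; exact hgi

/-- The centred correlations with a vanishing label vanish. -/
theorem cen_null (hW : ∀ᶠ a in l, IsW (W a) (K a)) (hp : Prb blk e e')
    (hK : ∀ c c', blk c ≠ blk c' → ∃ r, Tendsto (fun a => K a c c') l (𝓝 r))
    (hq : ∀ g, ∃ r, Tendsto (fun a => K a (e g) (e' g) - q a g) l (𝓝 r)) {c : ι}
    (hc : ∀ c', blk c ≠ blk c' → Tendsto (fun a => K a c c') l (𝓝 0)) (P : List κ) (m : List ι)
    (hm : Even (m.length + 1)) (ho : Okb blk e (c :: m) P) :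
    Tendsto (fun a => cen (W a) (q a) e e' (c :: m) P) l (𝓝 0) := by
  have hnd' : (blk c :: m.map blk).Nodup := by have := ho.ndm; rwa [List.map_cons] at this
  have hcP : ∀ g ∈ P, blk c ≠ blk (e g) := fun g hg hc => ho.dis g hg (by
    rw [List.map_cons, ← hc]; exact List.mem_cons_self ..)
  have hom : Okb blk e m P := ⟨(List.nodup_cons.1 hnd').2, ho.ndP, fun g hg hc' => ho.dis g hg (by
    rw [List.map_cons]; exact List.mem_cons_of_mem _ hc')⟩
  have key : Tendsto (fun a => (∑ j : Fin m.length, (-1) ^ (j : ℕ) * K a c m[j] *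
      cen (W a) (q a) e e' (m.eraseIdx j) P) +
        ∑ i : Fin P.length, (K a c (e P[i]) * cen (W a) (q a) e e' (e' P[i] :: m) (P.eraseIdx i) -
          K a c (e' P[i]) * cen (W a) (q a) e e' (e P[i] :: m) (P.eraseIdx i))) l
      (𝓝 ((∑ _j : Fin m.length, 0) + ∑ _i : Fin P.length, (0 - 0))) := by
    refine (tendsto_finsetSum _ fun j _ => ?_).add (tendsto_finsetSum _ fun i _ => ?_)
    · have h1 : blk c ≠ blk m[j] := by
        intro h
        refine (List.nodup_cons.1 hnd').1 ?_
        rw [h]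
        exact List.mem_map_of_mem (List.getElem_mem _)
      obtain ⟨r, hr⟩ := cen_lim hW hp hK hq P.length P le_rfl (m.eraseIdx j) (by
        rw [List.length_eraseIdx_of_lt j.2]
        have := j.2
        obtain ⟨k, hk⟩ := hm
        exact ⟨k - 1, by omega⟩) (ho.erase j)
      have := ((tendsto_const_nhds (x := (-1 : ℝ) ^ (j : ℕ))).mul (hc _ h1)).mul hr
      simpa using this
    · have hi := mem_erase_ne ho.ndP i i.2
      have hPi : P[i] ∈ P := List.getElem_mem _
      have h1 := hcP _ hPi
      have h2 : blk c ≠ blk (e' P[i]) := by rw [hp.same]; exact h1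
      have hlen : (P.eraseIdx i).length ≤ P.length := List.length_eraseIdx_le ..
      have hok : ∀ c', blk c' = blk (e P[i]) → Okb blk e (c' :: m) (P.eraseIdx i) := by
        intro c' hc'
        refine (hom.eraseP i).cons ?_ ?_
        · rw [hc']; exact hom.dis _ hPi
        · intro k hk
          rw [hc']
          exact fun h3 => (hi k hk).2 (hp.injb _ _ h3)
      obtain ⟨r, hr⟩ := cen_lim hW hp hK hq _ (P.eraseIdx i) hlen (e' P[i] :: m)
        hm (hok _ (hp.same _))
      obtain ⟨r', hr'⟩ := cen_lim hW hp hK hq _ (P.eraseIdx i) hlen (e P[i] :: m)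
        hm (hok _ rfl)
      have a1 := (hc _ h1).mul hr
      have a2 := (hc _ h2).mul hr'
      rw [zero_mul] at a1 a2
      exact a1.sub a2
  rw [show ((∑ _j : Fin m.length, (0:ℝ)) + ∑ _i : Fin P.length, ((0:ℝ) - 0)) = 0 by simp] at key
  exact key.congr' (hW.mono fun a h => (cen_row h hp.toPrs P c m (ho.ok hp)).symm)

end lim

end Vale.Agent.P144.H436
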