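import Vale.Agent.P144.H436.Cor
import Mathlib.MeasureTheory.Measure.Prokhorov

/-!
The free plane state of the critical nearest-neighbour model.
-/

namespace Vale.Agent.P144.H436

open Finset Vale.Agent.P144 Filter Topology MeasureTheory

/-- the product of the spins of `A` -/
noncomputable def spA (A : Finset Site) (σ : Config) : ℝ := ∏ x ∈ A, sp (σ x)

theorem continuous_spA (A : Finset Site) : Continuous (spA A) := by
  unfold spA
  exact continuous_finsetProd _ fun x _ =>
    (continuous_of_discreteTopology (f := sp)).comp (continuous_apply x)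

theorem abs_spA (A : Finset Site) (σ : Config) : |spA A σ| = 1 := by
  unfold spA
  rw [Finset.abs_prod]
  simp only [abs_sp, Finset.prod_const_one]

/-- the event that all spins of `A` are `+1` -/
def plusSet (A : Finset Site) : Set Config := {σ | ∀ x ∈ A, σ x = true}

theorem measurableSet_plusSet (A : Finset Site) : MeasurableSet (plusSet A) := by
  have : plusSet A = ⋂ x ∈ A, {σ : Config | σ x = true} := by
    ext σ; simp [plusSet]
  rw [this]
  refine Finset.measurableSet_biInter _ fun x _ => ?_
  exact measurableSet_eq_fun (measurable_pi_apply x) measurable_const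

theorem gen_plusSet : (MeasurableSpace.pi : MeasurableSpace Config)
    = MeasurableSpace.generateFrom (Set.range plusSet) := by
  refine le_antisymm ?_ ?_
  · refine iSup_le fun x => ?_
    rw [← measurable_iff_comap_le]
    refine @measurable_to_bool _ (_) _ ?_
    refine MeasurableSpace.measurableSet_generateFrom ⟨{x}, ?_⟩
    ext σ
    simp [plusSet]
  · refine MeasurableSpace.generateFrom_le ?_
    rintro _ ⟨A, rfl⟩
    exact measurableSet_plusSet A

theorem indicator_plusSet (A : Finset Site) (σ : Config) :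
    (plusSet A).indicator (fun _ => (1:ℝ)) σ
      = (2:ℝ)⁻¹ ^ A.card * ∑ B ∈ A.powerset, spA B σ := by
  have h1 : ∏ x ∈ A, (1 + sp (σ x)) = ∑ B ∈ A.powerset, spA B σ := by
    rw [Finset.prod_one_add]
    rfl
  rw [← h1, ← Finset.prod_const, ← Finset.prod_mul_distrib]
  by_cases h : σ ∈ plusSet A
  · rw [Set.indicator_of_mem h]
    symm
    refine Finset.prod_eq_one fun x hx => ?_
    rw [h x hx, sp_true]; norm_num
  · rw [Set.indicator_of_notMem h]
    symm
    simp only [plusSet, Set.mem_ofPred_eq, not_forall] at h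
    obtain ⟨x, hx, hσ⟩ := h
    refine Finset.prod_eq_zero hx ?_
    rw [Bool.not_eq_true] at hσ
    rw [hσ, sp_false]; norm_num

/-- Probability measures with the same spin correlations are equal. -/
theorem measure_ext {μ ν : Measure Config} [IsProbabilityMeasure μ] [IsProbabilityMeasure ν]
    (h : ∀ A : Finset Site, ∫ σ, spA A σ ∂μ = ∫ σ, spA A σ ∂ν) : μ = ν := by
  refine MeasureTheory.ext_of_generate_finite (Set.range plusSet) gen_plusSet ?_ ?_ (by simp)
  · rintro _ ⟨A, rfl⟩ _ ⟨B, rfl⟩ _
    refine ⟨A ∪ B, ?_⟩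
    ext σ
    simp only [plusSet, Set.mem_ofPred_eq, Set.mem_inter_iff, Finset.mem_union]
    exact ⟨fun h => ⟨fun x hx => h x (Or.inl hx), fun x hx => h x (Or.inr hx)⟩,
      fun h x hx => hx.elim (h.1 x) (h.2 x)⟩
  · rintro _ ⟨A, rfl⟩
    have hint : ∀ (ρ : Measure Config) [IsProbabilityMeasure ρ],
        ρ.real (plusSet A) = (2:ℝ)⁻¹ ^ A.card * ∑ B ∈ A.powerset, ∫ σ, spA B σ ∂ρ := by
      intro ρ _
      rw [← integral_finsetSum, ← integral_const_mul]
      · rw [← integral_indicator_one (measurableSet_plusSet A)]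
        refine integral_congr_ae (Eventually.of_forall fun σ => ?_)
        exact indicator_plusSet A σ
      · intro B _
        refine Integrable.of_bound (continuous_spA B).aestronglyMeasurable 1
          (Eventually.of_forall fun σ => ?_)
        rw [Real.norm_eq_abs, abs_spA]
    have h1 := hint μ
    have h2 := hint ν
    simp only [h] at h1
    rw [← h2] at h1
    exact (measureReal_eq_measureReal_iff).1 h1

/-- the finite-volume measure on all configurations -/
noncomputable def fvm {Λ : Finset Site} (w : (Λ → Bool) → ℝ) : Measure Config :=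
  ∑ s : Λ → Bool, ENNReal.ofReal (w s / ∑ t, w t) • Measure.dirac (exs Λ (fun _ => true) s)

theorem integral_fvm {Λ : Finset Site} {w : (Λ → Bool) → ℝ} (hw : ∀ s, 0 < w s)
    (F : Config → ℝ) :
    ∫ σ, F σ ∂(fvm w) = (∑ s, F (exs Λ (fun _ => true) s) * w s) / ∑ t, w t := by
  have hZ : 0 < ∑ t, w t := Finset.sum_pos (fun s _ => hw s) ⟨fun _ => true, Finset.mem_univ _⟩
  unfold fvm
  rw [integral_finsetSum_measure]
  · rw [Finset.sum_div]
    refine Finset.sum_congr rfl fun s _ => ?_
    rw [integral_smul_measure, integral_dirac, ENNReal.toReal_ofReal (div_pos (hw s) hZ).le,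
      smul_eq_mul]
    ring
  · intro s _
    refine Integrable.smul_measure ?_ ENNReal.ofReal_ne_top
    exact integrable_dirac (by simp)

theorem isProb_fvm {Λ : Finset Site} {w : (Λ → Bool) → ℝ} (hw : ∀ s, 0 < w s) :
    IsProbabilityMeasure (fvm w) := by
  have hZ : 0 < ∑ t, w t := Finset.sum_pos (fun s _ => hw s) ⟨fun _ => true, Finset.mem_univ _⟩
  constructor
  unfold fvm
  simp only [Measure.coe_finsetSum, Finset.sum_apply, Measure.smul_apply, measure_univ,
    smul_eq_mul, mul_one]
  rw [← ENNReal.ofReal_sum_of_nonneg fun s _ => (div_pos (hw s) hZ).le, ← Finset.sum_div,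
    div_self hZ.ne', ENNReal.ofReal_one]

/-- The free infinite-volume measure. -/
theorem exists_free {β J lam : ℝ} (hβ : 0 ≤ β) (hJ : 0 ≤ J) (hl : 0 ≤ lam) :
    ∃ μ : Measure Config, IsProbabilityMeasure μ ∧
      (∀ t : Site, μ.map (fun σ x => σ (x + t)) = μ) ∧
      ∀ A : Finset Site, Tendsto (fun M : ℕ => cor β J lam (box M) A) atTop
        (𝓝 (∫ σ, spA A σ ∂μ)) := by
  choose l hl' using fun A => cor_tendsto hβ hJ hl A
  let ν : ℕ → ProbabilityMeasure Config := fun M =>
    ⟨fvm (wt (KK β J lam (box M)) (fun _ => 0)), isProb_fvm fun s => wt_pos _ _ _⟩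
  obtain ⟨μ, hμ⟩ : ∃ μ : ProbabilityMeasure Config,
      Tendsto ν (Filter.hyperfilter ℕ : Filter ℕ) (𝓝 μ) := by
    obtain ⟨μ, _, hμ⟩ := isCompact_univ.ultrafilter_le_nhds
      ((Filter.hyperfilter ℕ).map ν) (by simp)
    exact ⟨μ, hμ⟩
  have hcorr : ∀ A, ∫ σ, spA A σ ∂(μ : Measure Config) = l A := by
    intro A
    have h1 := (ProbabilityMeasure.tendsto_iff_forall_integral_tendsto.1 hμ)
      (BoundedContinuousFunction.ofNormedAddCommGroup (spA A) (continuous_spA A) 1 (fun σ => by
        rw [Real.norm_eq_abs, abs_spA]))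
    simp only [BoundedContinuousFunction.coe_ofNormedAddCommGroup] at h1
    have h2 : ∀ M, ∫ σ, spA A σ ∂((ν M : ProbabilityMeasure Config) : Measure Config)
        = cor β J lam (box M) A := by
      intro M
      exact integral_fvm (fun s => wt_pos _ _ _) (spA A)
    simp only [h2] at h1
    exact tendsto_nhds_unique h1 ((hl' A).mono_left Nat.hyperfilter_le_atTop)
  refine ⟨μ, inferInstance, fun t => ?_, fun A => by rw [hcorr]; exact hl' A⟩
  have hm : Measurable (fun (σ : Config) (x : Site) => σ (x + t)) :=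
    measurable_pi_iff.2 fun x => measurable_pi_apply _
  have : IsProbabilityMeasure ((μ : Measure Config).map (fun σ x => σ (x + t))) :=
    Measure.isProbabilityMeasure_map hm.aemeasurable
  refine measure_ext fun A => ?_
  rw [integral_map hm.aemeasurable (continuous_spA A).aestronglyMeasurable]
  have e : ∀ σ : Config, spA A (fun x => σ (x + t)) = spA (A.map (tr t).toEmbedding) σ := by
    intro σ
    unfold spA
    rw [Finset.prod_map]
    rfl
  simp only [e]
  rw [hcorr, hcorr]
  exact tendsto_nhds_unique (hl' _) (cor_lim_map hβ hJ hl (tr t) (dsq_tr t) (hl' A))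

/-- Block S1: the free plane state of the critical nearest-neighbour model. -/
theorem free_plane {J : ℝ} (hJ : 0 < J) :
    ∃ μ : Measure Config, IsPlaneState J 0 (fun _ => 0) (Kc / J) μ ∧
      ∀ A : Finset Site, Tendsto (fun M : ℕ => fcor J (box M) A) atTop
        (𝓝 (∫ σ, ∏ x ∈ A, sp (σ x) ∂μ)) := by
  obtain ⟨μ, hp, ht, hc⟩ := exists_free (div_pos kc_pos hJ).le hJ.le (le_refl (0:ℝ))
  have hc' : ∀ A : Finset Site, Tendsto (fun M : ℕ => fcor J (box M) A) atTop
        (𝓝 (∫ σ, ∏ x ∈ A, sp (σ x) ∂μ)) := by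
    intro A
    simp only [fcor_eq]
    exact hc A
  refine ⟨μ, ⟨hp, ht, box, fun _ => none, fun x => ?_, hc'⟩, hc'⟩
  filter_upwards [subset_box {x}] with M hM
  exact hM (Finset.mem_singleton_self x)

end Vale.Agent.P144.H436
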