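import Vale.Agent.P144.H436.Plane

/-!
The two-point function of any plane state is bounded by products of one-point functions with plus
boundary conditions (block L).
-/

namespace Vale.Agent.P144.H436

open Finset Vale.Agent.P144 Filter Topology MeasureTheory

/-! ### comparison of a field of arbitrary sign with a nonnegative field -/

section abs

variable {ι : Type*} [Fintype ι] [DecidableEq ι]

/-- Correlations increase if the field is replaced by a field that dominates its absolute value. -/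
theorem ev_le_abs {K : ι → ι → ℝ} {h h' : ι → ℝ} (hK : ∀ i j, 0 ≤ K i j)
    (hh : ∀ i, |h i| ≤ h' i) {f : (ι → Bool) → ℝ} (hf : Gin f) : ev K h f ≤ ev K h' f := by
  have hexp : MP phi2 (fun p : ι → Bool × Bool =>
      ex K h' (fun i => (p i).1) + ex K h (fun i => (p i).2)) := by
    have hq : (0:ℝ) ≤ 1 / 2 := by norm_num
    have h1 : MP phi2 (fun p : ι → Bool × Bool => ∑ i, ∑ j, K i j *
        (sp (p i).1 * sp (p j).1 + sp (p i).2 * sp (p j).2)) := by
      refine MP.sum _ fun i _ => MP.sum _ fun j _ => (MP.const (hK i j)).mul ?_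
      exact ((Gin.spin i).mul (Gin.spin j)).1
    have h2 : MP phi2 (fun p : ι → Bool × Bool => ∑ i, ((h' i + h i) / 2 *
        (sp (p i).1 + sp (p i).2) + (h' i - h i) / 2 * (sp (p i).1 - sp (p i).2))) := by
      refine MP.sum _ fun i _ => MP.add ?_ ?_
      · have := neg_abs_le (h i)
        exact (MP.const (by linarith [hh i])).mul (Gin.spin i).1
      · have := le_abs_self (h i)
        exact (MP.const (by linarith [hh i])).mul (Gin.spin i).2
    refine (h1.add h2).congr fun p => ?_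
    unfold ex
    have e1 : ∑ i, ∑ j, K i j * (sp (p i).1 * sp (p j).1 + sp (p i).2 * sp (p j).2)
        = ∑ i, ∑ j, K i j * (sp (p i).1 * sp (p j).1)
          + ∑ i, ∑ j, K i j * (sp (p i).2 * sp (p j).2) := by
      simp only [mul_add, Finset.sum_add_distrib]
    have e2 : ∑ i, ((h' i + h i) / 2 * (sp (p i).1 + sp (p i).2)
        + (h' i - h i) / 2 * (sp (p i).1 - sp (p i).2))
        = ∑ i, h' i * sp (p i).1 + ∑ i, h i * sp (p i).2 := by
      rw [← Finset.sum_add_distrib]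
      exact Finset.sum_congr rfl fun i _ => by ring
    rw [e1, e2]
    ring
  have h1 := MP.nonneg nnm2 (hf.2.mul hexp.exp)
  simp only [Real.exp_add] at h1
  rw [sum_pairs (fun s t => (f s - f t) * (Real.exp (ex K h' s) * Real.exp (ex K h t)))] at h1
  have h3 : ∑ s, ∑ t, (f s - f t) * (Real.exp (ex K h' s) * Real.exp (ex K h t))
      = (∑ s, f s * wt K h' s) * (∑ s, wt K h s)
        - (∑ s, f s * wt K h s) * (∑ s, wt K h' s) := by
    have e : ∀ s t, (f s - f t) * (Real.exp (ex K h' s) * Real.exp (ex K h t))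
        = (f s * wt K h' s) * wt K h t - wt K h' s * (f t * wt K h t) := by
      intro s t; unfold wt; ring
    simp only [e, Finset.sum_sub_distrib, ← Finset.mul_sum, ← Finset.sum_mul]
    ring
  rw [h3] at h1
  unfold ev
  rw [div_le_div_iff₀ (Z_pos K h) (Z_pos K h')]
  linarith

/-- Conditioning on nonnegative weights in the class increases correlations. -/
theorem ev_le_cond {K : ι → ι → ℝ} {h : ι → ℝ} (hK : ∀ i j, 0 ≤ K i j) (hh : ∀ i, 0 ≤ h i)
    {f g : (ι → Bool) → ℝ} (hf : Gin f) (hg : Gin g) (hpos : 0 < ∑ s, g s * wt K h s) :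
    ev K h f ≤ (∑ s, f s * g s * wt K h s) / ∑ s, g s * wt K h s := by
  have h1 := gks2 hK hh hf hg
  have hZ := Z_pos K h
  unfold ev at h1 ⊢
  rw [div_le_div_iff₀ hZ hpos]
  rw [div_mul_div_comm, div_le_div_iff₀ (by positivity) hZ] at h1
  nlinarith [mul_pos hZ hZ]

end abs

/-! ### products of independent systems -/

section prod

variable {ι α γ : Type*} [Fintype ι] [DecidableEq ι] [Fintype α] [DecidableEq α] [Fintype γ]
  [DecidableEq γ]

theorem ev_prod {e₁ : α → ι} {e₂ : γ → ι} (hb : Function.Bijective (Sum.elim e₁ e₂))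
    {K : ι → ι → ℝ} {h : ι → ℝ} {K₁ : α → α → ℝ} {h₁ : α → ℝ} {K₂ : γ → γ → ℝ} {h₂ : γ → ℝ}
    (hex : ∀ s, ex K h s = ex K₁ h₁ (fun i => s (e₁ i)) + ex K₂ h₂ (fun i => s (e₂ i)))
    (f : (α → Bool) → ℝ) (g : (γ → Bool) → ℝ) :
    ev K h (fun s => f (fun i => s (e₁ i)) * g (fun i => s (e₂ i)))
      = ev K₁ h₁ f * ev K₂ h₂ g := by
  have hs : ∀ (F : (α → Bool) → ℝ) (G : (γ → Bool) → ℝ),
      ∑ s : ι → Bool, F (fun i => s (e₁ i)) * G (fun i => s (e₂ i))
        = (∑ a, F a) * ∑ b, G b := by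
    intro F G
    rw [Finset.sum_mul_sum, ← Fintype.sum_prod_type']
    refine Fintype.sum_equiv
      ((Equiv.arrowCongr (Equiv.ofBijective _ hb).symm (Equiv.refl Bool)).trans
        (Equiv.sumArrowEquivProdArrow α γ Bool)) _ _ fun s => ?_
    rfl
  unfold ev wt
  simp only [hex, Real.exp_add]
  have h1 := hs (fun a => f a * Real.exp (ex K₁ h₁ a)) (fun b => g b * Real.exp (ex K₂ h₂ b))
  have h2 := hs (fun a => Real.exp (ex K₁ h₁ a)) (fun b => Real.exp (ex K₂ h₂ b))
  rw [h2, div_mul_div_comm, ← h1]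
  congr 1
  exact Finset.sum_congr rfl fun s _ => by ring

end prod

/-! ### the exponent as a sum over sites -/

/-- the exponent with field `H` -/
noncomputable def exS (β J lam : ℝ) (Λ : Finset Site) (H : Site → ℝ) (σ : Config) : ℝ :=
  ∑ u ∈ Λ, ∑ v ∈ Λ, β / 2 * cpl J lam u v * (sp (σ u) * sp (σ v)) + ∑ u ∈ Λ, H u * sp (σ u)

theorem ex_eq_exS (β J lam : ℝ) (Λ : Finset Site) (H : Site → ℝ) {σ : Config} {s : Λ → Bool}
    (hσ : ∀ i : Λ, σ i = s i) : ex (KK β J lam Λ) (fun i => H i) s = exS β J lam Λ H σ := by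
  unfold ex KK exS
  rw [← Finset.sum_coe_sort Λ, ← Finset.sum_coe_sort Λ]
  congr 1
  · refine Finset.sum_congr rfl fun i _ => ?_
    rw [← Finset.sum_coe_sort Λ]
    refine Finset.sum_congr rfl fun j _ => ?_
    rw [hσ, hσ]
  · refine Finset.sum_congr rfl fun i _ => ?_
    rw [hσ]

/-- the field of plus boundary conditions -/
noncomputable def pf (β J lam : ℝ) (Λ W : Finset Site) (u : Site) : ℝ :=
  β * ∑ v ∈ W \ Λ, cpl J lam u v

theorem fld_bcp (β J lam : ℝ) (Λ W : Finset Site) (u : Site) :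
    β * fld J lam Λ W (fun _ => True) bcp u = pf β J lam Λ W u := by
  unfold fld pf
  congr 1
  have : (W.filter fun v => v ∉ Λ) = W \ Λ := by
    ext v; simp
  rw [← this, Finset.sum_filter]
  refine Finset.sum_congr rfl fun v _ => ?_
  by_cases h : v ∈ Λ <;> simp [bcp, sp_true, h]

theorem gibbs_plus {J lam β : ℝ} {Λ W : Finset Site} (hW : Window Λ W) (F : Config → ℝ) :
    gibbs J lam Vk β (some bcp) Λ F
      = ev (KK β J lam Λ) (fun i => pf β J lam Λ W i) (fun s => F (exs Λ bcp s)) := by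
  rw [gibbs_knight J lam β hW]
  simp only [fld_bcp]

/-- symmetric double sum over a disjoint union -/
theorem double_union {D R : Finset Site} (hd : Disjoint D R) (c : Site → Site → ℝ)
    (hc : ∀ u v, c u v = c v u) :
    ∑ u ∈ D ∪ R, ∑ v ∈ D ∪ R, c u v
      = ∑ u ∈ D, ∑ v ∈ D, c u v + ∑ u ∈ R, ∑ v ∈ R, c u v + 2 * ∑ u ∈ D, ∑ v ∈ R, c u v := by
  rw [Finset.sum_union hd]
  simp only [Finset.sum_union hd, Finset.sum_add_distrib]
  have : ∑ u ∈ R, ∑ v ∈ D, c u v = ∑ u ∈ D, ∑ v ∈ R, c u v := by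
    rw [Finset.sum_comm]
    exact Finset.sum_congr rfl fun u _ => Finset.sum_congr rfl fun v _ => hc v u
  rw [this]
  ring

/-- freezing the spins of `Λ \ D` at `+1` -/
theorem exS_freeze (β J lam : ℝ) {D Λ : Finset Site} (h : D ⊆ Λ) (H : Site → ℝ) :
    ∃ C : ℝ, ∀ σ : Config, (∀ v ∈ Λ \ D, σ v = true) →
      exS β J lam Λ H σ
        = exS β J lam D (fun u => H u + β * ∑ v ∈ Λ \ D, cpl J lam u v) σ + C := by
  refine ⟨∑ u ∈ Λ \ D, ∑ v ∈ Λ \ D, β / 2 * cpl J lam u v + ∑ u ∈ Λ \ D, H u,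
    fun σ hσ => ?_⟩
  have hΛ : Λ = D ∪ (Λ \ D) := (Finset.union_sdiff_of_subset h).symm
  have hd : Disjoint D (Λ \ D) := Finset.disjoint_sdiff
  unfold exS
  conv_lhs => rw [hΛ]
  rw [double_union hd (fun u v => β / 2 * cpl J lam u v * (sp (σ u) * sp (σ v)))
    (fun u v => by rw [cpl_comm]; ring), Finset.sum_union hd]
  have e1 : ∑ u ∈ Λ \ D, ∑ v ∈ Λ \ D, β / 2 * cpl J lam u v * (sp (σ u) * sp (σ v))
      = ∑ u ∈ Λ \ D, ∑ v ∈ Λ \ D, β / 2 * cpl J lam u v := by
    refine Finset.sum_congr rfl fun u hu => Finset.sum_congr rfl fun v hv => ?_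
    rw [hσ u hu, hσ v hv, sp_true]; ring
  have e2 : ∑ u ∈ Λ \ D, H u * sp (σ u) = ∑ u ∈ Λ \ D, H u := by
    refine Finset.sum_congr rfl fun u hu => ?_
    rw [hσ u hu, sp_true, mul_one]
  have e3 : 2 * ∑ u ∈ D, ∑ v ∈ Λ \ D, β / 2 * cpl J lam u v * (sp (σ u) * sp (σ v))
      = ∑ u ∈ D, β * (∑ v ∈ Λ \ D, cpl J lam u v) * sp (σ u) := by
    rw [Finset.mul_sum]
    refine Finset.sum_congr rfl fun u _ => ?_
    rw [Finset.mul_sum, Finset.mul_sum, Finset.sum_mul]
    refine Finset.sum_congr rfl fun v hv => ?_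
    rw [hσ v hv, sp_true]; ring
  rw [e1, e2, e3]
  simp only [add_mul, Finset.sum_add_distrib]
  ring

/-- the indicator that the spins of `R` are `+1` -/
noncomputable def ind (R : Finset Site) (σ : Config) : ℝ := ∏ v ∈ R, (1 / 2 * (1 + sp (σ v)))

theorem ind_eq (R : Finset Site) (σ : Config) :
    ind R σ = if ∀ v ∈ R, σ v = true then 1 else 0 := by
  unfold ind
  split_ifs with h
  · refine Finset.prod_eq_one fun v hv => ?_
    rw [h v hv, sp_true]; norm_num
  · push Not at h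
    obtain ⟨v, hv, hσ⟩ := h
    refine Finset.prod_eq_zero hv ?_
    have hσ' : σ v = false := by simpa using hσ
    rw [hσ', sp_false]; norm_num

/-- a sum over configurations in `Λ` with frozen spins outside `D` -/
theorem sum_frozen {D Λ : Finset Site} (h : D ⊆ Λ) (G : Config → ℝ) :
    ∑ s : Λ → Bool, ind (Λ \ D) (exs Λ bcp s) * G (exs Λ bcp s)
      = ∑ a : D → Bool, G (exs D bcp a) := by
  have h1 : ∀ s : Λ → Bool, ind (Λ \ D) (exs Λ bcp s) * G (exs Λ bcp s)
      = if ∀ v ∈ Λ \ D, exs Λ bcp s v = true then G (exs Λ bcp s) else 0 := by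
    intro s
    rw [ind_eq]
    split_ifs <;> simp
  simp only [h1]
  rw [← Finset.sum_filter]
  refine Finset.sum_nbij' (fun s => fun d : D => s ⟨d.1, h d.2⟩)
    (fun a => fun i : Λ => exs D bcp a i.1) ?_ ?_ ?_ ?_ ?_
  · intro s _; exact Finset.mem_univ _
  · intro a _
    rw [Finset.mem_filter]
    refine ⟨Finset.mem_univ _, fun v hv => ?_⟩
    rw [Finset.mem_sdiff] at hv
    rw [exs_mem hv.1, exs_not_mem hv.2]
    rfl
  · intro s hs
    rw [Finset.mem_filter] at hs
    funext i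
    by_cases hi : i.1 ∈ D
    · rw [exs_mem hi]
    · rw [exs_not_mem hi]
      have := hs.2 i.1 (Finset.mem_sdiff.2 ⟨i.2, hi⟩)
      rw [exs_mem i.2] at this
      rw [this]; rfl
  · intro a _
    funext d
    exact exs_mem d.2
  · intro s hs
    rw [Finset.mem_filter] at hs
    congr 1
    funext x
    by_cases hx : x ∈ D
    · rw [exs_mem (h hx), exs_mem hx]
    · rw [exs_not_mem hx]
      by_cases hx' : x ∈ Λ
      · exact hs.2 x (Finset.mem_sdiff.2 ⟨hx', hx⟩)
      · rw [exs_not_mem hx']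

theorem gin_exs' {Λ : Finset Site} (x : Site) :
    Gin (fun s : Λ → Bool => sp (exs Λ bcp s x)) := gin_exs x

/-- Comparison of an arbitrary finite-volume state with the plus state in a smaller volume. -/
theorem ev_le_plus {β J lam : ℝ} (hβ : 0 ≤ β) (hJ : 0 ≤ J) (hl : 0 ≤ lam) {D Λ W : Finset Site}
    (hD : D ⊆ Λ) (hW : Window Λ W) {h : Site → ℝ}
    (hh : ∀ u ∈ Λ, |h u| ≤ pf β J lam Λ W u) {A : Finset Site} :
    ev (KK β J lam Λ) (fun i => h i) (fun s => ∏ x ∈ A, sp (exs Λ bcp s x))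
      ≤ ev (KK β J lam D) (fun i => pf β J lam D W i) (fun a => ∏ x ∈ A, sp (exs D bcp a x)) := by
  have hpf : ∀ u, 0 ≤ pf β J lam Λ W u := fun u =>
    mul_nonneg hβ (Finset.sum_nonneg fun v _ => cpl_nonneg hJ hl _ _)
  have hG : Gin (fun s : Λ → Bool => ∏ x ∈ A, sp (exs Λ bcp s x)) :=
    Gin.prod _ fun x _ => gin_exs' x
  have hI : Gin (fun s : Λ → Bool => ind (Λ \ D) (exs Λ bcp s)) := by
    unfold ind
    refine Gin.prod _ fun v _ => (Gin.const (by norm_num)).mul ?_
    exact (Gin.const zero_le_one).add (gin_exs' v)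
  refine (ev_le_abs (h := fun i : Λ => h i) (h' := fun i : Λ => pf β J lam Λ W i)
    (KK_nonneg hβ hJ hl Λ) (fun i => hh i.1 i.2) hG).trans ?_
  -- frozen sums
  obtain ⟨C, hC⟩ := exS_freeze β J lam hD (pf β J lam Λ W)
  have hH : ∀ u, pf β J lam Λ W u + β * ∑ v ∈ Λ \ D, cpl J lam u v = pf β J lam D W u := by
    intro u
    unfold pf
    have hsub : Λ \ D ⊆ W \ D := Finset.sdiff_subset_sdiff hW.1 (subset_refl _)
    have e : (W \ D) \ (Λ \ D) = W \ Λ := by
      ext v
      simp only [Finset.mem_sdiff, not_and, not_not]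
      constructor
      · rintro ⟨⟨h1, h2⟩, h3⟩
        exact ⟨h1, fun h4 => h2 (h3 h4)⟩
      · rintro ⟨h1, h2⟩
        exact ⟨⟨h1, fun h3 => h2 (hD h3)⟩, fun h3 => absurd h3 h2⟩
    rw [← Finset.sum_sdiff hsub, e]
    ring
  simp only [hH] at hC
  have hwt : ∀ (s : Λ → Bool), wt (KK β J lam Λ) (fun i => pf β J lam Λ W i) s
      = Real.exp (exS β J lam Λ (pf β J lam Λ W) (exs Λ bcp s)) := by
    intro s
    unfold wt
    rw [ex_eq_exS β J lam Λ (pf β J lam Λ W) (σ := exs Λ bcp s) (fun i => exs_mem i.2)]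
  have hfr : ∀ F : Config → ℝ, ∑ s : Λ → Bool, ind (Λ \ D) (exs Λ bcp s) *
      (F (exs Λ bcp s) * wt (KK β J lam Λ) (fun i => pf β J lam Λ W i) s)
      = Real.exp C * ∑ a : D → Bool, F (exs D bcp a) *
        wt (KK β J lam D) (fun i => pf β J lam D W i) a := by
    intro F
    simp only [hwt]
    rw [sum_frozen hD (fun σ => F σ * Real.exp (exS β J lam Λ (pf β J lam Λ W) σ)),
      Finset.mul_sum]
    refine Finset.sum_congr rfl fun a _ => ?_
    rw [hC (exs D bcp a) (fun v hv => by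
      rw [exs_not_mem (Finset.mem_sdiff.1 hv).2]; rfl)]
    unfold wt
    rw [ex_eq_exS β J lam D (pf β J lam D W) (σ := exs D bcp a) (fun i => exs_mem i.2),
      Real.exp_add]
    ring
  have hpos : 0 < ∑ s : Λ → Bool, ind (Λ \ D) (exs Λ bcp s) *
      wt (KK β J lam Λ) (fun i => pf β J lam Λ W i) s := by
    have := hfr (fun _ => 1)
    simp only [one_mul] at this
    rw [this]
    exact mul_pos (Real.exp_pos _) (Z_pos _ _)
  refine (ev_le_cond (KK_nonneg hβ hJ hl Λ) (fun i => hpf i.1) hG hI hpos).trans (le_of_eq ?_)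
  have h1 := hfr (fun σ => ∏ x ∈ A, sp (σ x))
  have h2 := hfr (fun _ => 1)
  simp only [one_mul] at h2
  have h3 : ∑ s : Λ → Bool, (∏ x ∈ A, sp (exs Λ bcp s x)) * ind (Λ \ D) (exs Λ bcp s)
      * wt (KK β J lam Λ) (fun i => pf β J lam Λ W i) s
      = ∑ s : Λ → Bool, ind (Λ \ D) (exs Λ bcp s) * ((∏ x ∈ A, sp (exs Λ bcp s x)) *
        wt (KK β J lam Λ) (fun i => pf β J lam Λ W i) s) :=
    Finset.sum_congr rfl fun s _ => by ring
  rw [h3, h1, h2, mul_div_mul_left _ _ (Real.exp_pos C).ne']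
  rfl

/-- All boundary conditions are below plus boundary conditions in a smaller volume. -/
theorem gibbs_le_plus {β J lam : ℝ} (hβ : 0 ≤ β) (hJ : 0 ≤ J) (hl : 0 ≤ lam) (b : Option Config)
    {D Λ A : Finset Site} (hD : D ⊆ Λ) (hA : A ⊆ D) :
    gibbs J lam Vk β b Λ (fun σ => ∏ x ∈ A, sp (σ x))
      ≤ gibbs J lam Vk β (some bcp) D (fun σ => ∏ x ∈ A, sp (σ x)) := by
  have hW := window_win Λ
  have hWD : Window D (win Λ) := ⟨hD.trans hW.1, fun u hu v hv => hW.2 u (hD hu) v hv⟩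
  have hpf : ∀ u, 0 ≤ pf β J lam Λ (win Λ) u := fun u =>
    mul_nonneg hβ (Finset.sum_nonneg fun v _ => cpl_nonneg hJ hl _ _)
  rw [gibbs_plus hWD]
  cases b with
  | none =>
    rw [gibbs_freeK]
    exact ev_le_plus hβ hJ hl hD hW (h := fun _ => 0) (fun u _ => by rw [abs_zero]; exact hpf u)
  | some η =>
    rw [gibbs_knight J lam β hW]
    have e : (fun s : Λ → Bool => ∏ x ∈ A, sp (exs Λ η s x))
        = fun s => ∏ x ∈ A, sp (exs Λ bcp s x) := by
      funext s
      refine Finset.prod_congr rfl fun x hx => ?_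
      rw [exs_mem (hD (hA hx)), exs_mem (hD (hA hx))]
    rw [e]
    refine ev_le_plus hβ hJ hl hD hW (h := fun u => β * fld J lam Λ (win Λ) (fun _ => True) η u)
      (fun u _ => ?_)
    rw [← fld_bcp, abs_mul, abs_of_nonneg hβ]
    refine mul_le_mul_of_nonneg_left ?_ hβ
    unfold fld
    refine (Finset.abs_sum_le_sum_abs _ _).trans (Finset.sum_le_sum fun v _ => ?_)
    split_ifs with h
    · rw [abs_mul, abs_sp, mul_one]
      simp only [bcp, sp_true, mul_one]
      rw [abs_of_nonneg (cpl_nonneg hJ hl _ _)]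
    · simp

/-- Far apart volumes are independent. -/
theorem plus_prod {β J lam : ℝ} {D₁ D₂ : Finset Site} (hd : Disjoint D₁ D₂)
    (hc : ∀ u ∈ D₁, ∀ v ∈ D₂, cpl J lam u v = 0) {x y : Site} (hx : x ∈ D₁) (hy : y ∈ D₂) :
    gibbs J lam Vk β (some bcp) (D₁ ∪ D₂) (fun σ => ∏ z ∈ {x, y}, sp (σ z))
      = gibbs J lam Vk β (some bcp) D₁ (fun σ => sp (σ x))
        * gibbs J lam Vk β (some bcp) D₂ (fun σ => sp (σ y)) := by
  set D := D₁ ∪ D₂ with hDdef
  have hxy : x ≠ y := by
    rintro rfl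
    exact (Finset.disjoint_left.1 hd) hx hy
  have hW := window_win D
  have hW₁ : Window D₁ (win D) := ⟨Finset.subset_union_left.trans hW.1,
    fun u hu v hv => hW.2 u (Finset.mem_union_left _ hu) v hv⟩
  have hW₂ : Window D₂ (win D) := ⟨Finset.subset_union_right.trans hW.1,
    fun u hu v hv => hW.2 u (Finset.mem_union_right _ hu) v hv⟩
  rw [gibbs_plus hW, gibbs_plus hW₁, gibbs_plus hW₂]
  let e₁ : D₁ → D := fun i => ⟨i.1, Finset.mem_union_left _ i.2⟩
  let e₂ : D₂ → D := fun i => ⟨i.1, Finset.mem_union_right _ i.2⟩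
  have hb : Function.Bijective (Sum.elim e₁ e₂) := by
    constructor
    · rintro (i | i) (j | j) hij
      · simp only [Sum.elim_inl, e₁, Subtype.mk.injEq] at hij
        rw [Subtype.ext hij]
      · simp only [Sum.elim_inl, Sum.elim_inr, e₁, e₂, Subtype.mk.injEq] at hij
        exact absurd j.2 (hij ▸ Finset.disjoint_left.1 hd i.2)
      · simp only [Sum.elim_inl, Sum.elim_inr, e₁, e₂, Subtype.mk.injEq] at hij
        exact absurd i.2 (hij ▸ Finset.disjoint_left.1 hd j.2)
      · simp only [Sum.elim_inr, e₂, Subtype.mk.injEq] at hij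
        rw [Subtype.ext hij]
    · rintro ⟨z, hz⟩
      rcases Finset.mem_union.1 hz with h | h
      · exact ⟨Sum.inl ⟨z, h⟩, rfl⟩
      · exact ⟨Sum.inr ⟨z, h⟩, rfl⟩
  have hpf₁ : ∀ u ∈ D₁, pf β J lam D (win D) u = pf β J lam D₁ (win D) u := by
    intro u hu
    unfold pf
    congr 1
    refine Finset.sum_subset ?_ ?_
    · exact Finset.sdiff_subset_sdiff (subset_refl _) Finset.subset_union_left
    · intro v hv hv'
      rw [Finset.mem_sdiff] at hv hv'
      have : v ∈ D := by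
        by_contra h; exact hv' ⟨hv.1, h⟩
      rcases Finset.mem_union.1 this with h | h
      · exact absurd h hv.2
      · exact hc u hu v h
  have hpf₂ : ∀ u ∈ D₂, pf β J lam D (win D) u = pf β J lam D₂ (win D) u := by
    intro u hu
    unfold pf
    congr 1
    refine Finset.sum_subset ?_ ?_
    · exact Finset.sdiff_subset_sdiff (subset_refl _) Finset.subset_union_right
    · intro v hv hv'
      rw [Finset.mem_sdiff] at hv hv'
      have : v ∈ D := by
        by_contra h; exact hv' ⟨hv.1, h⟩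
      rcases Finset.mem_union.1 this with h | h
      · rw [cpl_comm]; exact hc v h u hu
      · exact absurd h hv.2
  have hex : ∀ s : D → Bool, ex (KK β J lam D) (fun i => pf β J lam D (win D) i) s
      = ex (KK β J lam D₁) (fun i => pf β J lam D₁ (win D) i) (fun i => s (e₁ i))
        + ex (KK β J lam D₂) (fun i => pf β J lam D₂ (win D) i) (fun i => s (e₂ i)) := by
    intro s
    have hσ : ∀ i : D, exs D bcp s i = s i := fun i => exs_mem i.2
    rw [ex_eq_exS β J lam D (pf β J lam D (win D)) (σ := exs D bcp s) hσ,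
      ex_eq_exS β J lam D₁ (pf β J lam D₁ (win D)) (σ := exs D bcp s) (fun i => hσ (e₁ i)),
      ex_eq_exS β J lam D₂ (pf β J lam D₂ (win D)) (σ := exs D bcp s) (fun i => hσ (e₂ i))]
    unfold exS
    have hA := double_union hd (fun u v => β / 2 * cpl J lam u v *
      (sp (exs D bcp s u) * sp (exs D bcp s v))) (fun u v => by rw [cpl_comm]; ring)
    have hB := Finset.sum_union hd (f := fun u => pf β J lam D (win D) u * sp (exs D bcp s u))
    rw [← hDdef] at hA hB
    rw [hA, hB]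
    have h0 : ∑ u ∈ D₁, ∑ v ∈ D₂, β / 2 * cpl J lam u v *
        (sp (exs D bcp s u) * sp (exs D bcp s v)) = 0 := by
      refine Finset.sum_eq_zero fun u hu => Finset.sum_eq_zero fun v hv => ?_
      rw [hc u hu v hv]; ring
    have h1 : ∑ u ∈ D₁, pf β J lam D (win D) u * sp (exs D bcp s u)
        = ∑ u ∈ D₁, pf β J lam D₁ (win D) u * sp (exs D bcp s u) :=
      Finset.sum_congr rfl fun u hu => by rw [hpf₁ u hu]
    have h2 : ∑ u ∈ D₂, pf β J lam D (win D) u * sp (exs D bcp s u)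
        = ∑ u ∈ D₂, pf β J lam D₂ (win D) u * sp (exs D bcp s u) :=
      Finset.sum_congr rfl fun u hu => by rw [hpf₂ u hu]
    rw [h0, h1, h2]
    ring
  rw [← ev_prod hb hex]
  congr 1
  funext s
  rw [Finset.prod_pair hxy, exs_mem (Finset.mem_union_left _ hx),
    exs_mem (Finset.mem_union_right _ hy), exs_mem hx, exs_mem hy]

/-- symmetry of the plus state under lattice symmetries -/
theorem plus_map {β J lam : ℝ} (f : Site ≃ Site) (hf : ∀ u v, dsq (f u) (f v) = dsq u v)
    (Λ : Finset Site) (x : Site) :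
    gibbs J lam Vk β (some bcp) (Λ.map f.toEmbedding) (fun σ => sp (σ (f x)))
      = gibbs J lam Vk β (some bcp) Λ (fun σ => sp (σ x)) := by
  have hW := window_win Λ
  have hW' : Window (Λ.map f.toEmbedding) ((win Λ).map f.toEmbedding) := by
    refine ⟨Finset.map_subset_map.2 hW.1, fun u hu v hv => ?_⟩
    rw [Finset.mem_map_equiv] at hu ⊢
    refine hW.2 _ hu _ ?_
    rw [← hf, f.apply_symm_apply, f.apply_symm_apply]
    exact hv
  rw [gibbs_plus hW, gibbs_plus hW']
  let e : Λ ↪ (Λ.map f.toEmbedding : Finset Site) := ⟨fun i => ⟨f i.1, by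
    rw [Finset.mem_map]; exact ⟨i.1, i.2, rfl⟩⟩, fun i j hij => by
      have := congrArg Subtype.val hij
      exact Subtype.ext (f.injective this)⟩
  have hx : ∀ (s' : ↥(Λ.map f.toEmbedding) → Bool) (x : Site),
      exs (Λ.map f.toEmbedding) bcp s' (f x) = exs Λ bcp (fun i => s' (e i)) x := by
    intro s' x
    by_cases h : x ∈ Λ
    · have h' : f x ∈ Λ.map f.toEmbedding := by rw [Finset.mem_map]; exact ⟨x, h, rfl⟩
      rw [exs_mem h, exs_mem h']
      rfl
    · have h' : f x ∉ Λ.map f.toEmbedding := by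
        rw [Finset.mem_map]
        rintro ⟨y, hy, hyx⟩
        exact h (f.injective hyx ▸ hy)
      rw [exs_not_mem h, exs_not_mem h']
      rfl
  have hpf : ∀ u, pf β J lam (Λ.map f.toEmbedding) ((win Λ).map f.toEmbedding) (f u)
      = pf β J lam Λ (win Λ) u := by
    intro u
    unfold pf
    rw [← Finset.map_sdiff, Finset.sum_map]
    simp only [Equiv.coe_toEmbedding, cpl, hf]
  have hex : ∀ s', ex (KK β J lam (Λ.map f.toEmbedding))
      (fun i => pf β J lam (Λ.map f.toEmbedding) ((win Λ).map f.toEmbedding) i) s'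
      = ex (KK β J lam Λ) (fun i => pf β J lam Λ (win Λ) i) (fun i => s' (e i)) := by
    intro s'
    rw [ex_eq_exS β J lam _ (pf β J lam (Λ.map f.toEmbedding) ((win Λ).map f.toEmbedding))
        (σ := exs _ bcp s') (fun i => exs_mem i.2),
      ex_eq_exS β J lam _ (pf β J lam Λ (win Λ)) (σ := exs _ bcp (fun i => s' (e i)))
        (fun i => exs_mem i.2)]
    unfold exS
    simp only [Finset.sum_map, Equiv.coe_toEmbedding, hx, cpl, hf, hpf]
  rw [← ev_comp e hex]
  congr 1
  funext s'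
  rw [hx]

/-- Block L: the two-point function of a plane state is at most the square of the one-point
function with plus boundary conditions. -/
theorem plane_le {J lam β : ℝ} (hJ : 0 < J) (hl : 0 < lam) (hβ : 0 < β) {μ : Measure Config}
    (hμ : IsPlaneState J lam Vk β μ) {N n : ℕ} (hn : N + 3 ≤ n) :
    ∫ σ, sp (σ (0, 0)) * sp (σ ((n : ℤ), (n : ℤ))) ∂μ
      ≤ (gibbs J lam Vk β (some bcp) (dia N) (fun σ => sp (σ (0, 0)))) ^ 2 := by
  obtain ⟨_, _, Λ, b, hΛ, hlim⟩ := hμ
  set t : Site := ((n : ℤ), (n : ℤ)) with ht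
  set D₁ := dia N with hD₁
  set D₂ := (dia N).map (tr t).toEmbedding with hD₂
  have hm₂ : ∀ {v : Site}, v ∈ D₂ → |v.1 - n| + |v.2 - n| ≤ N := by
    intro v hv
    rw [hD₂, Finset.mem_map_equiv, mem_dia] at hv
    simpa [tr, ht, sub_eq_add_neg] using hv
  have hfar : ∀ u ∈ D₁, ∀ v ∈ D₂, 5 < dsq u v := by
    intro u hu v hv
    rw [hD₁, mem_dia] at hu
    have hv' := hm₂ hv
    have h1 := le_abs_self u.1
    have h2 := le_abs_self u.2
    have h3 := neg_abs_le (v.1 - n)
    have h4 := neg_abs_le (v.2 - n)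
    have h5 : (6:ℤ) ≤ (v.1 - u.1) + (v.2 - u.2) := by
      have : (N : ℤ) + 3 ≤ n := by exact_mod_cast hn
      omega
    simp only [dsq]
    nlinarith [sq_nonneg ((v.1 - u.1) - (v.2 - u.2))]
  have hd : Disjoint D₁ D₂ := by
    rw [Finset.disjoint_left]
    intro u hu hu'
    have := hfar u hu u hu'
    rw [dsq_self] at this
    omega
  have hc : ∀ u ∈ D₁, ∀ v ∈ D₂, cpl J lam u v = 0 := by
    intro u hu v hv
    have := hfar u hu v hv
    unfold cpl
    rw [if_neg (by omega), if_neg (by omega)]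
  have h0 : ((0, 0) : Site) ∈ D₁ := by rw [hD₁, mem_dia]; simp
  have hx : t ∈ D₂ := by
    rw [hD₂, Finset.mem_map_equiv, mem_dia]
    simp [tr]
  have hne : ((0, 0) : Site) ≠ t := by
    rintro h
    exact (Finset.disjoint_left.1 hd) h0 (h ▸ hx)
  have hA : ({(0, 0), t} : Finset Site) ⊆ D₁ ∪ D₂ := by
    intro x hx'
    simp only [Finset.mem_insert, Finset.mem_singleton] at hx'
    rcases hx' with rfl | rfl
    · exact Finset.mem_union_left _ h0
    · exact Finset.mem_union_right _ hx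
  have h1 := hlim {(0, 0), t}
  have hev : ∀ᶠ k in atTop, D₁ ∪ D₂ ⊆ Λ k := by
    have : ∀ᶠ k in atTop, ∀ x ∈ D₁ ∪ D₂, x ∈ Λ k :=
      (Filter.eventually_all_finset _).2 fun x _ => hΛ x
    exact this
  have h2 : ∫ σ, ∏ x ∈ ({(0, 0), t} : Finset Site), sp (σ x) ∂μ
      ≤ gibbs J lam Vk β (some bcp) (D₁ ∪ D₂) (fun σ => ∏ x ∈ {(0, 0), t}, sp (σ x)) := by
    refine le_of_tendsto h1 ?_
    filter_upwards [hev] with k hk
    exact gibbs_le_plus hβ.le hJ.le hl.le (b k) hk hA
  rw [plus_prod hd hc h0 hx] at h2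
  have h3 : gibbs J lam Vk β (some bcp) D₂ (fun σ => sp (σ t))
      = gibbs J lam Vk β (some bcp) (dia N) (fun σ => sp (σ (0, 0))) := by
    have := plus_map (β := β) (J := J) (lam := lam) (tr t) (dsq_tr t) (dia N) (0, 0)
    have e : tr t (0, 0) = t := by simp [tr]
    rw [e] at this
    exact this
  rw [h3] at h2
  simp only [Finset.prod_pair hne] at h2
  rw [sq]
  exact h2

end Vale.Agent.P144.H436
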