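import Vale.Agent.P144.H436.TipLim

/-!
The kernels with a corner at a tip vanish in the scaling limit.
-/

namespace Vale.Agent.P144.H436

open Filter Topology Complex Vale.Agent.P144 Vale.Agent.P144.AL Vale.Agent.P144.H170

section

variable {ι κ : Type*} [Fintype κ] {r : κ → ι → Site} {ζ : κ → ℂ} {a : ι → ℝ} {N : ι → ℕ}

theorem tendsto_nf {l : Filter ι} {x : ι → Site} {z : ℂ}
    (h : Tendsto (fun k => pt (a k) (x k)) l (𝓝 z)) :
    Tendsto (fun k => (k, x k)) l (nf l a z) :=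
  tendsto_inf.2 ⟨tendsto_id.prodMk tendsto_top, tendsto_comap_iff.2 h⟩

theorem far_ev {l : Filter ι} (ha : Tendsto a l (𝓝[>] 0)) {x y : ι → Site} {z w : ℂ} (hzw : z ≠ w)
    (hx : Tendsto (fun k => pt (a k) (x k)) l (𝓝 z))
    (hy : Tendsto (fun k => pt (a k) (y k)) l (𝓝 w)) (m : ℤ) :
    ∀ᶠ k in l, m < |(x k).1 - (y k).1| + |(x k).2 - (y k).2| := by
  have h0 : Tendsto a l (𝓝 0) := ha.mono_right nhdsWithin_le_nhds
  have hpos : ∀ᶠ k in l, 0 < a k := ha.eventually self_mem_nhdsWithin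
  have t1 := ((continuous_re.tendsto _).comp (hx.sub hy)).abs
  have t2 := ((continuous_im.tendsto _).comp (hx.sub hy)).abs
  have t3 := t1.add t2
  have hd : 0 < |(z - w).re| + |(z - w).im| := by
    by_contra hc
    push Not at hc
    have h1 := abs_nonneg (z - w).re
    have h2 := abs_nonneg (z - w).im
    have h3 : (z - w).re = 0 := abs_eq_zero.1 (by linarith)
    have h4 : (z - w).im = 0 := abs_eq_zero.1 (by linarith)
    exact hzw (sub_eq_zero.1 (Complex.ext h3 h4))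
  have t4 := h0.mul_const (m : ℝ)
  rw [zero_mul] at t4
  filter_upwards [t4.eventually_lt t3 hd, hpos] with k h1 h2
  simp only [Function.comp, sub_re, sub_im, pt, ← mul_sub, abs_mul, abs_of_pos h2, ← mul_add] at h1
  have h3 := lt_of_mul_lt_mul_left h1 h2.le
  exact_mod_cast h3

theorem inj_ev {l : Filter ι} (ha : Tendsto a l (𝓝[>] 0))
    (hr : ∀ p, Tendsto (fun k => pt (a k) (r p k)) l (𝓝 (ζ p))) (hζi : Function.Injective ζ) :
    ∀ᶠ k in l, Function.Injective fun p => r p k := by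
  have h : ∀ᶠ k in l, ∀ p q, p ≠ q → (0:ℤ) < |(r p k).1 - (r q k).1| + |(r p k).2 - (r q k).2| := by
    rw [eventually_all]
    intro p
    rw [eventually_all]
    intro q
    by_cases hpq : p = q
    · exact Eventually.of_forall fun k hc => absurd hpq hc
    · filter_upwards [far_ev ha (fun hc => hpq (hζi hc)) (hr p) (hr q) 0] with k h1 _
      exact h1
  filter_upwards [h] with k h1 p q hpq
  by_contra hc
  have := h1 p q hc
  simp only at hpq
  rw [hpq] at this
  simp at this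

theorem cnr_ev {l : Filter ι} (ha : Tendsto a l (𝓝[>] 0))
    (hr : ∀ p, Tendsto (fun k => pt (a k) (r p k)) l (𝓝 (ζ p))) {v : ι → Site} {ω : ℂ}
    (hv : Tendsto (fun k => pt (a k) (v k)) l (𝓝 ω)) (hne : ∀ p, ζ p ≠ ω) :
    ∀ᶠ k in l, ∀ p, v k ∉ AL.cnr (r p k) := by
  rw [eventually_all]
  intro p
  filter_upwards [far_ev ha (hne p).symm hv (hr p) 2] with k h1 hc
  rcases AL.mem_cnr.1 hc with h | h | h | h <;> rw [h] at h1 <;> simp at h1

/-- Corners approach the same point as their faces. -/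
theorem face_lim {l : Filter ι} (ha : Tendsto a l (𝓝[>] 0)) {c : ι → Cn} {z : ℂ}
    (hc : ∀ᶠ k in l, (c k).1 ∈ AL.cnr (c k).2)
    (hcz : Tendsto (fun k => pt (a k) (c k).1) l (𝓝 z)) :
    Tendsto (fun k => pt (a k) (c k).2) l (𝓝 z) := by
  have h0 : Tendsto a l (𝓝 0) := ha.mono_right nhdsWithin_le_nhds
  have hpos : ∀ᶠ k in l, 0 < a k := ha.eventually self_mem_nhdsWithin
  have h1 : Tendsto (fun k => pt (a k) (c k).2 - pt (a k) (c k).1) l (𝓝 0) := by
    have h2 := h0.mul_const 2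
    rw [zero_mul] at h2
    refine squeeze_zero_norm' ?_ h2
    filter_upwards [hpos, hc] with k h3 h4
    refine (Complex.norm_le_abs_re_add_abs_im _).trans ?_
    simp only [sub_re, sub_im, pt, ← mul_sub, abs_mul, abs_of_pos h3, ← mul_add]
    refine mul_le_mul_of_nonneg_left ?_ h3.le
    rcases AL.mem_cnr.1 h4 with h | h | h | h <;> rw [h] <;> norm_num
  have := h1.add hcz
  rw [zero_add] at this
  exact this.congr fun k => by ring

/-- Kernel between a tip and a bulk corner. -/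
theorem C2_bulk {l : Filter ι} (ha : Tendsto a l (𝓝[>] 0))
    (hN : Tendsto (fun k => a k * ((N k : ℝ) + 1)) l (𝓝 1))
    (hr : ∀ p, Tendsto (fun k => pt (a k) (r p k)) l (𝓝 (ζ p)))
    (hζ : ∀ p, ζ p ∈ Dia) (hζi : Function.Injective ζ) (i : Fin 4) {c : ι → Cn} {z : ℂ}
    (hc : ∀ᶠ k in l, (c k).1 ∈ AL.cnr (c k).2)
    (hcz : Tendsto (fun k => pt (a k) (c k).1) l (𝓝 z)) (hz : z ∈ Dia) (hzζ : ∀ p, z ≠ ζ p) :
    Tendsto (fun k => (√(a k))⁻¹ * Wf (dia (N k)) (rM fun p => r p k)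
      [c k, (tip (N k) i, tf (N k) i)]) l (𝓝 0) := by
  rw [tendsto_iff_ultrafilter]
  intro U hU
  have ha' := ha.mono_left hU
  have hN' := hN.mono_left hU
  have hr' := fun p => (hr p).mono_left hU
  have hc' := hc.filter_mono hU
  have hcz' := hcz.mono_left hU
  have hinj := inj_ev (l := (U : Filter ι)) ha' hr' hζi
  have hmem := mem_dia_ev (l := (U : Filter ι)) ha' hN' hz hcz'
  obtain ⟨tA0, tB0, tC0, tD0⟩ := tip_lim i (l := U) ha' hN' hr' hζ hζi hinj z hz hzζ
  have hn := tendsto_nf (a := a) (face_lim (l := (U : Filter ι)) ha' hc' hcz')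
  have s := (((tA0.comp hn).abs.add (tB0.comp hn).abs).add (tC0.comp hn).abs).add
    (tD0.comp hn).abs
  rw [abs_zero, add_zero, add_zero, add_zero] at s
  refine squeeze_zero_norm' ?_ s
  filter_upwards [hc', hmem] with k h1 h2
  rw [norm_mul, Real.norm_eq_abs, Real.norm_eq_abs, Wf_tip _ i h2]
  simp only [Function.comp, abs_mul]
  have p1 := abs_nonneg (tA (N k) (rM fun p => r p k) i (c k).2)
  have p2 := abs_nonneg (tB (N k) (rM fun p => r p k) i (c k).2)
  have p3 := abs_nonneg (tC' (N k) (rM fun p => r p k) i (c k).2)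
  have p4 := abs_nonneg (tD (N k) (rM fun p => r p k) i (c k).2)
  rw [← mul_add, ← mul_add, ← mul_add]
  refine mul_le_mul_of_nonneg_left ?_ (abs_nonneg _)
  rcases AL.mem_cnr.1 h1 with h | h | h | h
  · have e : tA (N k) (rM fun p => r p k) i (c k).2 =
        AL.QQ (dia (N k)) ((c k).2 ::ₘ (rM fun p => r p k)) ((c k).1 ::ₘ {tip (N k) i}) /
          AL.QQ (dia (N k)) (rM fun p => r p k) 0 := by
      unfold tA xA
      rw [if_pos (h ▸ h2), ← h]
    rw [← e]; linarith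
  · have e : tB (N k) (rM fun p => r p k) i (c k).2 =
        AL.QQ (dia (N k)) ((c k).2 ::ₘ (rM fun p => r p k)) ((c k).1 ::ₘ {tip (N k) i}) /
          AL.QQ (dia (N k)) (rM fun p => r p k) 0 := by
      unfold tB xB
      rw [if_pos (h ▸ h2), ← h]
    rw [← e]; linarith
  · have e : tC' (N k) (rM fun p => r p k) i (c k).2 =
        AL.QQ (dia (N k)) ((c k).2 ::ₘ (rM fun p => r p k)) ((c k).1 ::ₘ {tip (N k) i}) /
          AL.QQ (dia (N k)) (rM fun p => r p k) 0 := by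
      unfold tC' xC
      rw [if_pos (h ▸ h2), ← h]
    rw [← e]; linarith
  · have e : tD (N k) (rM fun p => r p k) i (c k).2 =
        AL.QQ (dia (N k)) ((c k).2 ::ₘ (rM fun p => r p k)) ((c k).1 ::ₘ {tip (N k) i}) /
          AL.QQ (dia (N k)) (rM fun p => r p k) 0 := by
      unfold tD xD
      rw [if_pos (h ▸ h2), ← h]
    rw [← e]; linarith

theorem tendsto_of_sq {α : Type*} {l : Filter α} {f g : α → ℝ} (hg : Tendsto g l (𝓝 0))
    (h : ∀ᶠ x in l, f x ^ 2 ≤ g x) : Tendsto f l (𝓝 0) := by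
  have h1 : Tendsto (fun x => √(g x)) l (𝓝 0) := by
    have := (Real.continuous_sqrt.tendsto 0).comp hg
    rwa [Real.sqrt_zero] at this
  refine squeeze_zero_norm' ?_ h1
  filter_upwards [h] with x hx
  rw [Real.norm_eq_abs]
  exact Real.abs_le_sqrt hx

/-- Kernel between a tip and a source. -/
theorem C2_src {l : Filter ι} (ha : Tendsto a l (𝓝[>] 0))
    (hN : Tendsto (fun k => a k * ((N k : ℝ) + 1)) l (𝓝 1))
    (hr : ∀ p, Tendsto (fun k => pt (a k) (r p k)) l (𝓝 (ζ p)))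
    (hζ : ∀ p, ζ p ∈ Dia) (hζi : Function.Injective ζ) (i : Fin 4) {v : ι → Site} {ω : ℂ}
    (hv : Tendsto (fun k => pt (a k) (v k)) l (𝓝 ω)) (hω : ω ∈ Dia) (hne : ∀ p, ζ p ≠ ω) :
    Tendsto (fun k => Wf (dia (N k)) (v k ::ₘ rM fun p => r p k)
      [(tip (N k) i, tf (N k) i), (v k, v k)]) l (𝓝 0) := by
  have hinj := inj_ev ha hr hζi
  have hcn := cnr_ev ha hr hv hne
  have d1 := deep_ev ha hN hω hv 1
  have d2 : ∀ᶠ k in l, ∀ p, |(r p k).1| + |(r p k).2| + 4 ≤ (N k : ℤ) :=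
    eventually_all.2 fun p => deep_ev ha hN (hζ p) (hr p) 4
  have hg := ((green_tip_nf ha hN i hω).comp (tendsto_nf hv)).const_mul 5586
  rw [mul_zero] at hg
  refine tendsto_of_sq hg ?_
  filter_upwards [hinj, hcn, d1, d2] with k k1 k2 k3 k4
  have hvd : v k ∈ dia (N k) := by rw [AL.mem_dia]; lia
  obtain ⟨Hs, Hf, hH, _, hm⟩ := AL.Xj_mass (rM_nodup k1) k3 (fun x hx => by
    obtain ⟨p, rfl⟩ := mem_rM.1 hx
    exact k4 p) (fun x hx => by
    obtain ⟨p, rfl⟩ := mem_rM.1 hx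
    exact k2 p)
  have h := spr_QQ (Λ := dia (N k)) (rM fun p => r p k) (A := {v k}) (by simpa using hvd)
    (zj (dia (N k)) (rM fun p => r p k) (v k))
  have h' := h
  rw [tauR_rM, theA_single] at h'
  have m1 : ∀ T : Finset Site, ∑ w ∈ T, |AL.lap Hs w| ≤ 5586 := fun T => by
    have := hm T
    have h2 : 0 ≤ ∑ w ∈ T, |AL.lap Hf w| := Finset.sum_nonneg fun _ _ => abs_nonneg _
    linarith
  have m2 : ∀ T : Finset Site, ∑ w ∈ T, |AL.lap Hf w| ≤ 5586 := fun T => by
    have := hm T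
    have h2 : 0 ≤ ∑ w ∈ T, |AL.lap Hs w| := Finset.sum_nonneg fun _ _ => abs_nonneg _
    linarith
  have hb := (H_bounds h' hH m1 m2 (tip (N k) i)).1
  obtain ⟨u, hu, huo⟩ := tip_out (N k) i
  have h0 := h.Hf_zero hH hu huo
  have e := hH.a (tip (N k) i).1 (tip (N k) i).2
  simp only [Prod.mk.eta] at e
  rw [h0, sub_zero] at e
  rw [← sq_abs, Wf_tip' _ i hvd, sq_abs, ← e]
  refine hb.trans (le_of_eq ?_)
  simp only [Finset.univ_unique, Finset.sum_const, Finset.card_singleton, one_smul,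
    Function.comp]
  rw [green_symm _ _ _ hvd (tip_mem _ i)]

theorem tip_dist (N : ℕ) {i j : Fin 4} (hij : i ≠ j) :
    ((N : ℤ) + 1) ≤ 1 + |(tip N i - otip N j).1| + |(tip N i - otip N j).2| := by
  have h1 := le_abs_self (tip N i - otip N j).1
  have h2 := neg_le_abs (tip N i - otip N j).1
  have h3 := le_abs_self (tip N i - otip N j).2
  have h4 := neg_le_abs (tip N i - otip N j).2
  generalize hx : |(tip N i - otip N j).1| = x at *
  generalize hy : |(tip N i - otip N j).2| = y at *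
  clear hx hy
  fin_cases i <;> fin_cases j <;> first | exact absurd rfl hij | (
    simp [tip, otip] at h1 h2 h3 h4
    omega)

/-- Kernel between two tips. -/
theorem C2_tips {l : Filter ι} (ha : Tendsto a l (𝓝[>] 0))
    (hN : Tendsto (fun k => a k * ((N k : ℝ) + 1)) l (𝓝 1))
    (hr : ∀ p, Tendsto (fun k => pt (a k) (r p k)) l (𝓝 (ζ p)))
    (hζ : ∀ p, ζ p ∈ Dia) (hζi : Function.Injective ζ) {i j : Fin 4} (hij : i ≠ j) :
    Tendsto (fun k => Wf (dia (N k)) (rM fun p => r p k)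
      [(tip (N k) i, tf (N k) i), (tip (N k) j, tf (N k) j)]) l (𝓝 0) := by
  have hinj := inj_ev ha hr hζi
  have d2 : ∀ᶠ k in l, ∀ p, |(r p k).1| + |(r p k).2| + 4 ≤ (N k : ℤ) :=
    eventually_all.2 fun p => deep_ev ha hN (hζ p) (hr p) 4
  have h0 : Tendsto a l (𝓝 0) := ha.mono_right nhdsWithin_le_nhds
  have hpos : ∀ᶠ k in l, 0 < a k := ha.eventually self_mem_nhdsWithin
  obtain ⟨C, hC, hb⟩ := green_tip
  have hg := ((h0.div hN one_ne_zero).pow 2).const_mul (448 * (2 * C))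
  rw [zero_div, zero_pow two_ne_zero, mul_zero] at hg
  refine tendsto_of_sq hg ?_
  filter_upwards [hinj, d2, hpos] with k k1 k2 k3
  obtain ⟨Hs, Hf, hH, _, hm1, hm2⟩ := tip_mass (rM_nodup k1) (fun x hx => by
    obtain ⟨p, rfl⟩ := mem_rM.1 hx
    exact k2 p) j
  have h := tip_spr (N k) (rM fun p => r p k) j
  have h' := h
  rw [tauR_rM, theA_single] at h'
  have m1 : ∀ T : Finset Site, ∑ w ∈ T, |AL.lap Hs w| ≤ 448 := fun T =>
    (hm1 T).trans (by norm_num)
  have hbd := (H_bounds h' hH m1 hm2 (tip (N k) i)).1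
  obtain ⟨u, hu, huo⟩ := tip_out (N k) i
  have hf0 := h.Hf_zero hH hu huo
  have e := hH.a (tip (N k) i).1 (tip (N k) i).2
  simp only [Prod.mk.eta] at e
  rw [hf0, sub_zero] at e
  have hA : ∀ u ∈ tip (N k) i ::ₘ ({tip (N k) j} : Multiset Site), u ∈ dia (N k) := by
    intro u hu
    rcases Multiset.mem_cons.1 hu with rfl | hu
    · exact tip_mem _ i
    · rw [Multiset.mem_singleton] at hu
      rw [hu]; exact tip_mem _ j
  have e2 : |Wf (dia (N k)) (rM fun p => r p k)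
      [(tip (N k) i, tf (N k) i), (tip (N k) j, tf (N k) j)]| =
      |tA (N k) (rM fun p => r p k) j (tip (N k) i)| := by
    rw [Wf_tip _ j (tip_mem _ i), abs_div]
    simp only
    rw [QQ_tf _ i _ hA, ← QQ_tipf _ i _ hA, ← abs_div]
    unfold tA xA
    rw [if_pos (tip_mem _ i)]
  rw [← sq_abs, e2, sq_abs, ← e]
  refine hbd.trans ?_
  simp only [Finset.univ_unique, Finset.sum_const, Finset.card_singleton, one_smul]
  have hgr := hb (N k) j (tip (N k) i)
  have hdist : ((N k : ℝ) + 1) ≤ 1 + |(((tip (N k) i - otip (N k) j).1 : ℤ) : ℝ)| +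
      |(((tip (N k) i - otip (N k) j).2 : ℤ) : ℝ)| := by
    have := tip_dist (N k) hij
    exact_mod_cast this
  have h1 : C / (1 + |(((tip (N k) i - otip (N k) j).1 : ℤ) : ℝ)| +
      |(((tip (N k) i - otip (N k) j).2 : ℤ) : ℝ)|) ^ 2 ≤ C / ((N k : ℝ) + 1) ^ 2 :=
    div_le_div_of_nonneg_left hC.le (by positivity) (pow_le_pow_left₀ (by positivity) hdist 2)
  have h2 : (a k / (a k * ((N k : ℝ) + 1))) ^ 2 = 1 / ((N k : ℝ) + 1) ^ 2 := by
    field_simp
  simp only [Pi.div_apply]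
  rw [h2]
  calc 448 * green (dia (N k)) (tv (fun k => N k) j () k) (tip (N k) i) ≤
        448 * (C / ((N k : ℝ) + 1) ^ 2 + C / ((N k : ℝ) + 1) ^ 2) :=
        mul_le_mul_of_nonneg_left (hgr.trans (add_le_add h1 le_rfl)) (by norm_num)
    _ = _ := by ring

end

end Vale.Agent.P144.H436
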