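import Vale.Agent.P144.H436.Ker
import Vale.Agent.P144.H436.Corn

/-!
The Green function of the square with the pole at a tip.
-/

namespace Vale.Agent.P144.H436

open Finset Vale.Agent.P144 Filter Topology

/-- difference of the two second differences of the potential kernel -/
noncomputable def psi (p : Site) : ℝ :=
  ker (p + (1, 0)) + ker (p + (-1, 0)) - ker (p + (0, 1)) - ker (p + (0, -1))

theorem lap_tr (u : Site → ℝ) (d x : Site) : lap (fun y => u (y + d)) x = lap u (x + d) := by
  unfold lap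
  simp only [add_right_comm]

theorem lap_psi (p : Site) : lap psi p = (if p = (-1, 0) then 1 else 0) +
    (if p = (1, 0) then 1 else 0) - (if p = (0, -1) then 1 else 0) -
    (if p = (0, 1) then 1 else 0) := by
  have h : lap psi p = lap ker (p + (1, 0)) + lap ker (p + (-1, 0)) - lap ker (p + (0, 1)) -
      lap ker (p + (0, -1)) := by
    rw [← lap_tr, ← lap_tr, ← lap_tr ker (0, 1), ← lap_tr ker (0, -1)]
    unfold lap psi
    ring
  rw [h, lap_ker, lap_ker, lap_ker, lap_ker]
  obtain ⟨s, t⟩ := p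
  have e1 : ((s, t) : Site) + (1, 0) = 0 ↔ ((s, t) : Site) = (-1, 0) := by
    simp only [Prod.mk_add_mk, Prod.mk_eq_zero, Prod.mk.injEq]; omega
  have e2 : ((s, t) : Site) + (-1, 0) = 0 ↔ ((s, t) : Site) = (1, 0) := by
    simp only [Prod.mk_add_mk, Prod.mk_eq_zero, Prod.mk.injEq]; omega
  have e3 : ((s, t) : Site) + (0, 1) = 0 ↔ ((s, t) : Site) = (0, -1) := by
    simp only [Prod.mk_add_mk, Prod.mk_eq_zero, Prod.mk.injEq]; omega
  have e4 : ((s, t) : Site) + (0, -1) = 0 ↔ ((s, t) : Site) = (0, 1) := by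
    simp only [Prod.mk_add_mk, Prod.mk_eq_zero, Prod.mk.injEq]; omega
  simp only [e1, e2, e3, e4]

theorem psi_diag {s t : ℤ} (h : |s| = |t|) : psi (s, t) = 0 := by
  unfold psi
  simp only [Prod.mk_add_mk, add_zero]
  rcases abs_eq_abs.1 h with rfl | rfl
  · rw [ker_swap (s + 1) s, ker_swap (s + -1) s]; ring
  · rw [← ker_negx (-t + 1) t, ← ker_negx (-t + -1) t, ker_negx t (t + 1), ker_negx t (t + -1),
      ker_swap t (t + 1), ker_swap t (t + -1)]
    have e1 : -(-t + 1) = t + -1 := by ring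
    have e2 : -(-t + -1) = t + 1 := by ring
    rw [e1, e2]; ring

theorem psi_bd : ∃ C : ℝ, 0 < C ∧ ∀ p : Site, |psi p| ≤ C / (1 + |(p.1:ℝ)| + |(p.2:ℝ)|) ^ 2 := by
  obtain ⟨C, hC, h⟩ := ker_grad2
  refine ⟨8 * C, by positivity, fun p => ?_⟩
  obtain ⟨s, t⟩ := p
  have h1 := h (s - 1, t) (1, 0) (1, 0) (Or.inl rfl) (Or.inl rfl)
  have h2 := h (s, t - 1) (0, 1) (0, 1) (Or.inr rfl) (Or.inr rfl)
  simp only [Prod.mk_add_mk, add_zero, sub_add_cancel] at h1 h2
  have e : psi (s, t) = ((ker (s + 1, t) - ker (s, t)) - (ker (s, t) - ker (s - 1, t))) -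
      ((ker (s, t + 1) - ker (s, t)) - (ker (s, t) - ker (s, t - 1))) := by
    unfold psi
    simp only [Prod.mk_add_mk, add_zero, ← sub_eq_add_neg]
    ring
  have key : ∀ x y : ℝ, (1 + |x| + |y|) / 2 ≤ 1 + |x - 1| + |y| := by
    intro x y
    have := abs_sub_abs_le_abs_sub x 1
    rw [abs_one] at this
    linarith [abs_nonneg (x - 1), abs_nonneg y]
  have b1 : C / (1 + |((s - 1 : ℤ) : ℝ)| + |(t:ℝ)|) ^ 2 ≤ 4 * C / (1 + |(s:ℝ)| + |(t:ℝ)|) ^ 2 := by
    have k := key s t
    have e2 : 4 * C / (1 + |(s:ℝ)| + |(t:ℝ)|) ^ 2 = C / ((1 + |(s:ℝ)| + |(t:ℝ)|) / 2) ^ 2 := by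
      field_simp; ring
    rw [e2]
    push_cast
    exact div_le_div_of_nonneg_left hC.le (by positivity) (pow_le_pow_left₀ (by positivity) k 2)
  have b2 : C / (1 + |(s : ℝ)| + |((t - 1 : ℤ):ℝ)|) ^ 2 ≤ 4 * C / (1 + |(s:ℝ)| + |(t:ℝ)|) ^ 2 := by
    have k := key t s
    have e2 : 4 * C / (1 + |(s:ℝ)| + |(t:ℝ)|) ^ 2 = C / ((1 + |(s:ℝ)| + |(t:ℝ)|) / 2) ^ 2 := by
      field_simp; ring
    rw [e2]
    push_cast
    refine div_le_div_of_nonneg_left hC.le (by positivity) (pow_le_pow_left₀ (by positivity) ?_ 2)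
    linarith
  simp only
  rw [e]
  refine (abs_sub _ _).trans ?_
  calc _ ≤ 4 * C / (1 + |(s:ℝ)| + |(t:ℝ)|) ^ 2 + 4 * C / (1 + |(s:ℝ)| + |(t:ℝ)|) ^ 2 :=
        add_le_add (h1.trans b1) (h2.trans b2)
    _ = _ := by ring

/-- the exterior point next to a tip -/
def otip (N : ℕ) : Fin 4 → Site :=
  ![((N : ℤ) + 1, 0), (0, (N : ℤ) + 1), (-(N : ℤ) - 1, 0), (0, -(N : ℤ) - 1)]

/-- the sign in the comparison function -/
def sgt : Fin 4 → ℝ := ![-1, 1, -1, 1]

theorem green_tip : ∃ C : ℝ, 0 < C ∧ ∀ (N : ℕ) (i : Fin 4) (x : Site),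
    green (dia N) (tip N i) x ≤ C / (1 + |((x - otip N i).1 : ℝ)| + |((x - otip N i).2 : ℝ)|) ^ 2 +
      C / ((N : ℝ) + 1) ^ 2 := by
  obtain ⟨C, hC, hb⟩ := psi_bd
  refine ⟨C, hC, fun N i x => ?_⟩
  set c : ℝ := C / ((N : ℝ) + 1) ^ 2 with hc
  have hc0 : 0 ≤ c := by positivity
  by_cases hx : x ∈ dia N
  swap
  · rw [green_out hx]; positivity
  set v : Site → ℝ := fun y => sgt i * psi (y - otip N i) + c with hv
  have hlap : ∀ y, lap v y = sgt i * lap psi (y - otip N i) := by
    intro y
    have : lap psi (y - otip N i) = lap (fun z => psi (z + -otip N i)) y := by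
      rw [lap_tr, ← sub_eq_add_neg]
    rw [this]
    simp only [hv, ← sub_eq_add_neg]
    unfold lap
    ring
  have key := comparison' (Λ := dia N) (u := green (dia N) (tip N i)) (v := v) ?_ ?_ hx
  · refine key.trans ?_
    simp only [hv]
    refine add_le_add ?_ le_rfl
    refine le_trans ?_ (hb (x - otip N i))
    refine (le_abs_self _).trans ?_
    rw [abs_mul]
    have : |sgt i| = 1 := by fin_cases i <;> simp [sgt]
    rw [this, one_mul]
  · intro y hy
    rw [lap_green hy, hlap, lap_psi]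
    rw [mem_dia] at hy
    obtain ⟨s, t⟩ := y
    simp only at hy
    have h1 := abs_le.1 ((le_add_of_nonneg_right (abs_nonneg t)).trans hy)
    have h2 := abs_le.1 ((le_add_of_nonneg_left (abs_nonneg s)).trans hy)
    fin_cases i
    · simp only [sgt, otip, tip, Fin.zero_eta, Matrix.cons_val_zero, Prod.mk_sub_mk, Prod.mk.injEq]
      split_ifs <;> first | (exfalso; omega) | norm_num
    · simp only [sgt, otip, tip, Fin.mk_one, Matrix.cons_val_one, Matrix.cons_val_zero,
        Prod.mk_sub_mk, Prod.mk.injEq]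
      split_ifs <;> first | (exfalso; omega) | norm_num
    · simp only [sgt, otip, tip, Fin.reduceFinMk, Matrix.cons_val, Prod.mk_sub_mk, Prod.mk.injEq]
      split_ifs <;> first | (exfalso; omega) | norm_num
    · simp only [sgt, otip, tip, Fin.reduceFinMk, Matrix.cons_val, Prod.mk_sub_mk, Prod.mk.injEq]
      split_ifs <;> first | (exfalso; omega) | norm_num
  · intro y hy hn
    rw [green_out hy]
    -- the layer
    have hlay : |y.1| + |y.2| = (N : ℤ) + 1 := by
      obtain ⟨s, t⟩ := y
      rw [mem_dia] at hy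
      simp only [Prod.mk_add_mk, mem_dia, add_zero] at hn hy ⊢
      have a1 : ∀ k : ℤ, |s| ≤ |s + k| + |k| := fun k => by
        have := abs_add_le (s + k) (-k); rw [abs_neg] at this
        simpa using this
      have a2 : ∀ k : ℤ, |t| ≤ |t + k| + |k| := fun k => by
        have := abs_add_le (t + k) (-k); rw [abs_neg] at this
        simpa using this
      have b1 := a1 1
      have b2 := a1 (-1)
      have b3 := a2 1
      have b4 := a2 (-1)
      simp only [abs_one, abs_neg] at b1 b2 b3 b4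
      omega
    have hpos : ∀ p : Site, ((N : ℤ) + 1 ≤ 1 + |p.1| + |p.2| ∨ |p.1| = |p.2|) →
        0 ≤ sgt i * psi p + c := by
      intro p hp
      rcases hp with h | h
      · have h1 := hb p
        have h2 : C / (1 + |(p.1:ℝ)| + |(p.2:ℝ)|) ^ 2 ≤ c := by
          rw [hc]
          refine div_le_div_of_nonneg_left hC.le (by positivity)
            (pow_le_pow_left₀ (by positivity) ?_ 2)
          exact_mod_cast h
        have h3 : |sgt i * psi p| ≤ c := by
          rw [abs_mul]
          have : |sgt i| = 1 := by fin_cases i <;> simp [sgt]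
          rw [this, one_mul]
          exact h1.trans h2
        linarith [(abs_le.1 h3).1]
      · have : psi p = 0 := psi_diag (s := p.1) (t := p.2) h
        rw [this, mul_zero, zero_add]; exact hc0
    refine hpos _ ?_
    obtain ⟨s, t⟩ := y
    simp only at hlay
    fin_cases i
    · simp only [otip, Fin.zero_eta, Matrix.cons_val_zero, Prod.mk_sub_mk, sub_zero]
      rcases le_total 0 s with h | h
      · right
        rw [abs_of_nonneg h] at hlay
        have : s - ((N:ℤ) + 1) = -|t| := by omega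
        rw [this, abs_neg, abs_abs]
      · left
        have : |s - ((N:ℤ) + 1)| = -(s - ((N:ℤ) + 1)) := abs_of_nonpos (by omega)
        rw [this]; have := abs_nonneg t; omega
    · simp only [otip, Fin.mk_one, Matrix.cons_val_one, Matrix.cons_val_zero, Prod.mk_sub_mk,
        sub_zero]
      rcases le_total 0 t with h | h
      · right
        rw [abs_of_nonneg h] at hlay
        have : t - ((N:ℤ) + 1) = -|s| := by omega
        rw [this, abs_neg, abs_abs]
      · left
        have : |t - ((N:ℤ) + 1)| = -(t - ((N:ℤ) + 1)) := abs_of_nonpos (by omega)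
        rw [this]; have := abs_nonneg s; omega
    · simp only [otip, Fin.reduceFinMk, Matrix.cons_val, Prod.mk_sub_mk, sub_zero]
      rcases le_total s 0 with h | h
      · right
        rw [abs_of_nonpos h] at hlay
        have : s - (-(N:ℤ) - 1) = |t| := by omega
        rw [this, abs_abs]
      · left
        have : |s - (-(N:ℤ) - 1)| = (s - (-(N:ℤ) - 1)) := abs_of_nonneg (by omega)
        rw [this]; have := abs_nonneg t; omega
    · simp only [otip, Fin.reduceFinMk, Matrix.cons_val, Prod.mk_sub_mk, sub_zero]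
      rcases le_total t 0 with h | h
      · right
        rw [abs_of_nonpos h] at hlay
        have : t - (-(N:ℤ) - 1) = |s| := by omega
        rw [this, abs_abs]
      · left
        have : |t - (-(N:ℤ) - 1)| = (t - (-(N:ℤ) - 1)) := abs_of_nonneg (by omega)
        rw [this]; have := abs_nonneg s; omega

end Vale.Agent.P144.H436
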