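import Vale.Agent.P144.H436.TipMass
import Vale.Agent.P144.H170.XjLim
import Vale.Agent.P144.H365.Cont2

/-!
The spinor with the source at a tip vanishes in the scaling limit.
-/

namespace Vale.Agent.P144.H436

open Filter Topology Complex Metric Vale.Agent.P144 Vale.Agent.P144.H170

/-- The tips of the square. -/
noncomputable def tz : Fin 4 → ℂ := ![1, I, -1, -I]

theorem tz_re (i : Fin 4) : (tz i).re = ![1, 0, -1, 0] i := by fin_cases i <;> simp [tz]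

theorem tz_im (i : Fin 4) : (tz i).im = ![0, 1, 0, -1] i := by fin_cases i <;> simp [tz]

theorem tz_out (i : Fin 4) : tz i ∉ Dia := by
  intro h
  have : |(tz i).re| + |(tz i).im| < 1 := h
  rw [tz_re, tz_im] at this
  revert this
  fin_cases i <;> simp

theorem tz_ne (i : Fin 4) (p : ℂ) (h1 : p.re ≠ 0) (h2 : p.im ≠ 0) : p ≠ tz i := by
  intro h
  rw [h, tz_re] at h1
  rw [h, tz_im] at h2
  revert h1 h2
  fin_cases i <;> simp

/-- a square root of `z - ω` -/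
noncomputable def sr (i : Fin 4) (z : ℂ) : ℂ :=
  (-tz i) ^ (1 / 2 : ℂ) * (1 - z / tz i) ^ (1 / 2 : ℂ)

theorem tz_ne_zero (i : Fin 4) : tz i ≠ 0 := by
  intro h
  have h1 := tz_re i
  have h2 := tz_im i
  rw [h] at h1 h2
  revert h1 h2
  fin_cases i <;> simp

theorem sr_slit (i : Fin 4) {z : ℂ} (hz : z ∈ Dia) : 1 - z / tz i ∈ slitPlane := by
  left
  have h : |z.re| + |z.im| < 1 := hz
  have h1 := abs_lt.1 (lt_of_le_of_lt (le_add_of_nonneg_right (abs_nonneg z.im)) h)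
  have h2 := abs_lt.1 (lt_of_le_of_lt (le_add_of_nonneg_left (abs_nonneg z.re)) h)
  fin_cases i
  · simp [tz]; linarith
  · simp [tz, div_I]; linarith
  · simp [tz, div_neg]; linarith
  · simp [tz, div_neg, div_I]; linarith

theorem sr_diff (i : Fin 4) {z : ℂ} (hz : z ∈ Dia) : DifferentiableAt ℂ (sr i) z := by
  unfold sr
  refine DifferentiableAt.const_mul ?_ _
  exact DifferentiableAt.cpow (by fun_prop) (by fun_prop) (sr_slit i hz)

theorem half_sq {w : ℂ} (hw : w ≠ 0) : w ^ (1 / 2 : ℂ) * w ^ (1 / 2 : ℂ) = w := by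
  rw [← cpow_add _ _ hw]
  norm_num

theorem sr_sq (i : Fin 4) {z : ℂ} (hz : z ∈ Dia) : sr i z * sr i z = z - tz i := by
  unfold sr
  have h1 := half_sq (neg_ne_zero.2 (tz_ne_zero i))
  have h2 := half_sq (slitPlane_ne_zero (sr_slit i hz))
  calc _ = ((-tz i) ^ (1 / 2 : ℂ) * (-tz i) ^ (1 / 2 : ℂ)) *
        ((1 - z / tz i) ^ (1 / 2 : ℂ) * (1 - z / tz i) ^ (1 / 2 : ℂ)) := by ring
    _ = -tz i * (1 - z / tz i) := by rw [h1, h2]
    _ = _ := by
      have := tz_ne_zero i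
      field_simp
      ring

theorem sr_ne (i : Fin 4) {z : ℂ} (hz : z ∈ Dia) : sr i z ≠ 0 := by
  intro h
  have := sr_sq i hz
  rw [h, mul_zero] at this
  exact tz_out i ((sub_eq_zero.1 this.symm) ▸ hz)

/-- The uniqueness statement with a branch point at a tip. -/
theorem tip_unique {κ : Type*} [Fintype κ] {ζ : κ → ℂ} (hζ : ∀ p, ζ p ∈ Dia)
    (hinj : Function.Injective ζ) (i : Fin 4) {q : ℂ → ℂ} (hq : DifferentiableOn ℂ q Dia)
    (hb : H365.BdC (F2 ζ (fun _ : Unit => tz i) q))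
    (hres : ∀ p, ((⟨-1 / 2, 1 / 2⟩ : ℂ) * (q (ζ p) ^ 2 /
        PZ ζ (fun _ : Unit => tz i) p (ζ p))).im = 0 ∧
      0 ≤ ((⟨-1 / 2, 1 / 2⟩ : ℂ) * (q (ζ p) ^ 2 / PZ ζ (fun _ : Unit => tz i) p (ζ p))).re) :
    ∀ z ∈ Dia, q z = 0 := by
  classical
  set M : Finset ℂ := Finset.univ.image ζ with hM
  have hprod : ∀ z : ℂ, ∏ m ∈ M, (z - m) = ∏ p, (z - ζ p) := by
    intro z
    rw [hM, Finset.prod_image fun x _ y _ h => hinj h]
  have hl := hb.lims
  have key := H365.hom_unique (M := M) (q := fun z => q z / sr i z)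
    (F := F2 ζ (fun _ : Unit => tz i) q) (fun m hm => ?_) ?_ ?_ ?_ hb.bdd hl.1 hl.2.1 hl.2.2.1
    hl.2.2.2
  · intro z hz
    have := key z hz
    rcases div_eq_zero_iff.1 this with h | h
    · exact h
    · exact absurd h (sr_ne i hz)
  · obtain ⟨p, _, rfl⟩ := Finset.mem_image.1 hm
    exact hζ p
  · intro z hz
    exact (hq z hz).div (sr_diff i hz).differentiableWithinAt (sr_ne i hz)
  · intro z hz _
    rw [hprod]
    unfold F2 H170.PP
    simp only [Finset.univ_unique, Finset.prod_const, Finset.card_singleton, pow_one]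
    rw [div_pow, pow_two (sr i z), sr_sq i hz, div_div]
    congr 1
    ring
  · intro m hm
    obtain ⟨p, _, rfl⟩ := Finset.mem_image.1 hm
    obtain ⟨h1, h2⟩ := hres p
    refine ⟨_, h2, ?_⟩
    have e1 : ∏ m' ∈ M.erase (ζ p), (ζ p - m') = ∏ p' ∈ Finset.univ.erase p, (ζ p - ζ p') := by
      have : M.erase (ζ p) = (Finset.univ.erase p).image ζ := by
        rw [hM, Finset.image_erase hinj]
      rw [this, Finset.prod_image fun x _ y _ h => hinj h]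
    have e2 : H365.cH * ((q (ζ p) / sr i (ζ p)) ^ 2 / ∏ m' ∈ M.erase (ζ p), (ζ p - m')) =
        (⟨-1 / 2, 1 / 2⟩ : ℂ) * (q (ζ p) ^ 2 / PZ ζ (fun _ : Unit => tz i) p (ζ p)) := by
      rw [e1]
      unfold PZ H365.cH
      simp only [Finset.univ_unique, Finset.prod_const, Finset.card_singleton, pow_one]
      rw [div_pow, pow_two (sr i (ζ p)), sr_sq i (hζ p), div_div]
      congr 2
      ring
    rw [e2]
    apply Complex.ext
    · simp
    · rw [h1]; simp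

theorem pt_aux {ι : Type*} {l : Filter ι} {a n : ι → ℝ}
    (h1 : Tendsto (fun k => a k * n k) l (𝓝 1)) (s t : ℤ) :
    Tendsto (fun k => (⟨a k * (n k * s), a k * (n k * t)⟩ : ℂ)) l (𝓝 ⟨s, t⟩) := by
  have e : ∀ x y : ℝ, (⟨x, y⟩ : ℂ) = (x : ℂ) + (y : ℂ) * I := fun x y => by
    apply Complex.ext <;> simp
  simp only [e]
  have h2 := h1.mul_const (s : ℝ)
  have h3 := h1.mul_const (t : ℝ)
  rw [one_mul] at h2 h3
  have h4 := ((continuous_ofReal.tendsto _).comp h2).add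
    (((continuous_ofReal.tendsto _).comp h3).mul_const I)
  refine h4.congr fun k => ?_
  simp only [Function.comp]
  congr 2 <;> ring_nf

theorem tip_pt {ι : Type*} {l : Filter ι} {a : ι → ℝ} {N : ι → ℕ} (ha : Tendsto a l (𝓝[>] 0))
    (hN : Tendsto (fun k => a k * ((N k : ℝ) + 1)) l (𝓝 1)) (i : Fin 4) :
    Tendsto (fun k => pt (a k) (tip (N k) i)) l (𝓝 (tz i)) := by
  have h0 : Tendsto a l (𝓝 0) := ha.mono_right nhdsWithin_le_nhds
  have h1 : Tendsto (fun k => a k * (N k : ℝ)) l (𝓝 1) := by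
    have := hN.sub h0
    rw [sub_zero] at this
    exact this.congr fun k => by ring
  have key := pt_aux h1
  fin_cases i
  · refine ((key 1 0).congr fun k => ?_).trans_eq ?_
    · simp [pt, tip]
    · congr 1; apply Complex.ext <;> simp [tz]
  · refine ((key 0 1).congr fun k => ?_).trans_eq ?_
    · simp [pt, tip]
    · congr 1; apply Complex.ext <;> simp [tz]
  · refine ((key (-1) 0).congr fun k => ?_).trans_eq ?_
    · simp [pt, tip]
    · congr 1; apply Complex.ext <;> simp [tz]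
  · refine ((key 0 (-1)).congr fun k => ?_).trans_eq ?_
    · simp [pt, tip]
    · congr 1; apply Complex.ext <;> simp [tz]

theorem otip_pt {ι : Type*} {l : Filter ι} {a : ι → ℝ} {N : ι → ℕ}
    (hN : Tendsto (fun k => a k * ((N k : ℝ) + 1)) l (𝓝 1)) (i : Fin 4) :
    Tendsto (fun k => pt (a k) (otip (N k) i)) l (𝓝 (tz i)) := by
  have key := pt_aux hN
  fin_cases i
  · refine ((key 1 0).congr fun k => ?_).trans_eq ?_
    · simp [pt, otip]
    · congr 1; apply Complex.ext <;> simp [tz]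
  · refine ((key 0 1).congr fun k => ?_).trans_eq ?_
    · simp [pt, otip]
    · congr 1; apply Complex.ext <;> simp [tz]
  · refine ((key (-1) 0).congr fun k => ?_).trans_eq ?_
    · simp [pt, otip]; left; ring
    · congr 1; apply Complex.ext <;> simp [tz]
  · refine ((key 0 (-1)).congr fun k => ?_).trans_eq ?_
    · simp [pt, otip]; left; ring
    · congr 1; apply Complex.ext <;> simp [tz]

/-- The Green function of the tip is small inside. -/
theorem green_tip_nf {ι : Type*} {l : Filter ι} {a : ι → ℝ} {N : ι → ℕ}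
    (ha : Tendsto a l (𝓝[>] 0)) (hN : Tendsto (fun k => a k * ((N k : ℝ) + 1)) l (𝓝 1))
    (i : Fin 4) {z : ℂ} (hz : z ∈ Dia) :
    Tendsto (fun kx : ι × Pt => green (dia (N kx.1)) (tip (N kx.1) i) kx.2) (nf l a z) (𝓝 0) := by
  obtain ⟨C, hC, hb⟩ := green_tip
  have hzw : z ≠ tz i := fun h => tz_out i (h ▸ hz)
  have hpos : 0 < |(z - tz i).re| + |(z - tz i).im| := by
    by_contra hc
    push Not at hc
    have h1 := abs_nonneg (z - tz i).re
    have h2 := abs_nonneg (z - tz i).im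
    have h3 : (z - tz i).re = 0 := abs_eq_zero.1 (by linarith)
    have h4 : (z - tz i).im = 0 := abs_eq_zero.1 (by linarith)
    exact hzw (sub_eq_zero.1 (Complex.ext h3 h4))
  have ta := a_nf ha z
  have t1 := (re_nf (y := fun k => otip (N k) i) ha (otip_pt hN i) 0 (z := z)).abs
  have t2 := (im_nf (y := fun k => otip (N k) i) ha (otip_pt hN i) 0 (z := z)).abs
  have t3 := ta.add (t1.add t2)
  rw [zero_add] at t3
  have t4 := (ta.div t3 hpos.ne').pow 2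
  rw [zero_div] at t4
  have t5 := (ta.div (hN.comp (tendsto_fst_nf (l := l) (a := a) z)) one_ne_zero).pow 2
  rw [zero_div] at t5
  have t6 := (t4.const_mul C).add (t5.const_mul C)
  simp only [zero_pow two_ne_zero, mul_zero, add_zero] at t6
  refine squeeze_zero' (Eventually.of_forall fun kx => green_nonneg _ _ _) ?_ t6
  filter_upwards [apos_nf ha z] with kx h0
  refine (hb (N kx.1) i kx.2).trans (le_of_eq ?_)
  simp only [Pi.div_apply, Function.comp_apply]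
  have e1 : |((kx.2 - otip (N kx.1) i).1 : ℝ)| = |(kx.2.1 : ℝ) - ((otip (N kx.1) i).1 : ℝ)| := by
    rw [Prod.fst_sub]; push_cast; rfl
  have e2 : |((kx.2 - otip (N kx.1) i).2 : ℝ)| = |(kx.2.2 : ℝ) - ((otip (N kx.1) i).2 : ℝ)| := by
    rw [Prod.snd_sub]; push_cast; rfl
  rw [e1, e2, abs_mul, abs_mul, abs_of_pos h0]
  have h1 : 0 < 1 + |(kx.2.1 : ℝ) - ((otip (N kx.1) i).1 : ℝ)| +
    |(kx.2.2 : ℝ) - ((otip (N kx.1) i).2 : ℝ)| := by positivity
  have h2 : a kx.1 + (a kx.1 * |(kx.2.1 : ℝ) - ((otip (N kx.1) i).1 : ℝ)| +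
      a kx.1 * |(kx.2.2 : ℝ) - ((otip (N kx.1) i).2 : ℝ)|) =
      a kx.1 * (1 + |(kx.2.1 : ℝ) - ((otip (N kx.1) i).1 : ℝ)| +
        |(kx.2.2 : ℝ) - ((otip (N kx.1) i).2 : ℝ)|) := by ring
  rw [h2]
  have h3 : (0:ℝ) < (N kx.1 : ℝ) + 1 := by positivity
  field_simp

section main

variable {ι κ : Type*} [Fintype κ] {r : κ → ι → Site} {ζ : κ → ℂ} {a : ι → ℝ} {N : ι → ℕ}
  {A B C E Hs Hf : ι → Pt → ℝ} (i : Fin 4)

/-- the marked point of the tip -/
noncomputable def tw (i : Fin 4) : Unit → ℂ := fun _ => tz i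

/-- the source at the tip -/
def tv (N : ι → ℕ) (i : Fin 4) : Unit → ι → Site := fun _ k => tip (N k) i

theorem tv_lim {l : Filter ι} (ha : Tendsto a l (𝓝[>] 0))
    (hN : Tendsto (fun k => a k * ((N k : ℝ) + 1)) l (𝓝 1)) (q : Unit) :
    Tendsto (fun k => pt (a k) (tv N i q k)) l (𝓝 (tw i q)) := tip_pt ha hN i

/-- The scaling limit of spinors with the source at a tip. -/
theorem tip_slim {l : Ultrafilter ι} (ha : Tendsto a l (𝓝[>] 0))
    (hN : Tendsto (fun k => a k * ((N k : ℝ) + 1)) l (𝓝 1))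
    (hr : ∀ p, Tendsto (fun k => pt (a k) (r p k)) l (𝓝 (ζ p)))
    (hS : ∀ᶠ k in l, AL.Spr (dia (N k)) (tauF fun p => r p k) (theF fun q => tv N i q k)
      (A k) (B k) (C k) (E k))
    (hH : ∀ᶠ k in l, AL.IsH (dia (N k)) (A k) (B k) (C k) (E k) (Hs k) (Hf k)) {M : ℝ}
    (hM : 0 ≤ M) (hM1 : ∀ᶠ k in l, ∀ T : Finset Site, ∑ w ∈ T, |AL.lap (Hs k) w| ≤ M)
    (hM2 : ∀ᶠ k in l, ∀ T : Finset Site, ∑ w ∈ T, |AL.lap (Hf k) w| ≤ M) :
    ∃ q : ℂ → ℂ, DifferentiableOn ℂ q Dia ∧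
      SLim l a (Dia \ Mk ζ (tw i)) r (tv N i) (fun k x => (√(a k))⁻¹ * A k x)
        (fun k x => (√(a k))⁻¹ * B k x) (fun k x => (√(a k))⁻¹ * C k x)
        (fun k x => (√(a k))⁻¹ * E k x) q := by
  have hv := tv_lim (l := (l : Filter ι)) i ha hN
  have ha0 : ∀ᶠ k in l, 0 < a k := ha.eventually self_mem_nhdsWithin
  -- relations
  have hrel : RelB l a N Set.univ r (tv N i) (fun k x => (√(a k))⁻¹ * A k x)
      (fun k x => (√(a k))⁻¹ * B k x) (fun k x => (√(a k))⁻¹ * C k x)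
      (fun k x => (√(a k))⁻¹ * E k x) := by
    intro z _
    filter_upwards [ev_nf_of (l := l) (a := a) (z := z) hS] with kx h
    exact (SRel.of_spr h kx.2.1 kx.2.2).smul _
  -- ℓ² bounds
  have hbox : ∀ᶠ k in l, ∀ c n, ∑ x ∈ bx c n, (A k x ^ 2 + B k x ^ 2 + C k x ^ 2 + E k x ^ 2) ≤
      1152 * M * (n + 2) := by
    filter_upwards [hS, hH, hM1, hM2] with k k1 k2 k3 k4 c n
    exact sum_sq_box k1 k2 k3 k4 c n
  have l2 : ∀ X : ι → Pt → ℝ, (∀ k x, X k x ^ 2 ≤ A k x ^ 2 + B k x ^ 2 + C k x ^ 2 + E k x ^ 2) →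
      ∀ z : ℂ, ∀ ρ > 0, L2ball l a z ρ (8 * (1152 * M) * ρ) (fun k x => (√(a k))⁻¹ * X k x) := by
    intro X hX z ρ hρ
    refine l2_of_box ha (by positivity) ?_ z hρ
    filter_upwards [hbox] with k hk c n
    exact (Finset.sum_le_sum fun x _ => hX k x).trans (hk c n)
  have l2B := l2 B fun k x => by nlinarith [sq_nonneg (A k x), sq_nonneg (C k x), sq_nonneg (E k x)]
  have l2C := l2 C fun k x => by nlinarith [sq_nonneg (A k x), sq_nonneg (B k x), sq_nonneg (E k x)]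
  have lsq : ∀ X : ι → Pt → ℝ, (∀ z : ℂ, ∀ ρ > 0, L2ball l a z ρ (8 * (1152 * M) * ρ) X) →
      ∀ z ∈ Dia, ∀ ρ > 0, ρ ≤ 1 → closedBall z ρ ⊆ Dia →
        L2ball l a z ρ (8 * (1152 * M) * √ρ) X := by
    intro X hX z _ ρ hρ hρ1 _
    refine (hX z ρ hρ).mono (mul_le_mul_of_nonneg_left ?_ (by positivity))
    exact Real.le_sqrt_of_sq_le (by nlinarith)
  have hrelOn : RelOn l a (Dia \ Mk ζ (tw i)) r (tv N i) (fun k x => (√(a k))⁻¹ * A k x)
      (fun k x => (√(a k))⁻¹ * B k x) (fun k x => (√(a k))⁻¹ * C k x)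
      (fun k x => (√(a k))⁻¹ * E k x) := fun z hz =>
    hrel.relOn ha hN z ⟨Set.mem_univ z, hz.1⟩
  exact slim_ext ha Dia_open' hr hv hrelOn (lsq _ l2B) (lsq _ l2C)

theorem tip_hup {l : Ultrafilter ι} (ha : Tendsto a l (𝓝[>] 0))
    (hN : Tendsto (fun k => a k * ((N k : ℝ) + 1)) l (𝓝 1)) {M : ℝ} {z : ℂ} (hz : z ∈ Dia) :
    Tendsto (fun kx : ι × Pt => M * ∑ q, H436.green (dia (N kx.1)) (tv N i q kx.1) kx.2)
      (nf l a z) (𝓝 0) := by
  have h1 := (green_tip_nf (l := (l : Filter ι)) ha hN i hz).const_mul M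
  rw [mul_zero] at h1
  refine h1.congr fun kx => ?_
  simp [tv]

theorem tip_bb {l : Ultrafilter ι} (ha : Tendsto a l (𝓝[>] 0))
    (hN : Tendsto (fun k => a k * ((N k : ℝ) + 1)) l (𝓝 1))
    (hr : ∀ p, Tendsto (fun k => pt (a k) (r p k)) l (𝓝 (ζ p)))
    (hζ : ∀ p, ζ p ∈ Dia) {M : ℝ} (hM : 0 ≤ M)
    (hbd : ∀ᶠ k in l, ∀ x, Hs k x ≤ M * ∑ q, H436.green (dia (N k)) (tv N i q k) x ∧
      -Hf k x ≤ M * ∑ p, H436.green (dia (N k)) (r p k) x ∧ Hf k x ≤ Hs k x) :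
    ∀ z ∈ Dia \ Mk ζ (tw i), ∃ K, ∀ᶠ k in l, |Hs k (fl (a k) z)| ≤ K := by
  have ha0 : ∀ᶠ k in l, 0 < a k := ha.eventually self_mem_nhdsWithin
  have hgr : ∀ z ∈ Dia \ Mk ζ (tw i), ∀ᶠ kx in nf l a z,
      M * ∑ p, H436.green (dia (N kx.1)) (r p kx.1) kx.2 ≤ M * ∑ p, gb z (ζ p) := by
    intro z hz
    have h1 : ∀ᶠ kx in nf l a z, ∀ q, H436.green (dia (N kx.1)) (r q kx.1) kx.2 ≤ gb z (ζ q) := by
      rw [eventually_all]
      intro q
      exact green_near ha hN (hr q) (mem_dia_ev ha hN (hζ q) (hr q)) hz.1 ((notMem_Mk.1 hz.2).1 q)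
    filter_upwards [h1] with kx h2
    exact mul_le_mul_of_nonneg_left (Finset.sum_le_sum fun q _ => h2 q) hM
  have hup : ∀ z ∈ Dia \ Mk ζ (tw i), ∀ᶠ kx in nf l a z, Hs kx.1 kx.2 ≤ 1 := by
    intro z hz
    have h1 := (tip_hup i (M := M) ha hN hz.1).eventually (gt_mem_nhds (show (0:ℝ) < 1 from one_pos))
    filter_upwards [h1, ev_nf_of (l := l) (a := a) (z := z) hbd] with kx k1 k2
    exact ((k2 kx.2).1.trans_lt k1).le
  have hlo : ∀ z ∈ Dia \ Mk ζ (tw i), ∀ᶠ kx in nf l a z,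
      -Hf kx.1 kx.2 ≤ M * ∑ q, gb z (ζ q) := by
    intro z hz
    filter_upwards [hgr z hz, ev_nf_of (l := l) (a := a) (z := z) hbd] with kx k1 k2
    exact (k2 kx.2).2.1.trans k1
  intro z hz
  have h1 := (hup z hz).and ((hlo z hz).and (ev_nf_of (l := l) (a := a) (z := z) hbd))
  obtain ⟨ρ, hρ, h2⟩ := (ev_nf (P := fun k x => Hs k x ≤ 1 ∧
    -Hf k x ≤ M * ∑ q, gb z (ζ q) ∧ ∀ x, Hs k x ≤ M * ∑ q, H436.green (dia (N k)) (tv N i q k) x ∧
    -Hf k x ≤ M * ∑ p, H436.green (dia (N k)) (r p k) x ∧ Hf k x ≤ Hs k x)).1 h1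
  have ha1 : ∀ᶠ k in l, a k < ρ / 2 :=
    (ha.mono_right nhdsWithin_le_nhds).eventually (gt_mem_nhds (by positivity))
  refine ⟨1 + |M * ∑ q, gb z (ζ q)|, ?_⟩
  filter_upwards [h2, ha0, ha1] with k k1 k2 k3
  obtain ⟨k4, k5, k6⟩ := k1 (fl (a k) z) ((pt_fl_norm k2 z).trans (by linarith))
  have k7 := (k6 (fl (a k) z)).2.2
  rw [abs_le]
  constructor
  · linarith [le_abs_self (M * ∑ q, gb z (ζ q))]
  · linarith [abs_nonneg (M * ∑ q, gb z (ζ q))]

/-- The limit of the `H`-functions. -/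
theorem tip_core {l : Ultrafilter ι} (ha : Tendsto a l (𝓝[>] 0))
    (hN : Tendsto (fun k => a k * ((N k : ℝ) + 1)) l (𝓝 1))
    (hr : ∀ p, Tendsto (fun k => pt (a k) (r p k)) l (𝓝 (ζ p)))
    (hζ : ∀ p, ζ p ∈ Dia)
    (hH : ∀ᶠ k in l, AL.IsH (dia (N k)) (A k) (B k) (C k) (E k) (Hs k) (Hf k)) {M : ℝ}
    (hM : 0 ≤ M)
    (hbd : ∀ᶠ k in l, ∀ x, Hs k x ≤ M * ∑ q, H436.green (dia (N k)) (tv N i q k) x ∧
      -Hf k x ≤ M * ∑ p, H436.green (dia (N k)) (r p k) x ∧ Hf k x ≤ Hs k x) {q : ℂ → ℂ}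
    (hslim : SLim l a (Dia \ Mk ζ (tw i)) r (tv N i) (fun k x => (√(a k))⁻¹ * A k x)
        (fun k x => (√(a k))⁻¹ * B k x) (fun k x => (√(a k))⁻¹ * C k x)
        (fun k x => (√(a k))⁻¹ * E k x) q) :
    ∃ h : ℂ → ℝ,
      (∀ z ∈ Dia \ Mk ζ (tw i), HD h (gq ζ (tw i) q) z) ∧
      (∀ z ∈ Dia \ Mk ζ (tw i), h z ≤ 0) ∧
      (∀ z ∈ Dia \ Mk ζ (tw i), Tendsto (fun kx : ι × Pt => Hs kx.1 kx.2) (nf l a z)
        (𝓝 (h z))) ∧
      (∀ z ∈ Dia \ Mk ζ (tw i), Tendsto (fun kx : ι × Pt => Hf kx.1 kx.2) (nf l a z)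
        (𝓝 (h z))) := by
  have hv := tv_lim (l := (l : Filter ι)) i ha hN
  -- the limit h
  have hHon : HOn l a (Dia \ Mk ζ (tw i)) (fun k x => (√(a k))⁻¹ * A k x)
      (fun k x => (√(a k))⁻¹ * B k x) (fun k x => (√(a k))⁻¹ * C k x)
      (fun k x => (√(a k))⁻¹ * E k x) Hs Hf := by
    intro z _
    filter_upwards [ev_nf_of (l := l) (a := a) (z := z) hH, apos_nf ha z] with kx h h0
    have e : ∀ y : ℝ, a kx.1 * ((√(a kx.1))⁻¹ * y) ^ 2 = y ^ 2 := by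
      intro y
      rw [mul_pow, inv_pow, Real.sq_sqrt h0.le]
      field_simp
    obtain ⟨k, i', j⟩ := kx
    simp only [e, Prod.mk_add_mk, add_zero]
    exact ⟨h.a i' j, h.b i' j, h.c i' j, h.d i' j⟩
  obtain ⟨h, chs, chf, hder⟩ := hlim_exists ha (Dia_open'.sdiff (Mk_closed ζ (tw i))) hr hv
    (fun z hz => hz.2) hslim hHon (tip_bb i ha hN hr hζ hM hbd)
  have chs' := cconv_iff.1 chs
  refine ⟨h, fun z hz => (hder z hz).hasFDerivAt, fun z hz => ?_, chs',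
    cconv_iff.1 chf⟩
  have := nf_neBot (l := (l : Filter ι)) ha z
  refine le_of_tendsto_of_tendsto (chs' z hz) (tip_hup i (M := M) ha hN hz.1) ?_
  filter_upwards [ev_nf_of (l := l) (a := a) (z := z) hbd] with kx k2
  exact (k2 kx.2).1

omit [Fintype κ] in
theorem sdiff_E (ζ : κ → ℂ) :
    Dia \ Mk ζ (fun e : Empty => (e.elim : ℂ)) = Dia \ Mk ζ (tw i) := by
  ext z
  simp only [Set.mem_sdiff, notMem_Mk]
  constructor
  · rintro ⟨h1, h2, _⟩
    exact ⟨h1, h2, fun _ hc => tz_out i (by rw [← show z = tz i from hc]; exact h1)⟩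
  · rintro ⟨h1, h2, _⟩
    exact ⟨h1, h2, fun e => e.elim⟩

/-- The linear decay at the boundary. -/
theorem tip_decay {l : Ultrafilter ι} (ha : Tendsto a l (𝓝[>] 0))
    (hN : Tendsto (fun k => a k * ((N k : ℝ) + 1)) l (𝓝 1))
    (hr : ∀ p, Tendsto (fun k => pt (a k) (r p k)) l (𝓝 (ζ p)))
    (hζ : ∀ p, ζ p ∈ Dia) {M : ℝ} (hM : 0 ≤ M)
    (hbd : ∀ᶠ k in l, ∀ x, Hs k x ≤ M * ∑ q, H436.green (dia (N k)) (tv N i q k) x ∧
      -Hf k x ≤ M * ∑ p, H436.green (dia (N k)) (r p k) x ∧ Hf k x ≤ Hs k x) {h : ℂ → ℝ}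
    (hup' : ∀ z ∈ Dia \ Mk ζ (tw i), h z ≤ 0)
    (chs' : ∀ z ∈ Dia \ Mk ζ (tw i), Tendsto (fun kx : ι × Pt => Hs kx.1 kx.2) (nf l a z)
        (𝓝 (h z)))
    (chf' : ∀ z ∈ Dia \ Mk ζ (tw i), Tendsto (fun kx : ι × Pt => Hf kx.1 kx.2) (nf l a z)
        (𝓝 (h z))) :
    ∃ ε > 0, ∃ K, 0 < K ∧ ∀ z ∈ Dia, 1 - ε < n1 z → z ∉ Mk ζ (tw i) ∧
      |h z| ≤ K * (1 - n1 z) := by
  have hminc : ∀ (G : ι → Site → ℝ) (z : ℂ), z ∈ Dia \ Mk ζ (tw i) →
      Tendsto (fun kx : ι × Pt => G kx.1 kx.2) (nf l a z) (𝓝 (h z)) →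
      Tendsto (fun kx : ι × Pt => min (G kx.1 kx.2) 0) (nf l a z) (𝓝 (h z)) := by
    intro G z hz hG
    have := hG.min (tendsto_const_nhds (x := (0:ℝ)))
    rwa [min_eq_left (hup' z hz)] at this
  have hbd2 : ∀ᶠ k in l, ∀ x, min (Hs k x) 0 ≤
      M * ∑ e : Empty, H436.green (dia (N k)) (e.elim : Site) x ∧
      -min (Hf k x) 0 ≤ M * ∑ p, H436.green (dia (N k)) (r p k) x ∧
      min (Hf k x) 0 ≤ min (Hs k x) 0 := by
    filter_upwards [hbd] with k k1 x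
    obtain ⟨k2, k3, k4⟩ := k1 x
    refine ⟨by simp, ?_, min_le_min k4 le_rfl⟩
    rcases le_total (Hf k x) 0 with h0 | h0
    · rw [min_eq_left h0]; exact k3
    · rw [min_eq_right h0, neg_zero]
      exact mul_nonneg hM (Finset.sum_nonneg fun p _ => green_nonneg _ _ _)
  have hbdy := bdry_decay (κ' := Empty) (ω := fun e : Empty => (e.elim : ℂ))
    (v := fun (e : Empty) (_ : ι) => (e.elim : Site)) (Hs := fun k x => min (Hs k x) 0)
    (Hf := fun k x => min (Hf k x) 0) (h := h) ha hN hr (fun e => e.elim) hζ (fun e => e.elim) hM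
    hbd2 (by rw [sdiff_E i ζ]; exact fun z hz => hminc Hs z hz (chs' z hz))
    (by rw [sdiff_E i ζ]; exact fun z hz => hminc Hf z hz (chf' z hz))
  obtain ⟨ε, hε, K, hK, hbdy'⟩ := hbdy
  refine ⟨ε, hε, K, hK, fun z hz hz1 => ?_⟩
  obtain ⟨h1, h2⟩ := hbdy' z hz hz1
  have h3 : z ∈ Dia \ Mk ζ (tw i) := by rw [← sdiff_E i ζ]; exact ⟨hz, h1⟩
  exact ⟨h3.2, h2⟩

/-- The limit vanishes. -/
theorem tip_core2 {l : Ultrafilter ι} (ha : Tendsto a l (𝓝[>] 0))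
    (hN : Tendsto (fun k => a k * ((N k : ℝ) + 1)) l (𝓝 1))
    (hr : ∀ p, Tendsto (fun k => pt (a k) (r p k)) l (𝓝 (ζ p)))
    (hζ : ∀ p, ζ p ∈ Dia) (hζi : Function.Injective ζ)
    (hS : ∀ᶠ k in l, AL.Spr (dia (N k)) (tauF fun p => r p k) (theF fun q => tv N i q k)
      (A k) (B k) (C k) (E k))
    (hH : ∀ᶠ k in l, AL.IsH (dia (N k)) (A k) (B k) (C k) (E k) (Hs k) (Hf k)) {M : ℝ}
    (hM : 0 ≤ M) (hM1 : ∀ᶠ k in l, ∀ T : Finset Site, ∑ w ∈ T, |AL.lap (Hs k) w| ≤ M)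
    (hM2 : ∀ᶠ k in l, ∀ T : Finset Site, ∑ w ∈ T, |AL.lap (Hf k) w| ≤ M) :
    SLim l a (Dia \ Mk ζ (tw i)) r (tv N i) (fun k x => (√(a k))⁻¹ * A k x)
        (fun k x => (√(a k))⁻¹ * B k x) (fun k x => (√(a k))⁻¹ * C k x)
        (fun k x => (√(a k))⁻¹ * E k x) (fun _ => 0) := by
  have hv := tv_lim (l := (l : Filter ι)) i ha hN
  have hbd : ∀ᶠ k in l, ∀ x, Hs k x ≤ M * ∑ q, H436.green (dia (N k)) (tv N i q k) x ∧
      -Hf k x ≤ M * ∑ p, H436.green (dia (N k)) (r p k) x ∧ Hf k x ≤ Hs k x := by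
    filter_upwards [hS, hH, hM1, hM2] with k k1 k2 k3 k4 x
    exact H_bounds k1 k2 k3 k4 x
  obtain ⟨q, hqd, hslim⟩ := tip_slim i ha hN hr hS hH hM hM1 hM2
  obtain ⟨h, hHD, hup', chs', chf'⟩ := tip_core i ha hN hr hζ hH hM hbd hslim
  obtain ⟨ε, hε, K, hK, hbdy2⟩ := tip_decay i ha hN hr hζ hM hbd hup' chs' chf'
  have hrel : RelB l a N Set.univ r (tv N i) (fun k x => (√(a k))⁻¹ * A k x)
      (fun k x => (√(a k))⁻¹ * B k x) (fun k x => (√(a k))⁻¹ * C k x)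
      (fun k x => (√(a k))⁻¹ * E k x) := by
    intro z _
    filter_upwards [ev_nf_of (l := l) (a := a) (z := z) hS] with kx h
    exact (SRel.of_spr h kx.2.1 kx.2.2).smul _
  have hbox : ∀ᶠ k in l, ∀ c n, ∑ x ∈ bx c n, (A k x ^ 2 + B k x ^ 2 + C k x ^ 2 + E k x ^ 2) ≤
      1152 * M * (n + 2) := by
    filter_upwards [hS, hH, hM1, hM2] with k k1 k2 k3 k4 c n
    exact sum_sq_box k1 k2 k3 k4 c n
  have l2 : ∀ X : ι → Pt → ℝ, (∀ k x, X k x ^ 2 ≤ A k x ^ 2 + B k x ^ 2 + C k x ^ 2 + E k x ^ 2) →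
      ∀ z : ℂ, ∀ ρ > 0, L2ball l a z ρ (8 * (1152 * M) * ρ) (fun k x => (√(a k))⁻¹ * X k x) := by
    intro X hX z ρ hρ
    refine l2_of_box ha (by positivity) ?_ z hρ
    filter_upwards [hbox] with k hk c n
    exact (Finset.sum_le_sum fun x _ => hX k x).trans (hk c n)
  have l2A := l2 A fun k x => by nlinarith [sq_nonneg (B k x), sq_nonneg (C k x), sq_nonneg (E k x)]
  have l2B := l2 B fun k x => by nlinarith [sq_nonneg (A k x), sq_nonneg (C k x), sq_nonneg (E k x)]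
  have l2C := l2 C fun k x => by nlinarith [sq_nonneg (A k x), sq_nonneg (B k x), sq_nonneg (E k x)]
  have l2E := l2 E fun k x => by nlinarith [sq_nonneg (A k x), sq_nonneg (B k x), sq_nonneg (C k x)]
  have hsub : (Set.univ ∩ Dia) \ Mk ζ (tw i) = Dia \ Mk ζ (tw i) := by rw [Set.univ_inter]
  have hslim' : SLim l a ((Set.univ ∩ Dia) \ Mk ζ (tw i)) r (tv N i)
    (fun k x => (√(a k))⁻¹ * A k x)
    (fun k x => (√(a k))⁻¹ * B k x) (fun k x => (√(a k))⁻¹ * C k x)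
    (fun k x => (√(a k))⁻¹ * E k x) q := by rw [hsub]; exact hslim
  have hpM : ∀ p : ℂ, 1 ≤ |p.re| + |p.im| → p.re ≠ 0 → p.im ≠ 0 → p ∉ Mk ζ (tw i) := by
    rintro p hp h1 h2 (⟨q, rfl⟩ | ⟨q, hq⟩)
    · exact absurd (hζ q) (not_lt.2 hp)
    · exact tz_ne i p h1 h2 hq.symm
  have hBdC : H365.BdC (F2 ζ (tw i) q) := by
    refine ⟨⟨ε / 2, by positivity, 128 * K, fun z hz hz1 => U1_of (h := h) hK hz fun w hw => ?_⟩,
      ?_, ?_, ?_, ?_⟩
    · have hz' : n1 z < 1 := hz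
      have hz1' : 1 - ε / 2 < n1 z := hz1
      rw [mem_ball, dist_eq_norm] at hw
      have h1 := n1_sub w z
      have h2 := n1_sub z w
      rw [norm_sub_rev] at h1
      have hwD : w ∈ Dia := by
        show n1 w < 1
        linarith
      have h3 := hbdy2 w hwD (by linarith)
      exact ⟨h3.1, hqd.differentiableAt (Dia_open'.mem_nhds hwD), hHD w ⟨hwD, h3.1⟩, h3.2⟩
    · intro p h1 h2 h3
      exact bdNE ha hN hr hv isOpen_univ hrel hslim' (Set.mem_univ p) (hpM p (by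
        rw [abs_of_pos h1, abs_of_pos h2]; linarith) h1.ne' h2.ne') h1 h2 h3
        ⟨1, one_pos, _, l2E p 1 one_pos⟩
    · intro p h1 h2 h3
      exact bdNW ha hN hr hv isOpen_univ hrel hslim' (Set.mem_univ p) (hpM p (by
        rw [abs_of_neg h1, abs_of_pos h2]; linarith) h1.ne h2.ne') h1 h2 h3
        ⟨1, one_pos, _, l2C p 1 one_pos⟩
    · intro p h1 h2 h3
      exact bdSW ha hN hr hv isOpen_univ hrel hslim' (Set.mem_univ p) (hpM p (by
        rw [abs_of_neg h1, abs_of_neg h2]; linarith) h1.ne h2.ne) h1 h2 h3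
        ⟨1, one_pos, _, l2A p 1 one_pos⟩
    · intro p h1 h2 h3
      exact bdSE ha hN hr hv isOpen_univ hrel hslim' (Set.mem_univ p) (hpM p (by
        rw [abs_of_pos h1, abs_of_neg h2]; linarith) h1.ne' h2.ne) h1 h2 h3
        ⟨1, one_pos, _, l2B p 1 one_pos⟩
  have hq0 := tip_unique hζ hζi i hqd hBdC fun p =>
    resZ_of hζ le_rfl hqd hHD (fun z hz => by rw [zero_mul]; exact hup' z hz) p
      (fun p' hp' hc => hp' (hζi hc)) (fun _ hc => tz_out i (by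
        rw [show tz i = ζ p from hc]; exact hζ p))
  refine ⟨fun z hz => ?_, fun z hz => ?_, fun z hz => ?_, fun z hz => ?_⟩
  · have := hslim.A z hz; rwa [hq0 z hz.1] at this
  · have := hslim.B z hz; rwa [hq0 z hz.1] at this
  · have := hslim.C z hz; rwa [hq0 z hz.1] at this
  · have := hslim.E z hz; rwa [hq0 z hz.1] at this

/-- **The spinor with the source at a tip has no limit but zero.** -/
theorem tip_lim {l : Ultrafilter ι} (ha : Tendsto a l (𝓝[>] 0))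
    (hN : Tendsto (fun k => a k * ((N k : ℝ) + 1)) l (𝓝 1))
    (hr : ∀ p, Tendsto (fun k => pt (a k) (r p k)) l (𝓝 (ζ p)))
    (hζ : ∀ p, ζ p ∈ Dia) (hζi : Function.Injective ζ)
    (hinj : ∀ᶠ k in l, Function.Injective fun p => r p k) :
    ∀ z ∈ Dia, (∀ p, z ≠ ζ p) →
      Tendsto (fun kx : ι × Pt => (√(a kx.1))⁻¹ * tA (N kx.1) (rM fun p => r p kx.1) i kx.2)
        (nf l a z) (𝓝 0) ∧
      Tendsto (fun kx : ι × Pt => (√(a kx.1))⁻¹ * tB (N kx.1) (rM fun p => r p kx.1) i kx.2)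
        (nf l a z) (𝓝 0) ∧
      Tendsto (fun kx : ι × Pt => (√(a kx.1))⁻¹ * tC' (N kx.1) (rM fun p => r p kx.1) i kx.2)
        (nf l a z) (𝓝 0) ∧
      Tendsto (fun kx : ι × Pt => (√(a kx.1))⁻¹ * tD (N kx.1) (rM fun p => r p kx.1) i kx.2)
        (nf l a z) (𝓝 0) := by
  have d2 : ∀ᶠ k in l, ∀ p, |(r p k).1| + |(r p k).2| + 4 ≤ (N k : ℤ) :=
    eventually_all.2 fun p => deep_ev ha hN (hζ p) (hr p) 4
  have key : ∀ᶠ k in l, ∃ Hs Hf : Site → ℝ, AL.IsH (dia (N k)) (tA (N k) (rM fun p => r p k) i)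
      (tB (N k) (rM fun p => r p k) i) (tC' (N k) (rM fun p => r p k) i)
      (tD (N k) (rM fun p => r p k) i) Hs Hf ∧
      (∀ w, w ≠ tip (N k) i → 0 ≤ AL.lap Hs w) ∧
      (∀ T : Finset Site, ∑ w ∈ T, |AL.lap Hs w| ≤ 8) ∧
      ∀ T : Finset Site, ∑ w ∈ T, |AL.lap Hf w| ≤ 448 := by
    filter_upwards [d2, hinj] with k k2 k3
    refine tip_mass (rM_nodup k3) (fun x hx => ?_) i
    obtain ⟨p, rfl⟩ := mem_rM.1 hx
    exact k2 p
  obtain ⟨Hs, hHs⟩ := key.choice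
  obtain ⟨Hf, hHf⟩ := hHs.choice
  have hS : ∀ᶠ k in l, AL.Spr (dia (N k)) (tauF fun p => r p k) (theF fun q => tv N i q k)
      (tA (N k) (rM fun p => r p k) i) (tB (N k) (rM fun p => r p k) i)
      (tC' (N k) (rM fun p => r p k) i) (tD (N k) (rM fun p => r p k) i) := by
    refine Eventually.of_forall fun k => ?_
    have h1 := tip_spr (N k) (rM fun p => r p k) i
    rw [tauR_rM, theA_single] at h1
    exact h1
  have hM1 : ∀ᶠ k in l, ∀ T : Finset Site, ∑ w ∈ T, |AL.lap (Hs k) w| ≤ 448 := by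
    filter_upwards [hHf] with k h T
    exact (h.2.2.1 T).trans (by norm_num)
  have hs := tip_core2 i ha hN hr hζ hζi hS (hHf.mono fun k h => h.1) (by norm_num) hM1
    (hHf.mono fun k h => h.2.2.2)
  intro z hz hzζ
  have hzM : z ∈ Dia \ Mk ζ (tw i) := ⟨hz, notMem_Mk.2 ⟨hzζ, fun _ hc => tz_out i (by
    rw [← show z = tz i from hc]; exact hz)⟩⟩
  refine ⟨?_, ?_, ?_, ?_⟩
  · refine (hs.A z hzM).congr fun kx => ?_
    rw [zero_div, map_zero, sub_zero]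
  · refine (hs.B z hzM).congr fun kx => ?_
    rw [zero_div, map_zero, sub_zero]
  · refine (hs.C z hzM).congr fun kx => ?_
    rw [zero_div, map_zero, sub_zero]
  · refine (hs.E z hzM).congr fun kx => ?_
    rw [zero_div, map_zero, sub_zero]

end main

end Vale.Agent.P144.H436
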