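import Vale.Agent.P144.H436.TipGreen
import Vale.Agent.P144.U.AL.Xj
import Vale.Agent.P144.U.AL.Wick

/-!
The masses of the spinor with the source at a tip.
-/

namespace Vale.Agent.P144.H436

open Finset Vale.Agent.P144 Vale.Agent.P144.AL

/-! ### disorders at outer faces -/

theorem QQ_col {Λ : Finset Site} {f : Site} (h : ∀ x ∈ hor Λ, ¬ (x.1 = f.1 ∧ f.2 < x.2))
    (R A : Multiset Site) : AL.QQ Λ (f ::ₘ R) A = AL.QQ Λ R A := by
  unfold AL.QQ
  refine NG_congr (fun x hx => ?_) (fun _ _ => rfl) A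
  rw [cutS_cons]
  unfold cut1
  rw [if_neg (h x hx), one_mul]

theorem chiM_abs (S : Site → Prop) (A : Multiset Site) : |chiM S A| = 1 := by
  have h := chiM_sq S A
  have h2 : |chiM S A| * |chiM S A| = 1 := by rw [← abs_mul, h, abs_one]
  nlinarith [abs_nonneg (chiM S A)]

theorem QQ_right {Λ : Finset Site} {i j : ℤ} (h : ∀ k : ℕ, ((i + k + 1, j) : Site) ∉ ver Λ)
    (R : Multiset Site) {A : Multiset Site} (hA : ∀ v ∈ A, v ∈ Λ) (n : ℕ) :
    |AL.QQ Λ ((i, j) ::ₘ R) A| = |AL.QQ Λ ((i + n, j) ::ₘ R) A| := by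
  induction n with
  | zero => simp
  | succ n ih =>
    rw [ih, QQ_H0 (h n) R hA, abs_mul, chiM_abs, one_mul]
    congr 3
    push_cast
    ring_nf

/-- The face of a tip. -/
def tf (N : ℕ) : Fin 4 → Site := ![((N : ℤ), 0), (0, (N : ℤ)), (-(N : ℤ) - 1, 0), (0, -(N : ℤ) - 1)]

/-- Disorders at the faces of the tips are trivial. -/
theorem QQ_tf (N : ℕ) (i : Fin 4) (R : Multiset Site) {A : Multiset Site}
    (hA : ∀ v ∈ A, v ∈ dia N) : |AL.QQ (dia N) (tf N i ::ₘ R) A| = |AL.QQ (dia N) R A| := by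
  have out : ∀ s t : ℤ, (N : ℤ) < |s| + |t| → ((s, t) : Site) ∉ dia N := by
    intro s t h hc
    rw [mem_dia] at hc
    exact absurd hc (not_le.2 h)
  fin_cases i
  · rw [show tf N ⟨0, by norm_num⟩ = ((N : ℤ), 0) from rfl, QQ_col]
    rintro x hx ⟨h1, h2⟩
    rw [mem_hor, mem_dia] at hx
    have := hx.1
    simp only at h1 h2
    rw [h1, abs_of_nonneg (by omega : (0:ℤ) ≤ N), abs_of_pos h2] at this
    omega
  · rw [show tf N ⟨1, by norm_num⟩ = (0, (N : ℤ)) from rfl, QQ_col]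
    rintro x hx ⟨h1, h2⟩
    rw [mem_hor, mem_dia] at hx
    have := hx.1
    simp only at h1 h2
    rw [h1, abs_of_nonneg (by omega : (0:ℤ) ≤ x.2)] at this
    simp at this
    omega
  · rw [show tf N ⟨2, by norm_num⟩ = (-(N : ℤ) - 1, 0) from rfl, QQ_col]
    rintro x hx ⟨h1, h2⟩
    rw [mem_hor, mem_dia] at hx
    have := hx.1
    simp only at h1 h2
    rw [h1, abs_of_neg (by omega : -(N : ℤ) - 1 < 0), abs_of_pos h2] at this
    omega
  · rw [show tf N ⟨3, by norm_num⟩ = (0, -(N : ℤ) - 1) from rfl]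
    rw [QQ_right (fun k hk => ?_) R hA (N + 1), QQ_col]
    · rintro x hx ⟨h1, h2⟩
      rw [mem_hor, mem_dia] at hx
      have := hx.1
      simp only at h1 h2
      push_cast at h1
      rw [h1, abs_of_nonneg (by omega : (0:ℤ) ≤ 0 + (N + 1))] at this
      have := abs_nonneg x.2
      omega
    · rw [mem_ver] at hk
      refine out _ _ ?_ hk.1
      have h1 : |(0:ℤ) + k + 1| = k + 1 := by rw [abs_of_nonneg (by omega)]; ring
      have h2 : |-(N:ℤ) - 1| = N + 1 := by rw [abs_of_neg (by omega)]; ring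
      rw [h1, h2]; omega

/-- Disorders at the faces with a tip as lower left corner are trivial. -/
theorem QQ_tipf (N : ℕ) (i : Fin 4) (R : Multiset Site) {A : Multiset Site}
    (hA : ∀ v ∈ A, v ∈ dia N) : |AL.QQ (dia N) (tip N i ::ₘ R) A| = |AL.QQ (dia N) R A| := by
  have out : ∀ s t : ℤ, (N : ℤ) < |s| + |t| → ((s, t) : Site) ∉ dia N := by
    intro s t h hc
    rw [mem_dia] at hc
    exact absurd hc (not_le.2 h)
  fin_cases i
  · exact QQ_tf N 0 R hA
  · exact QQ_tf N 1 R hA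
  · rw [show tip N ⟨2, by norm_num⟩ = (-(N : ℤ), 0) from rfl, QQ_col]
    rintro x hx ⟨h1, h2⟩
    rw [mem_hor, mem_dia] at hx
    have := hx.1
    simp only at h1 h2
    rw [h1, abs_neg, abs_of_nonneg (by omega : 0 ≤ (N : ℤ)), abs_of_pos h2] at this
    omega
  · rw [show tip N ⟨3, by norm_num⟩ = (0, -(N : ℤ)) from rfl]
    rw [QQ_right (fun k hk => ?_) R hA (N + 1), QQ_col]
    · rintro x hx ⟨h1, h2⟩
      rw [mem_hor, mem_dia] at hx
      have := hx.1
      simp only at h1 h2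
      push_cast at h1
      rw [h1, abs_of_nonneg (by omega : (0:ℤ) ≤ 0 + (N + 1))] at this
      have := abs_nonneg x.2
      omega
    · rw [mem_ver] at hk
      refine out _ _ ?_ hk.1
      have h1 : |(0:ℤ) + k + 1| = k + 1 := by rw [abs_of_nonneg (by omega)]; ring
      have h2 : |-(N:ℤ)| = N := by rw [abs_neg, abs_of_nonneg (by omega)]
      rw [h1, h2]; omega

/-! ### masses -/

/-- Exceptional data: a source at `t`, disorders `R`. -/
structure ExT (N : ℕ) (τ θ : Site → ℝ) (t : Site) (R : Finset Site) : Prop where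
  θc : ∀ i j : ℤ, ((i, j) : Site) ≠ t → θ (i - 1, j) = θ (i - 1, j - 1)
  τc : ∀ i j : ℤ, ((i, j) : Site) ∉ R → τ (i, j) = τ (i, j - 1)
  inR : ∀ v ∈ R, |v.1| + |v.2| + 4 ≤ (N : ℤ)
  neg : ∀ f ∈ R, τ (f.1, f.2) = -τ (f.1, f.2 - 1)
  good : ∀ f ∈ R, t ∉ cnr f

section

variable {N : ℕ} {τ θ A B C D Hs Hf : Site → ℝ} {t : Site} {R : Finset Site}
  (h : Spr (dia N) τ θ A B C D) (hH : IsH (dia N) A B C D Hs Hf) (hE : ExT N τ θ t R)

include h hH hE

theorem lapT_nn {v : Site} (hv : v ≠ t) : 0 ≤ AL.lap Hs v := by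
  obtain ⟨i, j⟩ := v
  by_cases hΛ : ((i, j) : Site) ∈ dia N
  · exact h.lap_nonneg hH hΛ (hE.θc i j hv)
  · exact h.lap_out hH hΛ

theorem lapfT_R {f : Site} (hf : f ∈ R) : max 0 (AL.lap Hf f) ≤ sqF A B C D f := by
  obtain ⟨i, j⟩ := f
  have h0 := sqF_nonneg A B C D (i, j)
  have hin := hE.inR _ hf
  simp only at hin
  have mem : ∀ x : Site, |x.1 - i| + |x.2 - j| ≤ 4 → x ∈ dia N := by
    intro x hx
    rw [mem_dia]
    have h1 : |x.1| ≤ |x.1 - i| + |i| := by
      have := abs_add_le (x.1 - i) i; rwa [sub_add_cancel] at this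
    have h2 : |x.2| ≤ |x.2 - j| + |j| := by
      have := abs_add_le (x.2 - j) j; rwa [sub_add_cancel] at this
    lia
  have key := h.lapf_upper hH (mem (i, j) (by simp)) (mem (i + 1, j) (by simp))
    (mem (i, j + 1) (by simp)) (mem (i + 1, j + 1) (by simp))
  refine max_le h0 (key.trans ?_)
  unfold sqF at h0 ⊢
  have h2 : √2 ≤ 3 / 2 := by
    rw [Real.sqrt_le_left (by norm_num)]; norm_num
  nlinarith

theorem lapfT_G {f : Site} (hf : f ∈ R) :
    max 0 (AL.lap Hf f) ≤ 3 * ∑ v ∈ cnr f, |AL.lap Hs v| := by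
  refine (lapfT_R h hH hE hf).trans ?_
  have hgood := hE.good f hf
  have hneg := hE.neg f hf
  have hin := hE.inR _ hf
  obtain ⟨i, j⟩ := f
  simp only at hin hneg
  have np : ∀ x y : ℤ, ((x, y) : Site) ∈ cnr (i, j) → θ (x - 1, y) = θ (x - 1, y - 1) :=
    fun x y hxy => hE.θc x y fun hc => hgood (hc ▸ hxy)
  have t1 := np i j (by simp [mem_cnr])
  have t2 := np (i + 1) j (by simp [mem_cnr])
  have t3 := np i (j + 1) (by simp [mem_cnr])
  have t4 := np (i + 1) (j + 1) (by simp [mem_cnr])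
  rw [add_sub_cancel_right] at t2 t3
  rw [add_sub_cancel_right, add_sub_cancel_right] at t4
  have key := h.branch_face hH (i := i) (j := j) (by
    intro x y h1 h2 h3 h4
    rw [mem_dia]
    have e1 : |x| ≤ |x - i| + |i| := by
      have := abs_add_le (x - i) i; rwa [sub_add_cancel] at this
    have e2 : |y| ≤ |y - j| + |j| := by
      have := abs_add_le (y - j) j; rwa [sub_add_cancel] at this
    have e3 : |x - i| ≤ 2 := by rw [abs_le]; lia
    have e4 : |y - j| ≤ 2 := by rw [abs_le]; lia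
    simp only
    lia) t1 t2 t3 t4 hneg
  have hs : AL.lap Hs (i, j) + AL.lap Hs (i + 1, j) + AL.lap Hs (i, j + 1) +
      AL.lap Hs (i + 1, j + 1) ≤ ∑ v ∈ cnr (i, j), |AL.lap Hs v| := by
    rw [sum_cnr]
    have := le_abs_self (AL.lap Hs (i, j))
    have := le_abs_self (AL.lap Hs (i + 1, j))
    have := le_abs_self (AL.lap Hs (i, j + 1))
    have := le_abs_self (AL.lap Hs (i + 1, j + 1))
    simp only
    linarith
  have h0 := sqF_nonneg A B C D (i, j)
  have h2 : √2 ≤ 17 / 12 := by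
    rw [Real.sqrt_le_left (by norm_num)]; norm_num
  nlinarith

/-- Total mass of `Hf`. -/
theorem massT_f {m : ℝ} (hms : ∀ T : Finset Site, ∑ v ∈ T, |AL.lap Hs v| ≤ m) (T : Finset Site) :
    ∑ f ∈ T, |AL.lap Hf f| ≤ 56 * m := by
  classical
  have hout : ∀ x ∉ dia N, Hf x = 0 := fun x hx => h.Hf_zero hH (v := x) (by simp [mem_cnr]) hx
  obtain ⟨M, hM⟩ : ∃ M : ℕ, dia N ∪ R ⊆ box M := (H436.subset_box (dia N ∪ R)).exists
  have hout' : ∀ x ∉ box M, Hf x = 0 := fun x hx => hout x fun h => hx (hM (mem_union_left _ h))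
  have hs := supp_lap hout'
  set O : Finset Site := (box (M + 1)).filter fun f => ∃ u ∈ cnr f, u ∉ dia N with hO
  have hP : ∀ x ∉ R ∪ O, 0 ≤ AL.lap (fun y => -Hf y) x := by
    intro x hx
    have e : AL.lap (fun y => -Hf y) x = -AL.lap Hf x := by unfold AL.lap; ring
    rw [e]
    by_cases hb : x ∈ box (M + 1)
    · have h1 : ∀ u ∈ cnr x, u ∈ dia N := by
        by_contra hcon
        push Not at hcon
        exact hx (mem_union_right _ (mem_filter.2 ⟨hb, hcon⟩))
      have h2 : x ∉ R := fun h => hx (mem_union_left _ h)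
      obtain ⟨i, j⟩ := x
      have := h.lapf_nonpos hH (h1 (i, j) (by simp [mem_cnr])) (h1 (i + 1, j) (by simp [mem_cnr]))
        (h1 (i, j + 1) (by simp [mem_cnr])) (h1 (i + 1, j + 1) (by simp [mem_cnr])) (hE.τc i j h2)
      linarith
    · rw [hs x hb]; simp
  have key := mass_any (u := fun y => -Hf y) (Λ := dia N) (P := R ∪ O)
    (fun x hx => by simp [hout x hx]) hP T
  have e : ∀ x, AL.lap (fun y => -Hf y) x = -AL.lap Hf x := fun x => by unfold AL.lap; ring
  simp only [e, abs_neg, neg_neg] at key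
  have hRO : ∑ p ∈ R ∪ O, max 0 (AL.lap Hf p) ≤
      ∑ p ∈ R, max 0 (AL.lap Hf p) + ∑ p ∈ O, max 0 (AL.lap Hf p) := by
    have nn : ∀ x : Site, 0 ≤ max 0 (AL.lap Hf x) := fun x => le_max_left _ _
    rw [← sum_union_inter]; linarith [sum_nonneg (s := R ∩ O) fun x _ => nn x]
  have hsum : ∀ T' : Finset Site, ∑ f ∈ T', ∑ v ∈ cnr f, |AL.lap Hs v| ≤ 4 * m := by
    intro T'
    have h1 : ∑ f ∈ T', ∑ v ∈ cnr f, |AL.lap Hs v| ≤ 4 * ∑ v ∈ box (M + 2), |AL.lap Hs v| := by
      refine sum_sum_cnr (fun v => abs_nonneg _) fun v hv => ?_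
      have : ∀ x ∉ box (M + 1), Hs x = 0 := fun x hx =>
        hH.out x fun h => hx (H436.box_mono (Nat.le_succ M) (hM (mem_union_left _ h)))
      rw [supp_lap this v hv, abs_zero]
    exact h1.trans (mul_le_mul_of_nonneg_left (hms _) (by norm_num))
  have b2 : ∑ p ∈ R, max 0 (AL.lap Hf p) ≤ 12 * m := by
    refine (sum_le_sum fun f hf => lapfT_G h hH hE hf).trans ?_
    rw [← mul_sum]
    have := hsum R
    linarith
  have b3 : ∑ p ∈ O, max 0 (AL.lap Hf p) ≤ 16 * m := by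
    have h1 : ∀ f ∈ O, max 0 (AL.lap Hf f) ≤ 4 * ∑ v ∈ cnr f, |AL.lap Hs v| := by
      intro f hf
      obtain ⟨-, u, hu, hΛ⟩ := mem_filter.1 hf
      refine max_le (mul_nonneg (by norm_num) (sum_nonneg fun _ _ => abs_nonneg _)) ?_
      refine (h.lapf_outer hH hu hΛ).trans (mul_le_mul_of_nonneg_left ?_ (by norm_num))
      exact (sum_le_sum fun v _ => le_abs_self _).trans
        (sum_le_sum_of_subset_of_nonneg (filter_subset _ _) fun _ _ _ => abs_nonneg _)
    refine (sum_le_sum h1).trans ?_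
    rw [← mul_sum]
    have := hsum O
    linarith
  linarith

end

/-- The normalised spinor with the source at a tip. -/
noncomputable def tA (N : ℕ) (R : Multiset Site) (i : Fin 4) : Site → ℝ :=
  xA (dia N) R {tip N i} (AL.QQ (dia N) R 0)

/-- The normalised spinor with the source at a tip, lower right corners. -/
noncomputable def tB (N : ℕ) (R : Multiset Site) (i : Fin 4) : Site → ℝ :=
  xB (dia N) R {tip N i} (AL.QQ (dia N) R 0)

/-- The normalised spinor with the source at a tip, upper left corners. -/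
noncomputable def tC' (N : ℕ) (R : Multiset Site) (i : Fin 4) : Site → ℝ :=
  xC (dia N) R {tip N i} (AL.QQ (dia N) R 0)

/-- The normalised spinor with the source at a tip, upper right corners. -/
noncomputable def tD (N : ℕ) (R : Multiset Site) (i : Fin 4) : Site → ℝ :=
  xD (dia N) R {tip N i} (AL.QQ (dia N) R 0)

theorem tip_spr (N : ℕ) (R : Multiset Site) (i : Fin 4) : Spr (dia N) (tauR R) (theA {tip N i})
    (tA N R i) (tB N R i) (tC' N R i) (tD N R i) :=
  spr_QQ R (by simpa using tip_mem N i) _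

/-- The face of a tip, as seen from inside, has a corner outside. -/
theorem tip_out (N : ℕ) (i : Fin 4) : ∃ u ∈ cnr (tip N i), u ∉ dia N := by
  have out : ∀ s t : ℤ, (N : ℤ) < |s| + |t| → ((s, t) : Site) ∉ dia N := by
    intro s t h hc
    rw [mem_dia] at hc
    exact absurd hc (not_le.2 h)
  fin_cases i
  · refine ⟨((N : ℤ) + 1, 0), by simp [mem_cnr, tip], out _ _ ?_⟩
    rw [abs_of_nonneg (by omega)]; simp
  · refine ⟨(0, (N : ℤ) + 1), by simp [mem_cnr, tip], out _ _ ?_⟩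
    rw [abs_of_nonneg (a := (N:ℤ) + 1) (by omega)]; simp
  · refine ⟨(-(N : ℤ), 1), by simp [mem_cnr, tip], out _ _ ?_⟩
    rw [abs_neg, abs_of_nonneg (by omega)]; simp
  · refine ⟨(1, -(N : ℤ)), by simp [mem_cnr, tip], out _ _ ?_⟩
    rw [abs_neg, abs_of_nonneg (a := (N:ℤ)) (by omega)]; simp

/-- The faces next to a tip have corners outside. -/
theorem tip_nbr {N : ℕ} (i : Fin 4) (d : Site) (hd : d = (1, 0) ∨ d = (-1, 0) ∨ d = (0, 1) ∨
    d = (0, -1)) : ∃ f, tip N i + d ∈ cnr f ∧ ∃ u ∈ cnr f, u ∉ dia N := by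
  have out : ∀ s t : ℤ, (N : ℤ) < |s| + |t| → ((s, t) : Site) ∉ dia N := by
    intro s t h hc
    rw [mem_dia] at hc
    exact absurd hc (not_le.2 h)
  by_cases hΛ : tip N i + d ∈ dia N
  swap
  · exact ⟨tip N i + d, by simp [mem_cnr], tip N i + d, by simp [mem_cnr], hΛ⟩
  · fin_cases i
    · refine ⟨((N : ℤ) - 1, 0), ?_, ((N : ℤ), 1), by simp [mem_cnr], out _ _ (by
        rw [abs_of_nonneg (by omega)]; simp)⟩
      rcases hd with rfl | rfl | rfl | rfl <;> simp [tip, mem_cnr, mem_dia] at hΛ ⊢ <;>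
        (try rw [abs_le] at hΛ) <;> omega
    · refine ⟨(0, (N : ℤ) - 1), ?_, (1, (N : ℤ)), by simp [mem_cnr], out _ _ (by
        rw [abs_of_nonneg (a := (N:ℤ)) (by omega)]; simp)⟩
      rcases hd with rfl | rfl | rfl | rfl <;> simp [tip, mem_cnr, mem_dia] at hΛ ⊢ <;>
        (try rw [abs_le] at hΛ) <;> omega
    · refine ⟨(-(N : ℤ), 0), ?_, (-(N : ℤ), 1), by simp [mem_cnr], out _ _ (by
        rw [abs_neg, abs_of_nonneg (by omega)]; simp)⟩
      rcases hd with rfl | rfl | rfl | rfl <;> simp [tip, mem_cnr, mem_dia] at hΛ ⊢ <;>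
        (try rw [abs_le] at hΛ) <;> omega
    · refine ⟨(0, -(N : ℤ)), ?_, (1, -(N : ℤ)), by simp [mem_cnr], out _ _ (by
        rw [abs_neg, abs_of_nonneg (a := (N:ℤ)) (by omega)]; simp)⟩
      rcases hd with rfl | rfl | rfl | rfl <;> simp [tip, mem_cnr, mem_dia] at hΛ ⊢ <;>
        (try rw [abs_le] at hΛ) <;> omega

/-- The masses of the `H`-function of the spinor with the source at a tip. -/
theorem tip_mass {N : ℕ} {R : Multiset Site} (hR : R.Nodup)
    (hr : ∀ r ∈ R, |r.1| + |r.2| + 4 ≤ (N : ℤ)) (i : Fin 4) :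
    ∃ Hs Hf : Site → ℝ, IsH (dia N) (tA N R i) (tB N R i) (tC' N R i) (tD N R i) Hs Hf ∧
      (∀ w, w ≠ tip N i → 0 ≤ AL.lap Hs w) ∧
      (∀ T : Finset Site, ∑ w ∈ T, |AL.lap Hs w| ≤ 8) ∧
      ∀ T : Finset Site, ∑ w ∈ T, |AL.lap Hf w| ≤ 448 := by
  classical
  have h := tip_spr N R i
  obtain ⟨Hs, Hf, hH⟩ := h.exists_H (colConvex_dia N)
  have hnorm : |(tip N i).1| + |(tip N i).2| = N := by
    fin_cases i <;> simp [tip]
  have hE : ExT N (tauR R) (theA {tip N i}) (tip N i) R.toFinset := by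
    refine ⟨fun i' j' hij => theA_step (by simpa using hij),
      fun i' j' hij => tauR_step (by simpa using hij), fun w hw => hr w (by simpa using hw),
      fun f hf => tauR_branch hR (i := f.1) (j := f.2) (by simpa using hf), fun f hf hc => ?_⟩
    have h1 := hr f (by simpa using hf)
    have h2 : |(tip N i).1| + |(tip N i).2| ≤ |f.1| + |f.2| + 2 := by
      have e1 := abs_add_le f.1 1
      have e2 := abs_add_le f.2 1
      rw [abs_one] at e1 e2
      have f1 := abs_nonneg (f.1 + 1)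
      rcases mem_cnr.1 hc with h3 | h3 | h3 | h3 <;> rw [h3] <;> (try dsimp only) <;> omega
    omega
  have hZ := QQ_pos (dia N) R
  have hAt : tA N R i (tip N i) = 1 := by
    unfold tA xA
    rw [if_pos (tip_mem N i)]
    have e : (tip N i ::ₘ ({tip N i} : Multiset Site)) = tip N i ::ₘ tip N i ::ₘ 0 := rfl
    rw [e, QQ_spin_pair]
    have h1 := QQ_tipf N i R (A := 0) (by simp)
    rw [abs_of_pos (QQ_pos _ _), abs_of_pos (QQ_pos _ _)] at h1
    rw [h1]
    exact div_self hZ.ne'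
  obtain ⟨u, hu, huo⟩ := tip_out N i
  have hHf0 : Hf (tip N i) = 0 := h.Hf_zero hH hu huo
  have hHs1 : Hs (tip N i) = 1 := by
    have := hH.a (tip N i).1 (tip N i).2
    simp only [Prod.mk.eta] at this
    rw [hAt, hHf0] at this
    linarith
  have hnb : ∀ d : Site, (d = (1, 0) ∨ d = (-1, 0) ∨ d = (0, 1) ∨ d = (0, -1)) →
      0 ≤ Hs (tip N i + d) := by
    intro d hd
    obtain ⟨f, hf, u, hu, huo⟩ := tip_nbr (N := N) i d hd
    have h1 := h.Hf_zero hH hu huo
    have h2 := h.Hf_le hH f (tip N i + d) hf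
    rwa [h1] at h2
  have hlapt : -AL.lap Hs (tip N i) ≤ 4 := by
    have b1 := hnb (1, 0) (Or.inl rfl)
    have b2 := hnb (-1, 0) (Or.inr (Or.inl rfl))
    have b3 := hnb (0, 1) (Or.inr (Or.inr (Or.inl rfl)))
    have b4 := hnb (0, -1) (Or.inr (Or.inr (Or.inr rfl)))
    rw [← lap436]
    unfold H436.lap
    rw [hHs1]
    linarith
  have hms : ∀ T : Finset Site, ∑ w ∈ T, |AL.lap Hs w| ≤ 8 := by
    intro T
    refine (mass_any (P := {tip N i}) hH.out (fun x hx => lapT_nn h hH hE (by simpa using hx))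
      T).trans ?_
    rw [sum_singleton]
    have : max 0 (-AL.lap Hs (tip N i)) ≤ 4 := max_le (by norm_num) hlapt
    linarith
  refine ⟨Hs, Hf, hH, fun w hw => lapT_nn h hH hE hw, hms, fun T => ?_⟩
  have := massT_f h hH hE hms T
  linarith

/-! ### the kernel at the tips -/

theorem el_abs (l : List Cn) : |el l| = 1 := by
  induction l with
  | nil => simp [el]
  | cons c l ih =>
    simp only [el]
    rw [abs_mul, ih, mul_one]
    have h := map_sq l (ep c) (ep_sq c)
    have h2 : |(l.map (ep c)).prod| * |(l.map (ep c)).prod| = 1 := by rw [← abs_mul, h, abs_one]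
    nlinarith [abs_nonneg (l.map (ep c)).prod]

/-- The kernel with one corner at a tip. -/
theorem Wf_tip {N : ℕ} (R : Multiset Site) (i : Fin 4) {c : Cn} (hc : c.1 ∈ dia N) :
    |Wf (dia N) R [c, (tip N i, tf N i)]| =
      |AL.QQ (dia N) (c.2 ::ₘ R) (c.1 ::ₘ {tip N i}) / AL.QQ (dia N) R 0| := by
  unfold Wf
  rw [abs_div, abs_mul, el_abs, one_mul, abs_div]
  congr 1
  have e1 : fcs [c, (tip N i, tf N i)] + R = tf N i ::ₘ (c.2 ::ₘ R) := by
    rw [fcs_cons, fcs_cons, Multiset.cons_swap, Multiset.cons_add, Multiset.cons_add]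
    simp [fcs]
  have e2 : sps [c, (tip N i, tf N i)] = c.1 ::ₘ {tip N i} := rfl
  rw [e1, e2]
  refine QQ_tf N i _ fun v hv => ?_
  rcases Multiset.mem_cons.1 hv with rfl | hv
  · exact hc
  · rw [Multiset.mem_singleton] at hv
    rw [hv]; exact tip_mem N i

/-- The kernel between a tip and a source. -/
theorem Wf_tip' {N : ℕ} (R : Multiset Site) (i : Fin 4) {v : Site} (hv : v ∈ dia N) :
    |Wf (dia N) (v ::ₘ R) [(tip N i, tf N i), (v, v)]| =
      |xA (dia N) R {v} (zj (dia N) R v) (tip N i)| := by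
  unfold Wf xA
  rw [if_pos (tip_mem N i), abs_div, abs_mul, el_abs, one_mul, abs_div]
  congr 1
  have e1 : fcs [(tip N i, tf N i), (v, v)] + v ::ₘ R = tf N i ::ₘ v ::ₘ v ::ₘ R := by
    rw [fcs_cons, fcs_cons, Multiset.cons_add, Multiset.cons_add]
    simp [fcs]
  have e2 : sps [(tip N i, tf N i), (v, v)] = tip N i ::ₘ {v} := rfl
  have hA : ∀ u ∈ tip N i ::ₘ ({v} : Multiset Site), u ∈ dia N := by
    intro u hu
    rcases Multiset.mem_cons.1 hu with rfl | hu
    · exact tip_mem N i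
    · rw [Multiset.mem_singleton] at hu
      rw [hu]; exact hv
  rw [e1, e2, QQ_tf N i _ hA, QQ_dis_pair, QQ_tipf N i _ hA]

end Vale.Agent.P144.H436
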