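import Vale.Agent.P144.H436.Cor

/-!
The critical two-point function of the plane is bounded by the diagonal one.
-/

namespace Vale.Agent.P144.H436

open Finset Vale.Agent.P144 Filter Topology

/-- Reflection of a pair in the line `x - y = c`. -/
theorem mms_gen {β J : ℝ} (hβ : 0 ≤ β) (hJ : 0 ≤ J) {a b c : ℤ} (hc : 0 < c) (hab : c < a - b)
    (hs : 0 < a + b) {M : ℕ} (hM : |a| + |b| + c ≤ M) :
    cor β J 0 (boxAt (c, 0) M) {(a, b), (0, 0)} ≤ cor β J 0 (boxAt (c, 0) M) {(a, b), (c, -c)} := by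
  set Q := boxAt (c, 0) M with hQ
  have ha1 := le_abs_self a
  have ha2 := neg_abs_le a
  have hb1 := le_abs_self b
  have hb2 := neg_abs_le b
  have ha3 := abs_nonneg a
  have hb3 := abs_nonneg b
  have hmem : ∀ {x : Site}, x ∈ Q ↔ |x.1 - c| ≤ M ∧ |x.2| ≤ M := by
    intro x; rw [hQ, mem_boxAt]; simp
  let r : Site → Site := fun x => (x.2 + c, x.1 - c)
  have hr : ∀ x, x ∈ Q → r x ∈ Q := by
    intro x hx
    rw [hmem] at hx ⊢
    simp only [r]
    refine ⟨?_, hx.1⟩
    have : x.2 + c - c = x.2 := by ring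
    rw [this]; exact hx.2
  let ρ : Q → Q := fun i => ⟨r i.1, hr i.1 i.2⟩
  let pos : Q → Prop := fun i => c < i.1.1 - i.1.2
  have hxQ : ((a, b) : Site) ∈ Q := by
    rw [hmem]; constructor
    · show |a - c| ≤ _
      rw [abs_le]; constructor <;> omega
    · show |b| ≤ _
      omega
  have hyQ : ((c, -c) : Site) ∈ Q := by
    rw [hmem]; constructor
    · simp
    · show |-c| ≤ _
      rw [abs_le]; constructor <;> omega
  have h0Q : ((0, 0) : Site) ∈ Q := by
    rw [hmem]; constructor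
    · show |(0:ℤ) - c| ≤ _
      rw [abs_le]; constructor <;> omega
    · simp
  have key := mms (ρ := ρ) (pos := pos) (K := KK β J 0 Q)
    (fun i => by
      apply Subtype.ext
      show r (r i.1) = i.1
      simp only [r]
      ext <;> simp)
    (fun i hi => by
      simp only [pos, ρ, r] at hi ⊢
      omega)
    (fun i hi hi' => by
      simp only [pos, ρ, r] at hi hi'
      apply Subtype.ext
      show r i.1 = i.1
      simp only [r]
      ext <;> simp <;> omega)
    (KK_nonneg hβ hJ le_rfl Q)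
    (fun i j => by
      simp only [KK, cpl, ρ, r]
      have : dsq (i.1.2 + c, i.1.1 - c) (j.1.2 + c, j.1.1 - c) = dsq i.1 j.1 := by
        simp only [dsq]; ring
      rw [this])
    (fun i j hi hj => by
      simp only [pos, ρ, r] at hi hj
      have hd : ∀ u v : Site, c < u.1 - u.2 → v.1 - v.2 < c → dsq u v ≠ 1 := by
        intro u v hu hv h1
        simp only [dsq] at h1
        nlinarith [sq_nonneg (u.1 - v.1 + (u.2 - v.2))]
      have h1 := hd i.1 j.1 hi (by omega)
      have h2 : dsq j.1 i.1 ≠ 1 := by rw [dsq_comm]; exact h1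
      simp only [KK, cpl, h1, h2, if_false, ite_self, mul_zero, and_self])
    (x := ⟨(a, b), hxQ⟩) (y := ⟨(c, -c), hyQ⟩) (by simp only [pos]; omega)
    (by simp only [pos]; omega)
  have hne1 : ((a, b) : Site) ≠ (0, 0) := by
    intro h
    have h1 := (Prod.ext_iff.1 h).1; have h2 := (Prod.ext_iff.1 h).2; simp only at h1 h2; omega
  have hne2 : ((a, b) : Site) ≠ (c, -c) := by
    intro h
    have h1 := (Prod.ext_iff.1 h).1; have h2 := (Prod.ext_iff.1 h).2; simp only at h1 h2; omega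
  have hρy : ρ ⟨(c, -c), hyQ⟩ = ⟨(0, 0), h0Q⟩ := by
    apply Subtype.ext
    show r (c, -c) = (0, 0)
    simp [r]
  rw [hρy] at key
  rw [cor_pair _ _ _ _ hne1, cor_pair _ _ _ _ hne2]
  simp only [exs_mem hxQ, exs_mem h0Q, exs_mem hyQ]
  exact key


/-- the free correlations of the plane -/
noncomputable def cl (β J : ℝ) (A : Finset Site) : ℝ :=
  limUnder atTop (fun M : ℕ => cor β J 0 (box M) A)

section

variable {β J : ℝ} (hβ : 0 ≤ β) (hJ : 0 ≤ J)

include hβ hJ

theorem cl_tendsto (A : Finset Site) :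
    Tendsto (fun M : ℕ => cor β J 0 (box M) A) atTop (𝓝 (cl β J A)) := by
  obtain ⟨l, h⟩ := cor_tendsto hβ hJ (le_refl (0:ℝ)) A
  rw [cl, h.limUnder_eq]
  exact h

theorem cl_map (f : Site ≃ Site) (hf : ∀ u v, dsq (f u) (f v) = dsq u v) (A : Finset Site) :
    cl β J (A.map f.toEmbedding) = cl β J A :=
  tendsto_nhds_unique (cl_tendsto hβ hJ _) (cor_lim_map hβ hJ le_rfl f hf (cl_tendsto hβ hJ A))

theorem cor_le_cl {Λ A : Finset Site} (hA : A ⊆ Λ) : cor β J 0 Λ A ≤ cl β J A :=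
  cor_le_lim hβ hJ le_rfl hA (cl_tendsto hβ hJ A)

theorem cl_nonneg (A : Finset Site) : 0 ≤ cl β J A :=
  ge_of_tendsto' (cl_tendsto hβ hJ A) fun _ => cor_nonneg hβ hJ le_rfl _ _

theorem cl_boxAt (t : Site) (A : Finset Site) :
    Tendsto (fun M : ℕ => cor β J 0 (boxAt t M) A) atTop (𝓝 (cl β J A)) := by
  have h := cl_tendsto hβ hJ (A.map (tr (-t)).toEmbedding)
  rw [cl_map hβ hJ _ (dsq_tr _)] at h
  refine h.congr fun M => ?_
  rw [← cor_boxAt β J 0 t M]
  congr 1
  rw [Finset.map_map]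
  ext x
  simp [tr]

theorem cl_mms {a b c : ℤ} (hc : 0 < c) (hab : c < a - b) (hs : 0 < a + b) :
    cl β J {(a, b), (0, 0)} ≤ cl β J {(a, b), (c, -c)} := by
  refine le_of_tendsto_of_tendsto (cl_boxAt hβ hJ (c, 0) _) (cl_boxAt hβ hJ (c, 0) _) ?_
  filter_upwards [eventually_ge_atTop (|a| + |b| + c).toNat] with M hM
  refine mms_gen hβ hJ hc hab hs ?_
  have h1 := abs_nonneg a
  have h2 := abs_nonneg b
  omega

theorem cl_chain {u v w : Site} (huv : u ≠ v) (hvw : v ≠ w) (huw : u ≠ w) :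
    cl β J {u, v} * cl β J {v, w} ≤ cl β J {u, w} := by
  refine le_of_tendsto_of_tendsto' ((cl_tendsto hβ hJ _).mul (cl_tendsto hβ hJ _))
    (cl_tendsto hβ hJ _) fun M => ?_
  exact cor_chain hβ hJ le_rfl (box M) huv hvw huw

theorem cl_edge {u v : Site} (h : dsq u v = 1) : Real.tanh (β * J) ≤ cl β J {u, v} := by
  refine ge_of_tendsto (cl_tendsto hβ hJ _) ?_
  filter_upwards [subset_box {u, v}] with M hM
  exact cor_edge hβ hJ le_rfl h (hM (by simp)) (hM (by simp))

theorem cl_tr (t u v : Site) : cl β J {u + t, v + t} = cl β J {u, v} := by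
  rw [← cl_map hβ hJ (tr t) (dsq_tr t) {u, v}, Finset.map_insert, Finset.map_singleton]
  rfl

/-- the two-point function at sites with coordinates of a fixed order -/
theorem cl_two (hk : 0 < Real.tanh (β * J)) {D : ℕ → ℝ}
    (hD : ∀ k : ℕ, 1 ≤ k → cl β J {(0, 0), ((k : ℤ), (k : ℤ))} = D k) {a b : ℤ}
    (hab : b ≤ a) {k : ℕ} (hk1 : 1 ≤ k) (hs : (k : ℤ) = (a + b) / 2) :
    cl β J {(a, b), (0, 0)} ≤ (Real.tanh (β * J))⁻¹ * D k := by
  have hdiag : ∀ t : Site, cl β J {(t.1 + k, t.2 + k), t} = D k := by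
    intro t
    have h := cl_tr hβ hJ t (0, 0) ((k : ℤ), (k : ℤ))
    rw [hD k hk1] at h
    rw [← h, Finset.pair_comm]
    have e1 : ((0, 0) : Site) + t = t := by ext <;> simp
    have e2 : (((k : ℤ), (k : ℤ)) : Site) + t = (t.1 + k, t.2 + k) := by ext <;> simp [add_comm]
    rw [e1, e2]
  have hDn : 0 ≤ D k := by rw [← hD k hk1]; exact cl_nonneg hβ hJ _
  have ht1 : 1 ≤ (Real.tanh (β * J))⁻¹ := by
    rw [one_le_inv₀ hk]
    exact (Real.tanh_lt_one _).le
  have heven : ∀ t : Site, t.1 + k = a → t.2 + k = b →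
      cl β J {(a, b), t} ≤ (Real.tanh (β * J))⁻¹ * D k := by
    intro t h1 h2
    have h := hdiag t
    rw [h1, h2] at h
    rw [h]
    exact le_mul_of_one_le_left hDn ht1
  have hodd : ∀ t w : Site, w.1 + k = a → w.2 + k = b → dsq t w = 1 → ((a, b) : Site) ≠ t →
      cl β J {(a, b), t} ≤ (Real.tanh (β * J))⁻¹ * D k := by
    intro t w hw1 hw2 hw3 hne2
    have h := hdiag w
    rw [hw1, hw2] at h
    have h5 := cl_edge hβ hJ hw3
    have htw : t ≠ w := by rintro rfl; rw [dsq_self] at hw3; omega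
    have hne : ((a, b) : Site) ≠ w := by
      intro h; rw [← h] at hw1; simp only at hw1; omega
    have h4 := cl_chain hβ hJ hne2 htw hne
    rw [h] at h4
    rw [inv_mul_eq_div, le_div_iff₀ hk]
    exact (mul_le_mul_of_nonneg_left h5 (cl_nonneg hβ hJ _)).trans h4
  have hpar : a + b = 2 * k ∨ a + b = 2 * k + 1 := by omega
  by_cases h2 : 2 ≤ a - b
  · refine (cl_mms hβ hJ (c := a - k) (by omega) (by omega) (by omega)).trans ?_
    rcases hpar with hp | hp
    · exact heven _ (by simp) (by simp only; omega)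
    · refine hodd _ (a - k, -(a - k) + 1) (by simp) (by simp only; omega)
        (by simp only [dsq]; ring) ?_
      intro h
      have h1 := (Prod.ext_iff.1 h).1; simp only at h1; omega
  · rcases hpar with hp | hp
    · exact heven _ (by simp only; omega) (by simp only; omega)
    · refine hodd _ (1, 0) (by simp only; omega) (by simp only; omega)
        (by simp [dsq]) ?_
      intro h
      have h1 := (Prod.ext_iff.1 h).1; simp only at h1; omega

theorem cl_swap (a b : ℤ) : cl β J {(a, b), (0, 0)} = cl β J {(b, a), (0, 0)} := by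
  have h := cl_map hβ hJ (Equiv.prodComm ℤ ℤ) (fun u v => by
    simp only [Equiv.prodComm_apply, dsq, Prod.fst_swap, Prod.snd_swap]; ring) {(b, a), (0, 0)}
  rw [Finset.map_insert, Finset.map_singleton] at h
  exact h

/-- the reflection `(x, y) ↦ (-x, y)` -/
def rfl1 : Site ≃ Site := ⟨fun x => (-x.1, x.2), fun x => (-x.1, x.2), fun x => by simp,
  fun x => by simp⟩

theorem cl_neg (a b : ℤ) : cl β J {(-a, b), (0, 0)} = cl β J {(a, b), (0, 0)} := by
  have h := cl_map hβ hJ rfl1 (fun u v => by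
    simp only [rfl1, Equiv.coe_fn_mk, dsq]; ring) {(a, b), (0, 0)}
  rw [Finset.map_insert, Finset.map_singleton] at h
  simpa [rfl1] using h

theorem cl_abs (a b : ℤ) : cl β J {(a, b), (0, 0)} = cl β J {(|a|, |b|), (0, 0)} := by
  have h1 : ∀ a b : ℤ, cl β J {(|a|, b), (0, 0)} = cl β J {(a, b), (0, 0)} := by
    intro a b
    rcases abs_choice a with h | h
    · rw [h]
    · rw [h, cl_neg hβ hJ]
  rw [h1, cl_swap hβ hJ, cl_swap hβ hJ a, h1]

/-- The two-point function is bounded by the diagonal one. -/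
theorem cl_le (hk : 0 < Real.tanh (β * J)) {D : ℕ → ℝ}
    (hD : ∀ k : ℕ, 1 ≤ k → cl β J {(0, 0), ((k : ℤ), (k : ℤ))} = D k) (u v : Site) {k : ℕ}
    (hk1 : 1 ≤ k) (hs : (k : ℤ) = (|u.1 - v.1| + |u.2 - v.2|) / 2) :
    cl β J {u, v} ≤ (Real.tanh (β * J))⁻¹ * D k := by
  have e : cl β J {u, v} = cl β J {(u.1 - v.1, u.2 - v.2), (0, 0)} := by
    rw [← cl_tr hβ hJ (-v)]
    congr 2
    congr 1
    ext <;> simp
  rw [e, cl_abs hβ hJ]
  rcases le_total |u.2 - v.2| |u.1 - v.1| with h | h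
  · exact cl_two hβ hJ hk hD h hk1 hs
  · rw [cl_swap hβ hJ]
    exact cl_two hβ hJ hk hD h hk1 (by rw [add_comm]; exact hs)

end

theorem tanh_kc_pos : 0 < Real.tanh Kc := by
  rw [Real.tanh_eq_sinh_div_cosh]
  exact div_pos (Real.sinh_pos_iff.2 kc_pos) (Real.cosh_pos _)

/-- Block G3 for all pairs of sites in any finite volume. -/
theorem fcor_le {J : ℝ} (hJ : 0 < J)
    (hE : ∀ k : ℕ, 1 ≤ k → Tendsto (fun M : ℕ => fcor J (box M) {(0, 0), ((k : ℤ), (k : ℤ))}) atTop
      (𝓝 (Dg k))) (Λ : Finset Site) {u v : Site} (hu : u ∈ Λ) (hv : v ∈ Λ) {k : ℕ} (hk1 : 1 ≤ k)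
    (hs : (k : ℤ) = (|u.1 - v.1| + |u.2 - v.2|) / 2) :
    fcor J Λ {u, v} ≤ (Real.tanh Kc)⁻¹ * Dg k := by
  have hβ : 0 ≤ Kc / J := (div_pos kc_pos hJ).le
  have hβJ : Kc / J * J = Kc := div_mul_cancel₀ _ hJ.ne'
  rw [fcor_eq]
  refine (cor_le_cl hβ hJ.le ?_).trans ?_
  · intro x hx
    simp only [Finset.mem_insert, Finset.mem_singleton] at hx
    rcases hx with rfl | rfl
    · exact hu
    · exact hv
  · have h := cl_le hβ hJ.le (by rw [hβJ]; exact tanh_kc_pos) (D := Dg)
      (fun k hk => by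
        have h := hE k hk
        simp only [fcor_eq] at h
        exact tendsto_nhds_unique (cl_tendsto hβ hJ.le _) h) u v hk1 hs
    rw [hβJ] at h
    exact h

end Vale.Agent.P144.H436
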